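import Vale.Agent.P166F.Low.Target.Setup

/-!
P166: the gain against truncated weights, bounded log-averages of the probes, and probes against the
covariance.
-/

namespace Vale.Agent.P166F.Low.Tgt

open MeasureTheory ProbabilityTheory Filter
open scoped Topology
open Vale.Agent.P166N.Spectrum (OrthInvLaw)

section Systems

variable {κ : Type} [DecidableEq κ] {M n P : ℕ} {dl : κ → ℝ} {lbl : Fin M → κ} {f : κ} {s : ℝ}
  {y : CIdx Unit P → ℝ} {μ : Measure (Fin M → Fin M → ℝ)}

omit [DecidableEq κ] in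
lemma sq_coord_le {U : Fin M → Fin M → ℝ} (hU : IsOrth U) (σ : Fin M → Bool) (i : Fin M) :
    coord U σ i ^ 2 ≤ M :=
  (Finset.single_le_sum (f := fun i => coord U σ i ^ 2) (fun i _ => sq_nonneg _)
    (Finset.mem_univ i)).trans_eq (sum_coord_sq_orth hU σ)

lemma ev_row_moments (hμ : OrthInvLaw M μ) {c : ℝ} (hc : 0 < c) (i : Fin M)
    (h : c * M ≤ csize lbl (lbl i)) {r : ℕ} (a : Fin r) :
    ev dl n lbl f s y μ (fun W x => coord W (x a) i ^ 2) ≤ 1 / c ∧
      ev dl n lbl f s y μ (fun W x => coord W (x a) i ^ 4) ≤ 3 / c ^ 2 := by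
  set S := Finset.univ.filter fun j => lbl j = lbl i with hS
  have hi : i ∈ S := by simp [S]
  have hS' : ∀ j ∈ S, lbl j = lbl i := fun j hj => (Finset.mem_filter.1 hj).2
  have h' : c * M ≤ (S.card : ℝ) := h
  have hpos : (0 : ℝ) < S.card := by exact_mod_cast Finset.card_pos.2 ⟨i, hi⟩
  constructor
  · refine (ev_sq_le (orthLaw_of_inv hμ) (invOn_of_inv hμ S) hS' hi a).trans ?_
    rw [div_le_div_iff₀ hpos hc]
    linarith
  · refine (ev_four_le (orthLaw_of_inv hμ) (invOn_of_inv hμ S) hS' hi a).trans ?_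
    rw [div_le_div_iff₀ (by positivity) (by positivity)]
    nlinarith [pow_le_pow_left₀ (by positivity) h' 2]

lemma pmean_gmn (hν : OrthInvLaw M μ) {F : (Fin M → Fin M → ℝ) → (Fin M → Bool) → ℝ}
    (hF : ∀ σ, Continuous fun U => F U σ) :
    pmean μ (fun U g => gmn (fun σ => pertH dl n lbl f s y U g σ) (F U)) =
      ev dl n lbl f s y μ (fun W (x : Fin 1 → Fin M → Bool) => F W (x 0)) := by
  rw [← pmean_eq_ev hν (OBdd.of_continuous fun x => hF (x 0))]
  simp only [← rav_one]
  rfl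

lemma integrable_gmn (hν : OrthInvLaw M μ) {F : (Fin M → Fin M → ℝ) → (Fin M → Bool) → ℝ}
    (hF : ∀ σ, Continuous fun U => F U σ) :
    Integrable (fun z : (Fin M → Fin M → ℝ) × EuclideanSpace ℝ (GIdx Unit P M) =>
      gmn (fun σ => pertH dl n lbl f s y z.1 z.2 σ) (F z.1)) (μ.prod (stdGaussian _)) := by
  have := hν.prob
  have hb : OBdd (fun W (x : Fin 1 → Fin M → Bool) => F W (x 0)) := OBdd.of_continuous fun x => hF (x 0)
  obtain ⟨B, hB⟩ := hb.bdd
  simp only [← rav_one]
  exact Integrable.of_bound (measurable_rav_pertH (fun x => hb.meas x)).aestronglyMeasurable B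
    ((ae_orth_prod hν).mono fun z hz => (Real.norm_eq_abs _).trans_le (abs_rav_le _ fun x => hB z.1 x hz))

end Systems

section Base

variable {κ : Type} [DecidableEq κ] [Fintype κ] {e f : κ} {N n P : ℕ} {dl : κ → ℝ} {s : ℝ}
  {y : CIdx Unit P → ℝ} {ν : Measure (Fin N → Fin N → ℝ)}

lemma continuous_fields (b : Base e f N) (σ : Fin N → Bool) (x : Fld e) :
    Continuous fun U => b.fields U σ x := continuous_coord σ (b.row x)

@[fun_prop]
lemma continuous_zn : Continuous (zn (e := e)) := by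
  unfold zn
  fun_prop

lemma continuous_zn_fields (b : Base e f N) (σ : Fin N → Bool) :
    Continuous fun U => zn (b.fields U σ) :=
  continuous_zn.comp (continuous_pi fun x => continuous_fields b σ x)

lemma zn_le_of_orth (b : Base e f N) {U : Fin N → Fin N → ℝ} (hU : IsOrth U) (σ : Fin N → Bool) :
    zn (b.fields U σ) ≤ 1 + (Fintype.card (Fld e) : ℝ) * N := by
  rw [zn]
  refine add_le_add le_rfl ((Finset.sum_le_sum fun x _ => sq_coord_le hU σ (b.row x)).trans_eq ?_)
  simp

/-- The mean squares of the fields in a base. -/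
lemma ev_zn_le (b : Base e f N) (hν : OrthInvLaw N ν) {c : ℝ} (hc : 0 < c)
    (h : c * N ≤ csize b.lbl e) :
    ev dl n b.lbl f s y ν (fun W (x : Fin 1 → Fin N → Bool) => zn (b.fields W (x 0))) ≤
      1 + (Fintype.card (Fld e) : ℝ) / c := by
  have hμ := orthLaw_of_inv hν
  simp only [zn]
  have h1 : OBdd fun (_ : Fin N → Fin N → ℝ) (_ : Fin 1 → Fin N → Bool) => (1 : ℝ) :=
    OBdd.of_continuous fun _ => continuous_const
  have h2 : OBdd fun W (x : Fin 1 → Fin N → Bool) => ∑ p, b.fields W (x 0) p ^ 2 :=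
    OBdd.of_continuous fun x => continuous_finsetSum _ fun p _ => (continuous_fields b (x 0) p).pow 2
  rw [ev_add hμ h1 h2, ev_const hμ,
    ev_sum hμ _ (fun p W (x : Fin 1 → Fin N → Bool) => b.fields W (x 0) p ^ 2)
      fun p => OBdd.of_continuous fun x => (continuous_fields b (x 0) p).pow 2]
  refine add_le_add le_rfl ((Finset.sum_le_sum fun p _ =>
    (ev_row_moments hν hc (b.row p) (by rw [b.inRest]; exact h) 0).1).trans_eq ?_)
  simp [div_eq_mul_inv]

/-- The energy of moved rows. -/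
noncomputable def movQ (dl : κ → ℝ) (f : κ) (g : κ → κ) (z : Fld e → ℝ) : ℝ :=
  (∑ x, dl (newLab (f := f) g x) * z x ^ 2) / 2

lemma delQ_eq (hef : e ≠ f) (he : dl e = 0) (hf : dl f = 0) (k : κ) (z : Fld e → ℝ) :
    delQ dl e k z = movQ dl f (fun j => if j = f ∨ j = k then e else j) z := by
  have h3 : ∀ j : Slot e, dl (lab e f j.1) = dl j.1 := fun j => by
    unfold lab
    split_ifs with h
    · rw [he, h, hf]
    · rfl
  simp only [delQ, probeQ, movQ, newLab, Fintype.sum_sum_type, Sum.elim_inl, Sum.elim_inr, h3, add_div]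
  congr 2
  refine Finset.sum_congr rfl fun j _ => ?_
  by_cases hk : j.1 = k <;> by_cases hjf : j.1 = f <;> simp [hk, hjf, he, hf]

lemma probeQ_eq (hef : e ≠ f) (he : dl e = 0) (hf : dl f = 0) (z : Fld e → ℝ) :
    probeQ dl e z = movQ dl f (fun _ => e) z := by
  have h3 : ∀ j : Slot e, dl (lab e f j.1) = dl j.1 := fun j => by
    unfold lab
    split_ifs with h
    · rw [he, h, hf]
    · rfl
  simp [probeQ, movQ, newLab, Fintype.sum_sum_type, he, h3]

lemma movQ_bounds (hd : ∀ j, 0 ≤ dl j) (g : κ → κ) (z : Fld e → ℝ) :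
    0 ≤ movQ dl f g z ∧ movQ dl f g z ≤ (∑ j, |dl j|) * ∑ x, z x ^ 2 ∧
      movQ dl f g z ^ 2 ≤ (∑ j, |dl j|) ^ 2 * ((Fintype.card (Fld e) : ℝ) * ∑ x, z x ^ 4) := by
  have h0 : 0 ≤ movQ dl f g z :=
    div_nonneg (Finset.sum_nonneg fun x _ => mul_nonneg (hd _) (sq_nonneg _)) zero_le_two
  have h1 : movQ dl f g z ≤ (∑ j, |dl j|) * ∑ x, z x ^ 2 := by
    rw [movQ, Finset.mul_sum, div_le_iff₀ two_pos]
    refine (Finset.sum_le_sum fun x _ =>
      mul_le_mul_of_nonneg_right ((le_abs_self _).trans (slope_le dl _)) (sq_nonneg _)).trans ?_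
    exact le_mul_of_one_le_right (Finset.sum_nonneg fun x _ =>
      mul_nonneg (Finset.sum_nonneg fun j _ => abs_nonneg _) (sq_nonneg _)) one_le_two
  refine ⟨h0, h1, (pow_le_pow_left₀ h0 h1 2).trans ?_⟩
  rw [mul_pow]
  refine mul_le_mul_of_nonneg_left ?_ (sq_nonneg _)
  refine sq_sum_le_card_mul_sum_sq.trans_eq ?_
  rw [Finset.card_univ]
  simp only [← pow_mul]

/-- Log-averages of moved energies are below the moments in the moved system. -/
lemma log_moved_le (b : Base e f N) (hef : e ≠ f) (he : dl e = 0) (hd : ∀ j, 0 ≤ dl j) {g : κ → κ}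
    (hg : ∀ j : Slot e, g j.1 ≠ f) (hν : OrthInvLaw N ν) {c : ℝ} (hc : 0 < c)
    (h : ∀ j, c * N ≤ csize (b.moved g) j) :
    pmean ν (fun U γ => gmn (fun σ => pertH dl n b.lbl f s y U γ σ + movQ dl f g (b.fields U σ))
        (fun σ => movQ dl f g (b.fields U σ))) ≤ (∑ j, |dl j|) * ((Fintype.card (Fld e) : ℝ) / c) ∧
      pmean ν (fun U γ => gmn (fun σ => pertH dl n b.lbl f s y U γ σ + movQ dl f g (b.fields U σ))
        (fun σ => movQ dl f g (b.fields U σ) ^ 2)) ≤
        (∑ j, |dl j|) ^ 2 * ((Fintype.card (Fld e) : ℝ) * ((Fintype.card (Fld e) : ℝ) * (3 / c ^ 2))) := by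
  have hμ := orthLaw_of_inv hν
  have hcm : ∀ σ, Continuous fun U => movQ dl f g (b.fields U σ) := fun σ => by
    simp only [movQ]
    exact (continuous_finsetSum _ fun x _ => ((continuous_fields b σ x).pow 2).const_mul _).div_const _
  have e1 : ∀ U γ, (fun σ => pertH dl n b.lbl f s y U γ σ + movQ dl f g (b.fields U σ)) =
      fun σ => pertH dl n (b.moved g) f s y U γ σ := fun U γ =>
    funext fun σ => (pertH_moved b hef he hg U γ σ).symm
  simp only [e1]
  rw [pmean_gmn hν hcm, pmean_gmn hν (F := fun U σ => movQ dl f g (b.fields U σ) ^ 2)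
    fun σ => (hcm σ).pow 2]
  have hq : ∀ p : Fld e, ∀ q : ℕ, OBdd fun W (x : Fin 1 → Fin N → Bool) => b.fields W (x 0) p ^ q :=
    fun p q => OBdd.of_continuous fun x => (continuous_fields b (x 0) p).pow q
  constructor
  · have hs : OBdd fun W (x : Fin 1 → Fin N → Bool) => (∑ j, |dl j|) * ∑ p, b.fields W (x 0) p ^ 2 :=
      OBdd.of_continuous fun x =>
        (continuous_finsetSum _ fun p _ => (continuous_fields b (x 0) p).pow 2).const_mul _
    refine (ev_mono hμ (OBdd.of_continuous fun x => hcm (x 0)) hs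
      fun W x _ => (movQ_bounds hd g _).2.1).trans ?_
    rw [ev_smul, ev_sum hμ _ _ fun p => hq p 2]
    refine mul_le_mul_of_nonneg_left ((Finset.sum_le_sum fun p _ =>
      (ev_row_moments hν hc (b.row p) (h _) 0).1).trans_eq (by simp [div_eq_mul_inv]))
      (Finset.sum_nonneg fun j _ => abs_nonneg _)
  · have hs : OBdd fun W (x : Fin 1 → Fin N → Bool) =>
        (∑ j, |dl j|) ^ 2 * ((Fintype.card (Fld e) : ℝ) * ∑ p, b.fields W (x 0) p ^ 4) :=
      OBdd.of_continuous fun x =>
        ((continuous_finsetSum _ fun p _ => (continuous_fields b (x 0) p).pow 4).const_mul _).const_mul _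
    have hm2 : OBdd fun W (x : Fin 1 → Fin N → Bool) => movQ dl f g (b.fields W (x 0)) ^ 2 :=
      OBdd.of_continuous fun x => (hcm (x 0)).pow 2
    refine (ev_mono hμ hm2 hs fun W x _ => (movQ_bounds hd g _).2.2).trans ?_
    rw [ev_smul, ev_smul, ev_sum hμ _ _ fun p => hq p 4]
    refine mul_le_mul_of_nonneg_left (mul_le_mul_of_nonneg_left ((Finset.sum_le_sum fun p _ =>
      (ev_row_moments hν hc (b.row p) (h _) 0).2).trans_eq (by simp)) (by positivity)) (sq_nonneg _)

lemma integrable_log_gmn (b : Base e f N) (hν : OrthInvLaw N ν) {Φ : (Fld e → ℝ) → ℝ}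
    (hΦ : Continuous Φ) (h1 : ∀ z, 1 ≤ Φ z) :
    Integrable (fun z : (Fin N → Fin N → ℝ) × EuclideanSpace ℝ (GIdx Unit P N) =>
      Real.log (gmn (fun σ => pertH dl n b.lbl f s y z.1 z.2 σ) fun σ => Φ (b.fields z.1 σ)))
      (ν.prod (stdGaussian _)) := by
  have := hν.prob
  have hc : ∀ σ, Continuous fun U => Φ (b.fields U σ) := fun σ =>
    hΦ.comp (continuous_pi fun x => continuous_fields b σ x)
  refine ((integrable_gmn (dl := dl) (n := n) (lbl := b.lbl) (f := f) (s := s) (y := y) hν hc).mono' ?_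
    ((ae_orth_prod hν).mono fun z _ => ?_))
  · have hm := measurable_rav_pertH (κ := κ) (M := N) (P := P) (r := 1) (dl := dl) (n := n) (lbl := b.lbl)
      (f := f) (s := s) (y := y)
      (Θ := fun (U : Fin N → Fin N → ℝ) (x : Fin 1 → Fin N → Bool) => Φ (b.fields U (x 0)))
      fun x => (hc (x 0)).measurable
    simp only [← rav_one]
    exact (Measurable.log hm).aestronglyMeasurable
  · have := one_le_gmn (fun σ => pertH dl n b.lbl f s y z.1 z.2 σ)
      (Φ := fun σ => Φ (b.fields z.1 σ)) fun σ => h1 _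
    rw [Real.norm_eq_abs, abs_of_nonneg (Real.log_nonneg this)]
    linarith [Real.log_le_sub_one_of_pos (zero_lt_one.trans_le this)]

lemma continuous_movQ (g : κ → κ) : Continuous fun z : Fld e → ℝ => movQ dl f g z := by
  unfold movQ
  fun_prop

lemma integrable_gmn_moved (b : Base e f N) (hef : e ≠ f) (he : dl e = 0) {g : κ → κ}
    (hg : ∀ j : Slot e, g j.1 ≠ f) (hν : OrthInvLaw N ν) {F : (Fld e → ℝ) → ℝ} (hF : Continuous F) :
    Integrable (fun z : (Fin N → Fin N → ℝ) × EuclideanSpace ℝ (GIdx Unit P N) =>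
      gmn (fun σ => pertH dl n b.lbl f s y z.1 z.2 σ + movQ dl f g (b.fields z.1 σ))
        fun σ => F (b.fields z.1 σ)) (ν.prod (stdGaussian _)) := by
  have e1 : ∀ U γ, (fun σ => pertH dl n b.lbl f s y U γ σ + movQ dl f g (b.fields U σ)) =
      fun σ => pertH dl n (b.moved g) f s y U γ σ := fun U γ =>
    funext fun σ => (pertH_moved b hef he hg U γ σ).symm
  simp only [e1]
  exact integrable_gmn hν fun σ => hF.comp (continuous_pi fun x => continuous_fields b σ x)

/-- A weight below the moved energy costs at most the moved mean. -/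
lemma log_weight_le_moved (b : Base e f N) (hef : e ≠ f) (he : dl e = 0) {g : κ → κ}
    (hg : ∀ j : Slot e, g j.1 ≠ f) (hν : OrthInvLaw N ν) {Φ : (Fld e → ℝ) → ℝ} (hΦ : Continuous Φ)
    (h1 : ∀ z, 1 ≤ Φ z) (hle : ∀ z, Φ z ≤ Real.exp (movQ dl f g z)) :
    pmean ν (fun U γ => Real.log (gmn (fun σ => pertH dl n b.lbl f s y U γ σ)
        fun σ => Φ (b.fields U σ))) ≤
      pmean ν (fun U γ => gmn (fun σ => pertH dl n b.lbl f s y U γ σ + movQ dl f g (b.fields U σ))
        fun σ => movQ dl f g (b.fields U σ)) := by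
  simp only [pmean]
  refine integral_mono (integrable_log_gmn b hν hΦ h1)
    (integrable_gmn_moved b hef he hg hν (continuous_movQ g)) fun z => ?_
  set h := fun σ => pertH dl n b.lbl f s y z.1 z.2 σ
  have e1 := log_gain_le h (fun σ => movQ dl f g (b.fields z.1 σ)) fun _ => (0 : ℝ)
  simp only [Real.exp_zero, gmn_const, Real.log_one, sub_zero] at e1
  exact le_trans (Real.log_le_log (zero_lt_one.trans_le (one_le_gmn h fun σ => h1 _))
    (gmn_mono h fun σ => hle _)) e1

/-- The cost of truncating a moved energy. -/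
lemma log_trunc_le_moved (b : Base e f N) (hef : e ≠ f) (he : dl e = 0) (hd : ∀ j, 0 ≤ dl j)
    {g : κ → κ} (hg : ∀ j : Slot e, g j.1 ≠ f) (hν : OrthInvLaw N ν) {L : ℝ} (hL : 0 < L) :
    pmean ν (fun U γ => Real.log (gmn (fun σ => pertH dl n b.lbl f s y U γ σ)
        fun σ => Real.exp (movQ dl f g (b.fields U σ)))) -
      pmean ν (fun U γ => Real.log (gmn (fun σ => pertH dl n b.lbl f s y U γ σ)
        fun σ => Real.exp (min (movQ dl f g (b.fields U σ)) L))) ≤
      pmean ν (fun U γ => gmn (fun σ => pertH dl n b.lbl f s y U γ σ + movQ dl f g (b.fields U σ))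
        fun σ => movQ dl f g (b.fields U σ) ^ 2) / L := by
  have hG0 : ∀ z : Fld e → ℝ, 0 ≤ movQ dl f g z := fun z => (movQ_bounds hd g z).1
  have hc := continuous_movQ (e := e) (f := f) (dl := dl) g
  have hA : Integrable (fun z : (Fin N → Fin N → ℝ) × EuclideanSpace ℝ (GIdx Unit P N) =>
      Real.log (gmn (fun σ => pertH dl n b.lbl f s y z.1 z.2 σ)
        fun σ => Real.exp (movQ dl f g (b.fields z.1 σ)))) (ν.prod (stdGaussian _)) :=
    integrable_log_gmn b hν (Φ := fun z => Real.exp (movQ dl f g z)) hc.rexp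
      fun z => Real.one_le_exp (hG0 z)
  have hB : Integrable (fun z : (Fin N → Fin N → ℝ) × EuclideanSpace ℝ (GIdx Unit P N) =>
      Real.log (gmn (fun σ => pertH dl n b.lbl f s y z.1 z.2 σ)
        fun σ => Real.exp (min (movQ dl f g (b.fields z.1 σ)) L))) (ν.prod (stdGaussian _)) :=
    integrable_log_gmn b hν (Φ := fun z => Real.exp (min (movQ dl f g z) L))
      (hc.min continuous_const).rexp fun z => Real.one_le_exp (le_min (hG0 z) hL.le)
  have hC := integrable_gmn_moved (n := n) (s := s) (y := y) b hef he hg hν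
    (F := fun z => movQ dl f g z ^ 2) (hc.pow 2)
  simp only [pmean]
  rw [← integral_sub hA hB, ← integral_div]
  refine integral_mono (hA.sub hB) (hC.div_const L) fun z => ?_
  refine (log_gain_le _ _ _).trans ?_
  refine (gmn_mono _ (f' := fun σ => movQ dl f g (b.fields z.1 σ) ^ 2 / L) fun σ => ?_).trans_eq
    (by simp only [gmn, Finset.sum_div, mul_div_assoc'])
  set G := movQ dl f g (b.fields z.1 σ)
  have h0 : 0 ≤ G := hG0 _
  rw [le_div_iff₀ hL]
  rcases le_total G L with h | h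
  · rw [min_eq_left h, sub_self, zero_mul]; positivity
  · rw [min_eq_right h]; nlinarith

lemma measurable_spinW'_fields {Z : Type} [MeasurableSpace Z] (b : Base e f N) (σ : Fin N → Bool) :
    Measurable fun p : (κ → ℝ) × ((Fin N → Fin N → ℝ) × Z) =>
      spinW' dl e p.1 (b.fields p.2.1 σ) := by
  have hf : Measurable fun p : (κ → ℝ) × ((Fin N → Fin N → ℝ) × Z) => b.fields p.2.1 σ :=
    measurable_pi_lambda _ fun x =>
      (continuous_fields b σ x).measurable.comp (measurable_fst.comp measurable_snd)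
  have hp : Measurable fun p : (κ → ℝ) × ((Fin N → Fin N → ℝ) × Z) => (p.1, b.fields p.2.1 σ) :=
    measurable_fst.prodMk hf
  simp only [spinW']
  exact (((measurable_spinQ dl 1).comp hp).exp.add ((measurable_spinQ dl (-1)).comp hp).exp).div_const 2

/-- The mean log-average of the full weight is measurable in the block norms. -/
lemma measurable_log_spinW' (b : Base e f N) [SFinite ν] :
    Measurable fun T : κ → ℝ => pmean ν fun U g => Real.log
      (gmn (fun σ => pertH dl n b.lbl f s y U g σ) fun σ => spinW' dl e T (b.fields U σ)) := by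
  have hH : ∀ σ, Measurable fun p : (κ → ℝ) ×
      ((Fin N → Fin N → ℝ) × EuclideanSpace ℝ (GIdx Unit P N)) =>
      pertH dl n b.lbl f s y p.2.1 p.2.2 σ := fun σ =>
    (continuous_pertH σ).measurable.comp measurable_snd
  have hG : Measurable fun p : (κ → ℝ) × ((Fin N → Fin N → ℝ) × EuclideanSpace ℝ (GIdx Unit P N)) =>
      Real.log (gmn (fun σ => pertH dl n b.lbl f s y p.2.1 p.2.2 σ)
        fun σ => spinW' dl e p.1 (b.fields p.2.1 σ)) :=
    (Finset.measurable_fun_sum _ fun σ _ => Measurable.mul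
      ((hH σ).exp.div (Finset.measurable_fun_sum _ fun τ _ => (hH τ).exp))
      (measurable_spinW'_fields b σ)).log
  exact hG.stronglyMeasurable.integral_prod_right'.measurable

omit [Fintype κ] in
lemma continuous_cOv (lbl : Fin N → κ) (k : κ) (σ : Fin N → Bool) :
    Continuous fun W => cOv lbl k W σ σ :=
  continuous_finsetSum _ fun p _ => by
    split_ifs
    · exact (continuous_coord σ p).mul (continuous_coord σ p)
    · exact continuous_const

omit [Fintype κ] in
lemma abs_ev_cOv_le (lbl : Fin N → κ) (k : κ) (hν : OrthInvLaw N ν) :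
    |ev dl n lbl f s y ν (fun W (x : Fin 1 → Fin N → Bool) => cOv lbl k W (x 0) (x 0))| ≤ N := by
  refine abs_ev_le (orthLaw_of_inv hν) fun W x hW => ?_
  simp only [cOv]
  rw [abs_of_nonneg (Finset.sum_nonneg fun p _ => by split_ifs <;> simp [mul_self_nonneg])]
  refine (Finset.sum_le_sum fun p _ => ?_).trans_eq (sum_coord_sq_orth hW (x 0))
  split_ifs
  · exact le_of_eq (sq _).symm
  · positivity

omit [Fintype κ] in
lemma sq_ev_le (lbl : Fin N → κ) (hν : OrthInvLaw N ν)
    {X : (Fin N → Fin N → ℝ) → (Fin 1 → Fin N → Bool) → ℝ} (hX : ∀ x, Continuous fun W => X W x) :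
    ev dl n lbl f s y ν X ^ 2 ≤ ev dl n lbl f s y ν (fun W x => X W x ^ 2) := by
  have hμ := orthLaw_of_inv hν
  set m := ev dl n lbl f s y ν X with hm
  have hA : OBdd (fun W x => X W x ^ 2) := OBdd.of_continuous fun x => (hX x).pow 2
  have hB : OBdd (fun W x => 2 * m * X W x) := OBdd.of_continuous fun x => (hX x).const_mul _
  have hK : OBdd (fun (_ : Fin N → Fin N → ℝ) (_ : Fin 1 → Fin N → Bool) => -(m ^ 2)) :=
    OBdd.of_continuous fun _ => continuous_const
  have hS : OBdd (fun W x => 2 * m * X W x + -(m ^ 2)) :=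
    OBdd.of_continuous fun x => ((hX x).const_mul _).add continuous_const
  have h := ev_mono (dl := dl) (n := n) (lbl := lbl) (f := f) (s := s) (y := y) hμ hS hA
    fun W x _ => by nlinarith [sq_nonneg (X W x - m)]
  rw [ev_add hμ hB hK, ev_smul, ev_const hμ, ← hm] at h
  nlinarith

omit [Fintype κ] in
/-- A probe row carries the mean overlap of its class. -/
lemma ev_probe_sq (b : Base e f N) (hν : OrthInvLaw N ν) (x0 : Fld e) :
    (csize b.lbl e : ℝ) *
        ev dl n b.lbl f s y ν (fun W (x : Fin 1 → Fin N → Bool) => b.fields W (x 0) x0 ^ 2) =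
      ev dl n b.lbl f s y ν (fun W (x : Fin 1 → Fin N → Bool) => cOv b.lbl e W (x 0) (x 0)) := by
  have hμ := orthLaw_of_inv hν
  refine (ev_row_avg (r := 1) (dl := dl) (n := n) (f := f) (s := s) (y := y) hμ
    (invOn_of_inv hν (Finset.univ.filter fun p => b.lbl p = e)) (c := e)
    (fun p hp => (Finset.mem_filter.1 hp).2) (i := b.row x0) (by simp [b.inRest])
    (fun q : (Fin 1 → ℝ) × ℝ => q.1 0 ^ 2) (by fun_prop) (fun _ _ => 0) (fun _ => continuous_const)
    fun _ _ _ _ => rfl).trans (ev_congr hμ fun W x _ => ?_)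
  simp only [cOv, Finset.sum_filter, sq]

omit [Fintype κ] in
/-- Probes against the covariance, from the concentration of the split between two classes. -/
lemma abs_probe_sub_le (b : Base e f N) (hν : OrthInvLaw N ν) (x0 : Fld e) {c ρ B : ℝ} (hc : 0 < c)
    (hN : 1 ≤ N) (hnN : N ≤ n) (hme : c * N ≤ csize b.lbl e) (hmf : c * N ≤ csize b.lbl f) (hB : 0 ≤ B)
    (hsplit : pmean ν (fun U g => pgibbs dl n b.lbl f s y U g (r := 2) fun x =>
      ((csize b.lbl f : ℝ) * cOv b.lbl e U (x 0) (x 0) -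
        (csize b.lbl e : ℝ) * cOv b.lbl f U (x 0) (x 0)) ^ 2) ≤ B * (N : ℝ) ^ 4) :
    |ev dl n b.lbl f s y ν (fun W (x : Fin 1 → Fin N → Bool) => b.fields W (x 0) x0 ^ 2) -
        ev dl n b.lbl f s y ν (fun W (x : Fin 1 → Fin N → Bool) =>
          ρ * inner ℝ (featV n b.lbl f W (x 0)) (featV n b.lbl f W (x 0)))| ≤
      Real.sqrt B / c ^ 2 + |(N : ℝ) / csize b.lbl f - ρ * N / n| := by
  have hμ := orthLaw_of_inv hν
  have hN0 : (0 : ℝ) < N := by exact_mod_cast hN
  have hn0 : (0 : ℝ) < n := hN0.trans_le (by exact_mod_cast hnN)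
  have hme0 : (0 : ℝ) < csize b.lbl e := lt_of_lt_of_le (mul_pos hc hN0) hme
  have hmf0 : (0 : ℝ) < csize b.lbl f := lt_of_lt_of_le (mul_pos hc hN0) hmf
  set Se := ev dl n b.lbl f s y ν (fun W (x : Fin 1 → Fin N → Bool) => cOv b.lbl e W (x 0) (x 0))
    with hSe
  set Sf := ev dl n b.lbl f s y ν (fun W (x : Fin 1 → Fin N → Bool) => cOv b.lbl f W (x 0) (x 0))
    with hSf
  have hP : ev dl n b.lbl f s y ν (fun W (x : Fin 1 → Fin N → Bool) => b.fields W (x 0) x0 ^ 2) =
      Se / csize b.lbl e := by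
    rw [eq_div_iff hme0.ne', mul_comm, hSe, ev_probe_sq b hν x0]
  have hC : ev dl n b.lbl f s y ν (fun W (x : Fin 1 → Fin N → Bool) =>
      ρ * inner ℝ (featV n b.lbl f W (x 0)) (featV n b.lbl f W (x 0))) = ρ / n * Sf := by
    refine (ev_congr hμ fun W x _ => ?_).trans (ev_smul (ρ / n) _)
    rw [inner_featV, max_eq_left hnN]
    simp only [cOv]
    ring
  set X : (Fin N → Fin N → ℝ) → (Fin 1 → Fin N → Bool) → ℝ := fun W x =>
    (csize b.lbl f : ℝ) * cOv b.lbl e W (x 0) (x 0) + -(csize b.lbl e : ℝ) * cOv b.lbl f W (x 0) (x 0)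
  have hXc : ∀ x, Continuous fun W => X W x := fun x =>
    ((continuous_cOv _ _ _).const_mul _).add ((continuous_cOv _ _ _).const_mul _)
  have hEX : ev dl n b.lbl f s y ν X = (csize b.lbl f : ℝ) * Se - (csize b.lbl e : ℝ) * Sf := by
    have hb : ∀ k (b' : ℝ), OBdd fun W (x : Fin 1 → Fin N → Bool) => b' * cOv b.lbl k W (x 0) (x 0) :=
      fun k b' => OBdd.of_continuous fun x => (continuous_cOv _ k (x 0)).const_mul _
    simp only [X]
    rw [ev_add hμ (hb _ _) (hb _ _), ev_smul, ev_smul, hSe, hSf]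
    ring
  have hX2 : ev dl n b.lbl f s y ν (fun W x => X W x ^ 2) ≤ B * (N : ℝ) ^ 4 := by
    refine le_trans (le_of_eq ?_) hsplit
    refine ((ev_congr hμ (Θ' := fun W (x : Fin 1 → Fin N → Bool) => X W (fun _ => x 0) ^ 2)
      fun W x _ => rfl).trans (pmean_gmn hν (F := fun U σ => X U (fun _ => σ) ^ 2)
        fun σ => (hXc fun _ => σ).pow 2).symm).trans ?_
    simp only [← rav_first, X, sub_eq_add_neg, ← neg_mul]
    rfl
  have hX1 : |ev dl n b.lbl f s y ν X| ≤ Real.sqrt B * (N : ℝ) ^ 2 := by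
    refine (Real.abs_le_sqrt ((sq_ev_le b.lbl hν hXc).trans hX2)).trans_eq ?_
    rw [show (N : ℝ) ^ 4 = ((N : ℝ) ^ 2) ^ 2 by ring, Real.sqrt_mul hB, Real.sqrt_sq (sq_nonneg _)]
  have hS : |Sf| ≤ N := abs_ev_cOv_le b.lbl f hν
  rw [hP, hC, show Se / csize b.lbl e - ρ / n * Sf =
    ev dl n b.lbl f s y ν X / ((csize b.lbl f : ℝ) * csize b.lbl e) +
      Sf / N * ((N : ℝ) / csize b.lbl f - ρ * N / n) by rw [hEX]; field_simp; ring]
  refine (abs_add_le _ _).trans (add_le_add ?_ ?_)
  · rw [abs_div, abs_of_pos (mul_pos hmf0 hme0)]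
    calc |ev dl n b.lbl f s y ν X| / ((csize b.lbl f : ℝ) * csize b.lbl e)
        ≤ Real.sqrt B * (N : ℝ) ^ 2 / (c * N * (c * N)) :=
          div_le_div₀ (by positivity) hX1 (by positivity) (mul_le_mul hmf hme (by positivity) hmf0.le)
      _ = _ := by field_simp
  · rw [abs_mul]
    refine mul_le_of_le_one_left (abs_nonneg _) ?_
    rw [abs_div, abs_of_pos hN0, div_le_one hN0]
    exact hS

end Base

variable {K : ℕ} {a : Atoms K} {i0 : Fin K} (R : Regime a i0) {β : ℝ}
  {ν : (N : ℕ) → Measure (Fin N → Fin N → ℝ)}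

lemma logAvg_eq (i : ℕ) (Φ : (Fld (some i0 : Option (Fin K)) → ℝ) → ℝ) :
    R.logAvg β ν i Φ = pmean (ν (R.N i)) fun U g => Real.log
      (gmn (fun σ => pertH (dlA a β i0) (R.n i) (R.base i).lbl none (R.s i) (R.y i) U g σ)
        fun σ => Φ ((R.base i).fields U σ)) := by
  simp only [Regime.logAvg, Regime.field, ← rav_one]
  rfl

/-- A moved class keeps a fixed share. -/
lemma exists_moved_share : ∃ c : ℝ, 0 < c ∧ ∀ᶠ i in atTop, 1 ≤ R.N i ∧
    (∀ g j, c * (R.N i : ℝ) ≤ csize ((R.base i).moved g) j) ∧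
    ∀ j, c * (R.N i : ℝ) ≤ csize (R.base i).lbl j := by
  obtain ⟨c, hc, h⟩ := exists_share R ((Fintype.card (Fld (some i0 : Option (Fin K))) : ℝ))
  refine ⟨c, hc, h.mono fun i hi => ⟨hi.1, fun g j => ?_, fun j => ?_⟩⟩
  · have := (csize_moved (R.base i) g j).2
    nlinarith [hi.2 j]
  · have h0 : (0 : ℝ) ≤ Fintype.card (Fld (some i0 : Option (Fin K))) := Nat.cast_nonneg _
    nlinarith [hi.2 j]

lemma probe_bound_aux (hβ : 0 < β) (hmin : ∀ i, a.lam i0 ≤ a.lam i)
    (hν : ∀ N, OrthInvLaw N (ν N)) {l : Fin K} (hl : l ≠ i0)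
    (j : Slot (some i0 : Option (Fin K))) (hj : j.1 = some l) :
    ∃ C : ℝ, ∀ L : ℝ, 0 < L → ∀ᶠ i in atTop,
      R.logAvg β ν i (fun z => Real.exp (min (dlA a β i0 (some l) * z (Sum.inr j) ^ 2 / 2) L)) ≤ C := by
  obtain ⟨c, hc, hev⟩ := exists_moved_share R
  refine ⟨(∑ k, |dlA a β i0 k|) * ((Fintype.card (Fld (some i0 : Option (Fin K))) : ℝ) / c),
    fun L hL => hev.mono fun i hi => ?_⟩
  have hd := dlA_nonneg (a := a) (i0 := i0) hβ hmin
  rw [logAvg_eq]
  set b := R.base i
  have hg : ∀ j : Slot (some i0 : Option (Fin K)), (fun _ : Option (Fin K) => (some i0 : Option (Fin K))) j.1 ≠ none :=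
    fun _ => some_ne_none'
  have hQ : ∀ z, dlA a β i0 (some l) * z (Sum.inr j) ^ 2 / 2 ≤ probeQ (dlA a β i0) (some i0) z := fun z => by
    rw [probeQ, ← hj]
    exact div_le_div_of_nonneg_right (Finset.single_le_sum
      (f := fun j : Slot (some i0 : Option (Fin K)) => dlA a β i0 j.1 * z (Sum.inr j) ^ 2)
      (fun j _ => mul_nonneg (hd _) (sq_nonneg _)) (Finset.mem_univ j)) two_pos.le
  have hc1 : Continuous fun z : Fld (some i0 : Option (Fin K)) → ℝ =>
      Real.exp (min (dlA a β i0 (some l) * z (Sum.inr j) ^ 2 / 2) L) := by fun_prop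
  have h11 : ∀ z : Fld (some i0 : Option (Fin K)) → ℝ,
      1 ≤ Real.exp (min (dlA a β i0 (some l) * z (Sum.inr j) ^ 2 / 2) L) := fun z =>
    Real.one_le_exp (le_min (div_nonneg (mul_nonneg (hd _) (sq_nonneg _)) two_pos.le) hL.le)
  refine le_trans (log_weight_le_moved b some_ne_none' dlA_some (g := fun _ => some i0) hg (hν (R.N i))
    hc1 h11 fun z => Real.exp_le_exp.2 ((min_le_left _ _).trans ?_))
    (log_moved_le b some_ne_none' dlA_some hd hg (hν (R.N i)) hc fun k => hi.2.1 _ k).1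
  rw [← probeQ_eq some_ne_none' dlA_some dlA_none]
  exact hQ _

lemma measurable_gainInt (i : ℕ) [SFinite (ν (R.N i))] :
    Measurable fun V : Fin (R.N i + 1) → Fin (R.N i + 1) → ℝ =>
      R.logAvg β ν i (spinW' (dlA a β i0) (some i0) (colNorm (R.base i).plus V)) := by
  simp only [logAvg_eq]
  exact (measurable_log_spinW' (dl := dlA a β i0) (n := R.n i) (s := R.s i) (y := R.y i)
    (R.base i)).comp (measurable_colNorm _)

lemma del_le (hβ : 0 < β) (hmin : ∀ i, a.lam i0 ≤ a.lam i) (hν : ∀ N, OrthInvLaw N (ν N)) {c : ℝ}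
    (hc : 0 < c) {i : ℕ} (hi : ∀ g j, c * (R.N i : ℝ) ≤ csize ((R.base i).moved g) j)
    {L : ℝ} (hL : 0 < L) (k : Fin K) :
    R.logAvg β ν i (delW' (dlA a β i0) (some i0) (some k)) -
        R.logAvg β ν i (delW (dlA a β i0) (some i0) (some k) L) ≤
      (∑ j, |dlA a β i0 j|) ^ 2 * ((Fintype.card (Fld (some i0 : Option (Fin K))) : ℝ) *
        ((Fintype.card (Fld (some i0 : Option (Fin K))) : ℝ) * (3 / c ^ 2))) / L := by
  have hd := dlA_nonneg (a := a) (i0 := i0) hβ hmin
  set b := R.base i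
  set g : Option (Fin K) → Option (Fin K) := fun j => if j = none ∨ j = some k then some i0 else j
  have hg : ∀ j : Slot (some i0 : Option (Fin K)), g j.1 ≠ none := fun j => by
    simp only [g]
    split_ifs with h
    · exact some_ne_none'
    · exact fun hh => h (Or.inl hh)
  have hG : ∀ z : Fld (some i0 : Option (Fin K)) → ℝ,
      delQ (dlA a β i0) (some i0) (some k) z = movQ (dlA a β i0) none g z :=
    fun z => delQ_eq some_ne_none' dlA_some dlA_none _ z
  rw [logAvg_eq, logAvg_eq]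
  simp only [delW', delW, hG]
  exact (log_trunc_le_moved b some_ne_none' dlA_some hd hg (hν (R.N i)) hL).trans
    (div_le_div_of_nonneg_right
      (log_moved_le b some_ne_none' dlA_some hd hg (hν (R.N i)) hc fun j => hi g j).2 hL.le)

lemma gain_lower_aux (hβ : 0 < β) (hmin : ∀ i, a.lam i0 ≤ a.lam i)
    (hν : ∀ N, OrthInvLaw N (ν N)) :
    ∃ C : ℝ, ∀ L : ℝ, 0 < L → ∀ ε : ℝ, 0 < ε → ∀ᶠ i in atTop,
      R.logAvg β ν i (spinW (dlA a β i0) (some i0) (lim R) L) -
          ∑ k, a.wt k * R.logAvg β ν i (delW (dlA a β i0) (some i0) (some k) L) - C / L - ε ≤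
        R.gain β ν i := by
  obtain ⟨c, hc, hev⟩ := exists_moved_share R
  set D := ∑ j, |dlA a β i0 j|
  set kc : ℝ := (Fintype.card (Fld (some i0 : Option (Fin K))) : ℝ)
  refine ⟨D ^ 2 * (kc * (kc * (3 / c ^ 2))), fun L hL ε hε => ?_⟩
  set A := Real.exp L * (8 * D) * (1 + kc / c)
  have hA : Tendsto (fun i => A * ∫ V, ∑ j, |colNorm (R.base i).plus V j - lim R j| ∂ν (R.N i + 1))
      atTop (𝓝 0) := by simpa using (tendsto_colDist R hν).const_mul A
  filter_upwards [hev, hA.eventually (gt_mem_nhds hε)] with i hi hAi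
  have hd := dlA_nonneg (a := a) (i0 := i0) hβ hmin
  have hp := (hν (R.N i)).prob
  have hp' := (hν (R.N i + 1)).prob
  set b := R.base i
  have hlog := fun T => integrable_log_gmn (dl := dlA a β i0) (n := R.n i) (s := R.s i) (y := R.y i) b
    (hν (R.N i)) (Φ := spinW (dlA a β i0) (some i0) T L) (continuous_spinW _ _ _)
    fun z => (spinW_range hd hL.le T z).1
  have hlog' := fun T => integrable_log_gmn (dl := dlA a β i0) (n := R.n i) (s := R.s i) (y := R.y i) b
    (hν (R.N i)) (Φ := spinW' (dlA a β i0) (some i0) T) (continuous_spinW' _ _)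
    (one_le_spinW' hd T)
  have hmono : ∀ T, R.logAvg β ν i (spinW (dlA a β i0) (some i0) T L) ≤
      R.logAvg β ν i (spinW' (dlA a β i0) (some i0) T) := fun T => by
    rw [logAvg_eq, logAvg_eq]
    exact integral_mono (hlog T) (hlog' T) fun z => Real.log_le_log
      (zero_lt_one.trans_le (one_le_gmn _ fun σ => (spinW_range hd hL.le T _).1))
      (gmn_mono _ fun σ => spinW_le_spinW' _ _ _)
  have hlip : ∀ T, Unit0 T → R.logAvg β ν i (spinW (dlA a β i0) (some i0) (lim R) L) -
      A * ∑ j, |T j - lim R j| ≤ R.logAvg β ν i (spinW (dlA a β i0) (some i0) T L) := fun T hT => by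
    rw [logAvg_eq, logAvg_eq, sub_le_comm, pmean, pmean, ← integral_sub (hlog _) (hlog T)]
    have hzi := integrable_gmn (dl := dlA a β i0) (n := R.n i) (lbl := b.lbl) (f := none) (s := R.s i)
      (y := R.y i) (hν (R.N i)) (continuous_zn_fields b)
    refine (integral_mono ((hlog _).sub (hlog T)) (hzi.const_mul
      (Real.exp L * (8 * D) * ∑ j, |T j - lim R j|)) fun z => ?_).trans ?_
    · refine ((le_abs_self _).trans (abs_log_gmn_sub_le _ (fun σ => (spinW_range hd hL.le _ _).1)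
        fun σ => (spinW_range hd hL.le _ _).1)).trans ?_
      rw [gmn, gmn, Finset.mul_sum]
      refine Finset.sum_le_sum fun σ _ => ?_
      rw [mul_left_comm]
      refine mul_le_mul_of_nonneg_left ?_ (gw_nonneg _ _)
      refine (abs_spinW_sub_le (unit0_lim R) hT (b.fields z.1 σ) L).trans_eq ?_
      simp only [abs_sub_comm (lim R _)]
      rfl
    · rw [integral_const_mul, mul_comm A, mul_comm _ (∑ j, |T j - lim R j|), mul_assoc]
      refine mul_le_mul_of_nonneg_left ?_ (Finset.sum_nonneg fun j _ => abs_nonneg _)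
      refine mul_le_mul_of_nonneg_left ?_ (by positivity)
      have h := pmean_gmn (dl := dlA a β i0) (n := R.n i) (lbl := b.lbl) (f := none) (s := R.s i)
        (y := R.y i) (hν (R.N i)) (continuous_zn_fields b)
      rw [pmean] at h
      rw [h]
      exact ev_zn_le b (hν _) hc (hi.2.2 _)
  have hbd : Integrable (fun V => R.logAvg β ν i (spinW' (dlA a β i0) (some i0) (colNorm b.plus V)))
      (ν (R.N i + 1)) := by
    refine Integrable.of_bound (measurable_gainInt R i).aestronglyMeasurable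
      (D * (1 + kc * (R.N i : ℝ))) ((hν (R.N i + 1)).orth.mono fun V hV => ?_)
    have hT := unit0_colNorm b.plus hV
    rw [logAvg_eq, Real.norm_eq_abs]
    refine R.abs_pmean_le hν i fun U γ hU => ?_
    have h1 := one_le_gmn (fun σ => pertH (dlA a β i0) (R.n i) b.lbl none (R.s i) (R.y i) U γ σ)
      (Φ := fun σ => spinW' (dlA a β i0) (some i0) (colNorm b.plus V) (b.fields U σ))
      fun σ => one_le_spinW' hd _ _
    rw [abs_of_nonneg (Real.log_nonneg h1), Real.log_le_iff_le_exp (zero_lt_one.trans_le h1)]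
    refine (gmn_mono _ (f' := fun _ => Real.exp (D * (1 + kc * (R.N i : ℝ)))) fun σ => ?_).trans_eq
      (gmn_const _ _)
    exact (spinW'_le hT _).trans (Real.exp_le_exp.2 (mul_le_mul_of_nonneg_left (zn_le_of_orth b hU σ)
      (Finset.sum_nonneg fun j _ => abs_nonneg _)))
  have hI : R.logAvg β ν i (spinW (dlA a β i0) (some i0) (lim R) L) -
      A * ∫ V, ∑ j, |colNorm b.plus V j - lim R j| ∂ν (R.N i + 1) ≤
      ∫ V, R.logAvg β ν i (spinW' (dlA a β i0) (some i0) (colNorm b.plus V)) ∂ν (R.N i + 1) := by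
    have hdi := (integrable_colDist R hν i).const_mul A
    refine le_trans (le_of_eq ?_) (integral_mono_ae ((integrable_const _).sub hdi) hbd
      ((hν (R.N i + 1)).orth.mono fun V hV => (hlip _ (unit0_colNorm b.plus hV)).trans (hmono _)))
    rw [integral_sub' (integrable_const _) hdi, integral_const, probReal_univ, one_smul,
      integral_const_mul]
  have hdel := Finset.sum_le_sum (s := Finset.univ) fun k (_ : k ∈ Finset.univ) =>
    mul_le_mul_of_nonneg_left (del_le R hβ hmin hν hc hi.2.1 hL k) (a.pos k).le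
  simp only [mul_sub, Finset.sum_sub_distrib, ← Finset.sum_mul, a.total, one_mul] at hdel
  rw [Regime.gain]
  linarith

/-- Probes carry the covariance in the mean. -/
lemma probe_sq_base_aux (hν : ∀ N, OrthInvLaw N (ν N)) (j : Slot (some i0 : Option (Fin K))) :
    Tendsto (fun i => R.avg β ν i (r := 1) (fun U x => R.field i U (x 0) (Sum.inr j) ^ 2) -
      R.avg β ν i (r := 1) fun U x => R.cov i U x 0 0) atTop (𝓝 0) := by
  obtain ⟨C, hC⟩ := split_concentrates (κ := Option (Fin K))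
  obtain ⟨c, hc, hev⟩ := exists_moved_share R
  set t : ℕ → ℝ := fun i => ((R.P i : ℝ) + 1) ^ 2 *
    (1 / (R.N i : ℝ) + R.s i / Real.sqrt (R.n i) + R.s i ^ 2 / R.n i) with ht
  have hn : Tendsto (fun i => ((R.P i : ℝ) + 1) ^ 4 * R.s i ^ 2 / R.n i) atTop (𝓝 0) := by
    refine squeeze_zero (fun i => by positivity) (fun i => ?_) R.small
    exact div_le_div_of_nonneg_right (mul_le_mul_of_nonneg_left (by linarith) (by positivity))
      (Nat.cast_nonneg _)
  have hP : Tendsto (fun i => ((R.P i : ℝ) + 1) ^ 4 / R.n i) atTop (𝓝 0) := by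
    refine squeeze_zero (fun i => by positivity) (fun i => ?_) R.small
    exact div_le_div_of_nonneg_right (le_mul_of_one_le_right (by positivity)
      (le_add_of_nonneg_right (sq_nonneg _))) (Nat.cast_nonneg _)
  have hratio : Tendsto (fun i => (R.N i : ℝ) / (csize (R.base i).lbl none : ℝ)) atTop
      (𝓝 ((lim R none ^ 2)⁻¹)) := by
    refine ((R.frac none).inv₀ (pow_pos (lim_pos R none) 2).ne').congr fun i => ?_
    rw [inv_div]
  have hPN : Tendsto (fun i => ((R.P i : ℝ) + 1) ^ 4 / R.N i ^ 2) atTop (𝓝 0) := by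
    have hNn : Tendsto (fun i => (R.n i : ℝ) / R.N i) atTop (𝓝 (R.ρ * lim R none ^ 2)) := by
      refine (R.scale.mul (R.frac none)).congr' ?_
      filter_upwards [hev] with i hi
      have : (0 : ℝ) < R.N i := by exact_mod_cast hi.1
      have hm : (0 : ℝ) < csize (R.base i).lbl none := lt_of_lt_of_le (mul_pos hc this) (hi.2.2 none)
      field_simp
    have h1 : Tendsto (fun i => 1 / (R.N i : ℝ)) atTop (𝓝 0) := (tendsto_N R).const_div_atTop 1
    have h2 := (hP.mul hNn).mul h1
    rw [zero_mul, zero_mul] at h2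
    refine h2.congr' ((hev).mono fun i hi => ?_)
    have h3 : (R.n i : ℝ) ≠ 0 := by
      have := R.le i
      exact Nat.cast_ne_zero.2 (by omega)
    have : (R.N i : ℝ) ≠ 0 := Nat.cast_ne_zero.2 (by omega)
    field_simp
  have htlim : Tendsto t atTop (𝓝 0) := by
    have h2 : Tendsto (fun i => ((R.P i : ℝ) + 1) ^ 2 * R.s i ^ 2 / R.n i) atTop (𝓝 0) := by
      refine (tendsto_small R).congr fun i => ?_
      ring
    have hsum := (hPN.sqrt.add hn.sqrt).add h2
    rw [Real.sqrt_zero, add_zero, add_zero] at hsum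
    refine hsum.congr fun i => ?_
    have hP0 : (0 : ℝ) ≤ ((R.P i : ℝ) + 1) ^ 2 := by positivity
    rw [show ((R.P i : ℝ) + 1) ^ 4 / (R.N i : ℝ) ^ 2 = (((R.P i : ℝ) + 1) ^ 2 / R.N i) ^ 2 by ring,
      Real.sqrt_sq (by positivity),
      show ((R.P i : ℝ) + 1) ^ 4 * R.s i ^ 2 / (R.n i : ℝ) =
        (((R.P i : ℝ) + 1) ^ 2 * R.s i) ^ 2 / R.n i by ring,
      Real.sqrt_div' _ (Nat.cast_nonneg _), Real.sqrt_sq (mul_nonneg hP0 (R.nonneg i))]
    simp only [t]
    ring
  have hgap : Tendsto (fun i => |(R.N i : ℝ) / csize (R.base i).lbl none -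
      R.ρ * (R.N i : ℝ) / R.n i|) atTop (𝓝 0) := by
    have h1 := hratio.mul ((R.scale.inv₀ R.ρpos.ne').const_mul R.ρ)
    rw [mul_inv_cancel₀ R.ρpos.ne', mul_one] at h1
    have h2 : Tendsto (fun i => R.ρ * (R.N i : ℝ) / R.n i) atTop (𝓝 ((lim R none ^ 2)⁻¹)) := by
      refine h1.congr' ?_
      filter_upwards [hev] with i hi
      have : (0 : ℝ) < R.N i := by exact_mod_cast hi.1
      have hm : (csize (R.base i).lbl none : ℝ) ≠ 0 := (lt_of_lt_of_le (mul_pos hc this) (hi.2.2 none)).ne'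
      have h3 : (R.n i : ℝ) ≠ 0 := by
        have := R.le i
        exact Nat.cast_ne_zero.2 (by omega)
      field_simp
    simpa using (hratio.sub h2).abs
  have hbnd : Tendsto (fun i => Real.sqrt (|C| * t i) / c ^ 2 + |(R.N i : ℝ) / csize (R.base i).lbl none -
      R.ρ * (R.N i : ℝ) / R.n i|) atTop (𝓝 0) := by
    simpa using (((htlim.const_mul |C|).sqrt).div_const (c ^ 2)).add hgap
  refine squeeze_zero_norm' ?_ hbnd
  filter_upwards [hev] with i hi
  have h := hC (R.P i) (R.N i) (R.n i) (dlA a β i0) (R.base i).lbl (some i0) none (R.s i) (R.y i)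
    (ν (R.N i)) (hν _) (R.le i).le hi.1 some_ne_none' (dlA_some.trans dlA_none.symm) (R.nonneg i)
    (R.box i) 0 0
  have h0 : 0 ≤ t i := mul_nonneg (sq_nonneg _) (by have := R.nonneg i; positivity)
  have hp := abs_probe_sub_le (dl := dlA a β i0) (R.base i) (hν (R.N i)) (Sum.inr j) (ρ := R.ρ)
    (B := |C| * t i) hc hi.1 (R.le i).le (hi.2.2 _) (hi.2.2 _) (mul_nonneg (abs_nonneg _) h0) <| by
      refine h.trans ?_
      calc C * ((R.P i : ℝ) + 1) ^ 2 * (R.N i : ℝ) ^ 4 *
            (1 / (R.N i : ℝ) + R.s i / Real.sqrt (R.n i) + R.s i ^ 2 / R.n i)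
          = C * (t i * (R.N i : ℝ) ^ 4) := by simp only [t]; ring
        _ ≤ |C| * (t i * (R.N i : ℝ) ^ 4) :=
            mul_le_mul_of_nonneg_right (le_abs_self C) (mul_nonneg h0 (by positivity))
        _ = _ := by ring
  rw [Real.norm_eq_abs]
  simp only [Regime.avg, Regime.cov, gramF, Regime.field]
  have hb1 : OBdd fun U (x : Fin 1 → Fin (R.N i) → Bool) => (R.base i).fields U (x 0) (Sum.inr j) ^ 2 :=
    OBdd.of_continuous fun x => (continuous_fields (R.base i) (x 0) (Sum.inr j)).pow 2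
  have hb2 : OBdd fun U (x : Fin 1 → Fin (R.N i) → Bool) => R.ρ *
      inner ℝ (featV (R.n i) (R.base i).lbl none U (x 0)) (featV (R.n i) (R.base i).lbl none U (x 0)) :=
    OBdd.of_continuous fun x => R.continuous_cov i x 0 0
  rw [pmean_eq_ev (hν _) hb1, pmean_eq_ev (hν _) hb2]
  exact hp

end Vale.Agent.P166F.Low.Tgt
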