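import Vale.Agent.P166F.Low.Target.Setup

/-!
P166: the two classes of slope zero in the enlarged system: the product of the new spins against the
overlaps of the classes, and the sum of these two overlaps against the covariance.
-/

namespace Vale.Agent.P166F.Low.Tgt

open MeasureTheory Filter
open scoped Topology
open Vale.Agent.P166 (spin)
open Vale.Agent.P166N.Spectrum (OrthInvLaw)

section Classes

variable {κ : Type} [DecidableEq κ] {M P r n : ℕ} {dl : κ → ℝ} {lbl : Fin M → κ} {f : κ} {s : ℝ}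
  {y : CIdx Unit P → ℝ} {μ : Measure (Fin M → Fin M → ℝ)}

lemma continuous_cOv' (c : κ) (σ τ : Fin M → Bool) :
    Continuous fun W => cOv lbl c W σ τ :=
  continuous_finsetSum _ fun p _ => by
    split_ifs
    · exact (continuous_coord σ p).mul (continuous_coord τ p)
    · exact continuous_const

lemma gramF_eq_cOv (hn : M ≤ n) (W : Fin M → Fin M → ℝ) (x : Fin r → Fin M → Bool) (u v : Fin r) :
    gramF n lbl f W x u v = cOv lbl f W (x u) (x v) / n := by
  rw [gramF, inner_featV, max_eq_left hn]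
  rfl

lemma continuous_gramF (x : Fin r → Fin M → Bool) (u v : Fin r) :
    Continuous fun W => gramF n lbl f W x u v :=
  (continuous_featV n lbl f (x u)).inner (continuous_featV n lbl f (x v))

lemma abs_cOv_le {W : Fin M → Fin M → ℝ} (hW : IsOrth W) (c : κ) (σ τ : Fin M → Bool) :
    |cOv lbl c W σ τ| ≤ M := by
  refine ((Finset.abs_sum_le_sum_abs _ _).trans (Finset.sum_le_sum fun i _ => (?_ : _ ≤
    (coord W σ i ^ 2 + coord W τ i ^ 2) / 2))).trans_eq ?_
  · split_ifs
    · rw [abs_le]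
      exact ⟨by nlinarith [sq_nonneg (coord W σ i + coord W τ i)],
        by nlinarith [sq_nonneg (coord W σ i - coord W τ i)]⟩
    · rw [abs_zero]
      positivity
  · rw [← Finset.sum_div, Finset.sum_add_distrib, sum_coord_sq_orth hW, sum_coord_sq_orth hW]
    ring

/-- The product of two configurations is the overlap of their coordinates. -/
lemma sum_spin_mul [Fintype κ] {W : Fin M → Fin M → ℝ} (hW : IsOrth W)
    (σ τ : Fin M → Bool) : ∑ k, spin (σ k) * spin (τ k) = ∑ j, cOv lbl j W σ τ := by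
  simp only [cOv]
  rw [Finset.sum_comm]
  simp only [Finset.sum_ite_eq, Finset.mem_univ, if_true, coord]
  exact (orth_dot hW _ _).symm

lemma abs_ev_le_sqrt (hμ : OrthLaw μ) {Θ : (Fin M → Fin M → ℝ) → (Fin r → Fin M → Bool) → ℝ}
    (hΘ : ∀ x, Continuous fun W => Θ W x) {B : ℝ}
    (h : ev dl n lbl f s y μ (fun W x => Θ W x ^ 2) ≤ B) :
    |ev dl n lbl f s y μ Θ| ≤ Real.sqrt B := by
  set m := ev dl n lbl f s y μ Θ with hm
  have h0 : 0 ≤ ev dl n lbl f s y μ (fun W x => Θ W x ^ 2 + (-2 * m * Θ W x + m ^ 2)) :=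
    (ev_const hμ 0).symm.trans_le (ev_mono hμ (OBdd.of_continuous fun _ => continuous_const)
      (OBdd.of_continuous fun x => ((hΘ x).pow 2).add (((hΘ x).const_mul _).add continuous_const))
      fun W x _ => by nlinarith [sq_nonneg (Θ W x - m)])
  have h1 : OBdd fun W x => -2 * m * Θ W x := OBdd.of_continuous fun x => (hΘ x).const_mul _
  have h2 : OBdd fun (_ : Fin M → Fin M → ℝ) (_ : Fin r → Fin M → Bool) => m ^ 2 :=
    OBdd.of_continuous fun _ => continuous_const
  have h3 : OBdd fun W x => -2 * m * Θ W x + m ^ 2 :=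
    OBdd.of_continuous fun x => ((hΘ x).const_mul _).add continuous_const
  have h4 : OBdd fun W x => Θ W x ^ 2 := OBdd.of_continuous fun x => (hΘ x).pow 2
  rw [ev_add hμ h4 h3, ev_add hμ h1 h2, ev_smul, ev_const hμ, ← hm] at h0
  exact Real.abs_le_sqrt (by linarith)

end Classes

variable {K : ℕ} {a : Atoms K} {i0 : Fin K} (R : Regime a i0) {β : ℝ}
  {ν : (N : ℕ) → Measure (Fin N → Fin N → ℝ)}

/-- The spins of the last column against a function of the covariance are a mean over the classes. -/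
lemma ev_last_pair (hν : ∀ N, OrthInvLaw N (ν N)) (i : ℕ) {r : ℕ} (u v : Fin r) {ψ : ℝ → ℝ}
    (hψc : Continuous ψ) :
    ev (dlA a β i0) (R.n i) (R.base i).plus none (R.s i) (R.y i) (ν (R.N i + 1))
        (fun W (x : Fin r → Fin (R.N i + 1) → Bool) =>
          spin (x u (Fin.last (R.N i))) * spin (x v (Fin.last (R.N i))) *
            ψ (R.ρ * gramF (R.n i) (R.base i).plus none W x u v)) * ((R.N i : ℝ) + 1) =
      ∑ j : Option (Fin K),
        ev (dlA a β i0) (R.n i) (R.base i).plus none (R.s i) (R.y i) (ν (R.N i + 1))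
          (fun W (x : Fin r → Fin (R.N i + 1) → Bool) =>
            ψ (R.ρ * gramF (R.n i) (R.base i).plus none W x u v) *
              cOv (R.base i).plus j W (x u) (x v)) := by
  set b := R.base i
  have hμ := orthLaw_of_inv (hν (R.N i + 1))
  have hG : ∀ x : Fin r → Fin (R.N i + 1) → Bool,
      Continuous fun W => ψ (R.ρ * gramF (R.n i) b.plus none W x u v) := fun x =>
    hψc.comp ((continuous_gramF x u v).const_mul _)
  set Ξ : Fin (R.N i + 1) → (Fin (R.N i + 1) → Fin (R.N i + 1) → ℝ) → (Fin r → Fin (R.N i + 1) → Bool) → ℝ :=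
    fun k W x => spin (x u k) * spin (x v k) * ψ (R.ρ * gramF (R.n i) b.plus none W x u v) with hΞ
  have hΞc : ∀ k x, Continuous fun W => Ξ k W x := fun k x => (hG x).const_mul _
  have hk : ∀ k, ev (dlA a β i0) (R.n i) b.plus none (R.s i) (R.y i) (ν (R.N i + 1)) (Ξ k) =
      ev (dlA a β i0) (R.n i) b.plus none (R.s i) (R.y i) (ν (R.N i + 1)) (Ξ (Fin.last (R.N i))) := fun k => by
    conv_rhs => rw [ev_colSwap b.plus (hν (R.N i + 1)) k fun x => (hΞc _ x).measurable]
    refine ev_congr hμ fun W x _ => ?_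
    simp only [Ξ, gramF, inner_featV, coord_colSwap, Equiv.swap_apply_right, Equiv.swap_apply_self]
  have hbd : ∀ j, OBdd fun W (x : Fin r → Fin (R.N i + 1) → Bool) =>
      ψ (R.ρ * gramF (R.n i) b.plus none W x u v) * cOv b.plus j W (x u) (x v) := fun j =>
    OBdd.of_continuous fun x => (hG x).mul (continuous_cOv' j (x u) (x v))
  rw [← ev_sum hμ Finset.univ _ hbd]
  refine Eq.trans ?_ (ev_congr hμ (Θ := fun W x => ∑ k, Ξ k W x) fun W x hW => ?_)
  · rw [ev_sum hμ Finset.univ Ξ fun k => OBdd.of_continuous (hΞc k)]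
    simp only [hk, Finset.sum_const, Finset.card_univ, Fintype.card_fin, nsmul_eq_mul]
    push_cast
    rw [mul_comm]
  · simp only [Ξ]
    rw [← Finset.sum_mul, ← Finset.mul_sum, sum_spin_mul (lbl := b.plus) hW, mul_comm]

lemma tendsto_size_div_scale :
    Tendsto (fun i => ((R.N i : ℝ) + 1) / R.n i) atTop (𝓝 (R.ρ * R.θ)⁻¹) := by
  have hN : Tendsto (fun i => (R.N i : ℝ) / ((R.N i : ℝ) + 1)) atTop (𝓝 1) :=
    (tendsto_natCast_div_add_atTop (1 : ℝ)).comp R.top
  have h := ((R.scale.mul (R.frac none)).mul hN).inv₀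
    (by rw [mul_one, show vA a i0 R.θ none ^ 2 = R.θ from (lim_sq R).1]
        exact (mul_pos R.ρpos R.θmem.1).ne')
  rw [mul_one, show vA a i0 R.θ none ^ 2 = R.θ from (lim_sq R).1] at h
  refine h.congr' ?_
  filter_upwards [(R.frac none).eventually_ne
    (show vA a i0 R.θ none ^ 2 ≠ 0 from (pow_pos (lim_pos R none) 2).ne')] with i hi
  obtain ⟨h1, h2⟩ := div_ne_zero_iff.1 hi
  have h3 : (R.n i : ℝ) ≠ 0 := Nat.cast_ne_zero.2 (by have := R.le i; omega)
  have h4 : (R.N i : ℝ) + 1 ≠ 0 := by positivity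
  field_simp

/-- The error of `split_concentrates` in the enlarged systems vanishes. -/
lemma tendsto_split_err :
    Tendsto (fun i => ((R.P i : ℝ) + 1) ^ 2 * (1 / ((R.N i : ℝ) + 1) + R.s i / Real.sqrt (R.n i) +
      R.s i ^ 2 / R.n i)) atTop (𝓝 0) := by
  have hn : Tendsto (fun i => ((R.P i : ℝ) + 1) ^ 4 * R.s i ^ 2 / R.n i) atTop (𝓝 0) := by
    refine squeeze_zero (fun i => by positivity) (fun i => ?_) R.small
    exact div_le_div_of_nonneg_right (mul_le_mul_of_nonneg_left (by linarith) (by positivity))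
      (Nat.cast_nonneg _)
  have hP : Tendsto (fun i => ((R.P i : ℝ) + 1) ^ 4 / R.n i) atTop (𝓝 0) := by
    refine squeeze_zero (fun i => by positivity) (fun i => ?_) R.small
    exact div_le_div_of_nonneg_right (le_mul_of_one_le_right (by positivity)
      (le_add_of_nonneg_right (sq_nonneg _))) (Nat.cast_nonneg _)
  have hN1 : Tendsto (fun i => 1 / ((R.N i : ℝ) + 1)) atTop (𝓝 0) :=
    (tendsto_atTop_add_const_right _ _ (tendsto_N R)).const_div_atTop 1
  have h1 : Tendsto (fun i => ((R.P i : ℝ) + 1) ^ 4 / ((R.N i : ℝ) + 1) ^ 2) atTop (𝓝 0) := by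
    have h2 := (hP.mul ((tendsto_size_div_scale R).inv₀
      (inv_ne_zero (mul_pos R.ρpos R.θmem.1).ne'))).mul hN1
    rw [zero_mul, zero_mul] at h2
    refine h2.congr fun i => ?_
    have h3 : (R.n i : ℝ) ≠ 0 := Nat.cast_ne_zero.2 (by have := R.le i; omega)
    have h4 : (R.N i : ℝ) + 1 ≠ 0 := by positivity
    field_simp
  have hsum := (h1.sqrt.add hn.sqrt).add (tendsto_small R)
  rw [Real.sqrt_zero, add_zero, add_zero] at hsum
  refine hsum.congr fun i => ?_
  rw [show ((R.P i : ℝ) + 1) ^ 4 / ((R.N i : ℝ) + 1) ^ 2 =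
      (((R.P i : ℝ) + 1) ^ 2 / ((R.N i : ℝ) + 1)) ^ 2 by rw [div_pow, ← pow_mul],
    Real.sqrt_sq (by positivity),
    show ((R.P i : ℝ) + 1) ^ 4 * R.s i ^ 2 / (R.n i : ℝ) =
      (((R.P i : ℝ) + 1) ^ 2 * R.s i) ^ 2 / R.n i by ring,
    Real.sqrt_div' _ (Nat.cast_nonneg _), Real.sqrt_sq (mul_nonneg (sq_nonneg _) (R.nonneg i))]
  ring

/-- The two classes of slope zero together carry the weight of the atom times the covariance. -/
lemma classes_ef (hν : ∀ N, OrthInvLaw N (ν N)) :
    ∀ ε : ℝ, 0 < ε → ∀ᶠ i in atTop, ∀ (u v : Fin 2) (ψ : ℝ → ℝ), Continuous ψ → (∀ x, |ψ x| ≤ 1) →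
      |(ev (dlA a β i0) (R.n i) (R.base i).plus none (R.s i) (R.y i) (ν (R.N i + 1))
            (fun W (x : Fin 2 → Fin (R.N i + 1) → Bool) =>
              ψ (R.ρ * gramF (R.n i) (R.base i).plus none W x u v) *
                cOv (R.base i).plus (some i0) W (x u) (x v)) +
          ev (dlA a β i0) (R.n i) (R.base i).plus none (R.s i) (R.y i) (ν (R.N i + 1))
            (fun W (x : Fin 2 → Fin (R.N i + 1) → Bool) =>
              ψ (R.ρ * gramF (R.n i) (R.base i).plus none W x u v) *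
                cOv (R.base i).plus none W (x u) (x v))) / ((R.N i : ℝ) + 1) -
        a.wt i0 * ev (dlA a β i0) (R.n i) (R.base i).plus none (R.s i) (R.y i) (ν (R.N i + 1))
            (fun W (x : Fin 2 → Fin (R.N i + 1) → Bool) =>
              ψ (R.ρ * gramF (R.n i) (R.base i).plus none W x u v) *
                (R.ρ * gramF (R.n i) (R.base i).plus none W x u v))| ≤ ε := by
  intro ε hε
  obtain ⟨C, hC⟩ := split_concentrates (κ := Option (Fin K))
  set t : ℕ → ℝ := fun i => ((R.P i : ℝ) + 1) ^ 2 *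
    (1 / ((R.N i : ℝ) + 1) + R.s i / Real.sqrt (R.n i) + R.s i ^ 2 / R.n i) with ht
  set c : ℝ := R.θ / 2 with hcdef
  have hc : 0 < c := half_pos R.θmem.1
  have hf : Tendsto (fun i => (csize (R.base i).plus none : ℝ) / ((R.N i : ℝ) + 1)) atTop (𝓝 R.θ) := by
    have h := tendsto_plus R none
    rwa [(lim_sq R).1] at h
  have he : Tendsto (fun i => (csize (R.base i).plus (some i0) : ℝ) / ((R.N i : ℝ) + 1)) atTop
      (𝓝 (a.wt i0 - R.θ)) := by
    have h := tendsto_plus R (some i0)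
    rwa [(lim_sq R).2 i0, if_pos rfl] at h
  have hgap : Tendsto (fun i => |((csize (R.base i).plus (some i0) : ℝ) / ((R.N i : ℝ) + 1) +
      (csize (R.base i).plus none : ℝ) / ((R.N i : ℝ) + 1)) /
        ((csize (R.base i).plus none : ℝ) / ((R.N i : ℝ) + 1)) -
      a.wt i0 * (R.ρ * (((R.N i : ℝ) + 1) / R.n i))|) atTop (𝓝 0) := by
    have h := (((he.add hf).div hf R.θmem.1.ne').sub
      (((tendsto_size_div_scale R).const_mul R.ρ).const_mul (a.wt i0))).abs
    have hr := R.ρpos.ne'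
    have hθ := R.θmem.1.ne'
    rwa [show |(a.wt i0 - R.θ + R.θ) / R.θ - a.wt i0 * (R.ρ * (R.ρ * R.θ)⁻¹)| = 0 by
      rw [abs_eq_zero]; field_simp; ring] at h
  have hbnd := ((((tendsto_split_err R).const_mul |C|).sqrt).div_const c).add hgap
  simp only [mul_zero, Real.sqrt_zero, zero_div, add_zero] at hbnd
  filter_upwards [hbnd.eventually_le_const hε,
    hf.eventually_const_lt (show c < R.θ by linarith [R.θmem.1])] with i hi hci u v ψ hψc hψ
  refine le_trans ?_ hi
  set N := R.N i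
  set b := R.base i
  set dl := dlA a β i0
  have hn : N + 1 ≤ R.n i := R.le i
  have hM : (0 : ℝ) < (N : ℝ) + 1 := by positivity
  set mf : ℝ := (csize b.plus none : ℝ)
  set me : ℝ := (csize b.plus (some i0) : ℝ)
  have hmf : c * ((N : ℝ) + 1) ≤ mf := ((lt_div_iff₀ hM).1 hci).le
  have hmf0 : 0 < mf := lt_of_lt_of_le (mul_pos hc hM) hmf
  have hμ := orthLaw_of_inv (hν (N + 1))
  set E : ((Fin (N + 1) → Fin (N + 1) → ℝ) → (Fin 2 → Fin (N + 1) → Bool) → ℝ) → ℝ := fun Θ =>
    ev dl (R.n i) b.plus none (R.s i) (R.y i) (ν (N + 1)) Θ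
  set p : (Fin (N + 1) → Fin (N + 1) → ℝ) → (Fin 2 → Fin (N + 1) → Bool) → ℝ := fun W x =>
    ψ (R.ρ * gramF (R.n i) b.plus none W x u v)
  set Sc : Option (Fin K) → (Fin (N + 1) → Fin (N + 1) → ℝ) → (Fin 2 → Fin (N + 1) → Bool) → ℝ :=
    fun j W x => p W x * cOv b.plus j W (x u) (x v)
  set X : (Fin (N + 1) → Fin (N + 1) → ℝ) → (Fin 2 → Fin (N + 1) → Bool) → ℝ := fun W x =>
    mf * cOv b.plus (some i0) W (x u) (x v) - me * cOv b.plus none W (x u) (x v)
  have hpc : ∀ x, Continuous fun W => p W x := fun x =>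
    hψc.comp ((continuous_gramF x u v).const_mul _)
  have hSc : ∀ j x, Continuous fun W => Sc j W x := fun j x =>
    (hpc x).mul (continuous_cOv' j (x u) (x v))
  have hXc : ∀ x, Continuous fun W => X W x := fun x =>
    ((continuous_cOv' _ (x u) (x v)).const_mul _).sub ((continuous_cOv' _ (x u) (x v)).const_mul _)
  have ht0 : 0 ≤ t i := mul_nonneg (sq_nonneg _) (by have := R.nonneg i; positivity)
  have hX2 : E (fun W x => (p W x * X W x) ^ 2) ≤ |C| * t i * ((N : ℝ) + 1) ^ 4 := by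
    refine (ev_mono hμ (OBdd.of_continuous fun x => ((hpc x).mul (hXc x)).pow 2)
      (OBdd.of_continuous fun x => (hXc x).pow 2) fun W x _ => ?_).trans ?_
    · rw [mul_pow]
      exact mul_le_of_le_one_left (sq_nonneg _) ((sq_le_one_iff_abs_le_one _).2 (hψ _))
    rw [← pmean_eq_ev (hν (N + 1)) (OBdd.of_continuous fun x => (hXc x).pow 2)]
    refine (hC (R.P i) (N + 1) (R.n i) dl b.plus (some i0) none (R.s i) (R.y i) (ν (N + 1))
      (hν (N + 1)) hn (Nat.le_add_left 1 N) some_ne_none' (dlA_some.trans dlA_none.symm)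
      (R.nonneg i) (R.box i) u v).trans ?_
    push_cast
    calc C * ((R.P i : ℝ) + 1) ^ 2 * ((N : ℝ) + 1) ^ 4 *
          (1 / ((N : ℝ) + 1) + R.s i / Real.sqrt (R.n i) + R.s i ^ 2 / R.n i)
        = C * (t i * ((N : ℝ) + 1) ^ 4) := by simp only [t, N]; ring
      _ ≤ |C| * (t i * ((N : ℝ) + 1) ^ 4) :=
          mul_le_mul_of_nonneg_right (le_abs_self C) (mul_nonneg ht0 (by positivity))
      _ = _ := by ring
  have hX1 : |E fun W x => p W x * X W x| ≤ Real.sqrt (|C| * t i) * ((N : ℝ) + 1) ^ 2 := by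
    refine (abs_ev_le_sqrt hμ (fun x => (hpc x).mul (hXc x)) hX2).trans_eq ?_
    rw [show ((N : ℝ) + 1) ^ 4 = (((N : ℝ) + 1) ^ 2) ^ 2 by ring, Real.sqrt_mul' _ (sq_nonneg _),
      Real.sqrt_sq (sq_nonneg _)]
  have hEX : (E fun W x => p W x * X W x) = mf * E (Sc (some i0)) - me * E (Sc none) := by
    simp only [E]
    rw [ev_congr hμ (Θ' := fun W x => mf * Sc (some i0) W x + -me * Sc none W x)
      fun W x _ => by simp only [X, Sc]; ring,
      ev_add hμ (OBdd.of_continuous fun x => (hSc _ x).const_mul _)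
        (OBdd.of_continuous fun x => (hSc _ x).const_mul _), ev_smul, ev_smul]
    ring
  have hSf : |E (Sc none)| ≤ (N : ℝ) + 1 := abs_ev_le hμ fun W x hW => by
    simp only [Sc, p, abs_mul]
    refine (mul_le_of_le_one_left (abs_nonneg _) (hψ _)).trans ((abs_cOv_le hW _ _ _).trans_eq ?_)
    push_cast
    rfl
  have hcv : (E fun W x => p W x * (R.ρ * gramF (R.n i) b.plus none W x u v)) =
      R.ρ / R.n i * E (Sc none) := by
    refine (ev_congr hμ fun W x _ => ?_).trans (ev_smul (R.ρ / R.n i) (Sc none))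
    simp only [Sc, gramF_eq_cOv hn]
    ring
  have hn0 : (R.n i : ℝ) ≠ 0 := Nat.cast_ne_zero.2 (by omega)
  rw [show (E (Sc (some i0)) + E (Sc none)) / ((N : ℝ) + 1) -
        a.wt i0 * (E fun W x => p W x * (R.ρ * gramF (R.n i) b.plus none W x u v)) =
      (E fun W x => p W x * X W x) / (mf * ((N : ℝ) + 1)) +
        E (Sc none) / ((N : ℝ) + 1) * ((me / ((N : ℝ) + 1) + mf / ((N : ℝ) + 1)) /
          (mf / ((N : ℝ) + 1)) - a.wt i0 * (R.ρ * (((N : ℝ) + 1) / R.n i))) by
    rw [hEX, hcv]; field_simp; ring]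
  refine (abs_add_le _ _).trans (add_le_add ?_ ?_)
  · rw [abs_div, abs_of_pos (mul_pos hmf0 hM)]
    calc |E fun W x => p W x * X W x| / (mf * ((N : ℝ) + 1))
        ≤ Real.sqrt (|C| * t i) * ((N : ℝ) + 1) ^ 2 / (c * ((N : ℝ) + 1) * ((N : ℝ) + 1)) :=
          div_le_div₀ (by positivity) hX1 (by positivity) (mul_le_mul_of_nonneg_right hmf hM.le)
      _ = Real.sqrt (|C| * t i) / c := by
          generalize Real.sqrt (|C| * t i) = q
          field_simp
  · rw [abs_mul]
    refine mul_le_of_le_one_left (abs_nonneg _) ?_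
    rw [abs_div, abs_of_pos hM, div_le_one hM]
    exact hSf

end Vale.Agent.P166F.Low.Tgt
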