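import Vale.Agent.P166F.Low.Target.Transfer
import Vale.Agent.P166F.Low.Target.Classes

/-!
P166: stationarity of the enlarged systems, read in the base reweighted by the weight of the added spin.
-/

namespace Vale.Agent.P166F.Low.Tgt

open MeasureTheory ProbabilityTheory Filter
open scoped RealInnerProductSpace Topology
open Vale.Agent.P166 (spin)
open Vale.Agent.P166N.Spectrum (OrthInvLaw)
open Vale.Agent.P166F.Orth (Arr2)

section Systems

variable {κ : Type} [Fintype κ] [DecidableEq κ] {e f : κ} {N n r : ℕ}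

omit [Fintype κ] in
lemma gramF_sub_gramB (b : Base e f N) (hn : N + 1 ≤ n) (W : Fin (N + 1) → Fin (N + 1) → ℝ)
    (x : Fin r → Fin (N + 1) → Bool) (u v : Fin r) :
    gramF n b.plus f W x u v - gramB b n W x u v =
      coord W (x u) (b.rep f) * coord W (x v) (b.rep f) / n := by
  rw [gramF, gramB, PiLp.inner_apply, PiLp.inner_apply, ← Finset.sum_sub_distrib]
  rw [Finset.sum_eq_single (b.rep f)]
  · simp only [featB, featV, if_pos (b.plus_rep f), max_eq_left hn, RCLike.inner_apply, conj_trivial]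
    simp only [if_true, mul_zero, sub_zero]
    rw [div_mul_div_comm, Real.mul_self_sqrt (Nat.cast_nonneg _), mul_comm]
  · intro i _ hi
    simp [featB, hi]
  · simp

lemma abs_gramB_le (b : Base e f N) (hn : N + 1 ≤ n) {W : Fin (N + 1) → Fin (N + 1) → ℝ}
    (hW : IsOrth W) (x : Fin r → Fin (N + 1) → Bool) (u v : Fin r) : |gramB b n W x u v| ≤ 1 := by
  have h : ∀ a, ‖featB b n W (x a)‖ ≤ 1 := fun a => by
    have h1 := gramF_sub_gramB b hn W x a a
    rw [gramF, gramB, real_inner_self_eq_norm_sq, real_inner_self_eq_norm_sq] at h1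
    have h2 : 0 ≤ coord W (x a) (b.rep f) * coord W (x a) (b.rep f) / n :=
      div_nonneg (mul_self_nonneg _) (Nat.cast_nonneg _)
    nlinarith [Low.norm_featV_le hW n b.plus f (x a), norm_nonneg (featB b n W (x a)),
      norm_nonneg (featV n b.plus f W (x a))]
  exact (abs_real_inner_le_norm _ _).trans (mul_le_one₀ (h u) (norm_nonneg _) (h v))

lemma gramB_splitRot (b : Base e f N) (hef : e ≠ f) (hn : N + 1 ≤ n) (T : κ → ℝ)
    (U : Fin N → Fin N → ℝ) (x : Fin r → Fin N → Bool) (t : Fin r → Bool) (u v : Fin r) :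
    gramB b n (b.splitRot T U) (fun l => Fin.snoc (x l) (t l)) u v = gramF n b.lbl f U x u v :=
  (sum_featB_sq b T U hef hn (x u) (x v) (t u) (t v)).1

omit [Fintype κ] in
lemma continuous_gramB (b : Base e f N) (x : Fin r → Fin (N + 1) → Bool) (u v : Fin r) :
    Continuous fun W => gramB b n W x u v := by
  have h : ∀ a, Continuous fun W => featB b n W (x a) := fun a => by
    refine (PiLp.continuous_toLp 2 _).comp (continuous_pi fun i => ?_)
    split_ifs
    · exact continuous_const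
    · exact (PiLp.continuous_apply 2 _ i).comp (continuous_featV n b.plus f (x a))
  exact (h u).inner (h v)

omit [Fintype κ] in
lemma classInv_gramF (lbl : Fin (N + 1) → κ) (χ : ℝ → ℝ) (φ : (Fin r → Fin (N + 1) → Bool) → ℝ) (c : ℝ)
    (u v : Fin r) : ClassInv lbl (fun W x => χ (c * gramF n lbl f W x u v) * φ x) := by
  intro O hO W x
  simp only [gramF_resp hO]

omit [Fintype κ] in
lemma classInv_gramF_cOv (lbl : Fin (N + 1) → κ) (χ : ℝ → ℝ) (c : ℝ) (j : κ) (u v : Fin r) :
    ClassInv lbl (fun W x => χ (c * gramF n lbl f W x u v) * cOv lbl j W (x u) (x v)) := by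
  intro O hO W x
  simp only [gramF_resp hO, cOv_resp hO]

end Systems

variable {K : ℕ} {a : Atoms K} {i0 : Fin K} (R : Regime a i0) {β : ℝ}
  {ν : (N : ℕ) → Measure (Fin N → Fin N → ℝ)}

lemma wt_le_one (l : Fin K) : a.wt l ≤ 1 :=
  (Finset.single_le_sum (f := a.wt) (fun k _ => (a.pos k).le) (Finset.mem_univ l)).trans_eq a.total

lemma abs_cov_base_le {i : ℕ} {U : Arr2 (R.N i)} (hU : IsOrth U) {r : ℕ}
    (x : Fin r → Fin (R.N i) → Bool) (u v : Fin r) : |R.cov i U x u v| ≤ R.ρ :=
  R.abs_cov_le i hU x u v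

lemma abs_eV_le (hν : ∀ N, OrthInvLaw N (ν N)) (i : ℕ) {r : ℕ}
    {Θ : Arr2 (R.N i + 1) → (Fin r → Fin (R.N i + 1) → Bool) → ℝ} {B : ℝ}
    (h : ∀ W x, IsOrth W → |Θ W x| ≤ B) : |eV R β ν i Θ| ≤ B := by
  have := (hν (R.N i + 1)).prob
  have h1 := norm_integral_le_of_norm_le_const (μ := ν (R.N i + 1))
    (f := fun V => evT (dlA a β i0) (R.n i) (R.base i) (R.s i) (R.y i) (ν (R.N i))
      (colNorm (R.base i).plus V) Θ) (C := B)
    (Eventually.of_forall fun V => (Real.norm_eq_abs _).trans_le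
      (abs_ev_le (orthLaw_evT (R.base i) (hν _) _) h))
  simpa [eV, probReal_univ] using h1

lemma eV_add (hν : ∀ N, OrthInvLaw N (ν N)) (i : ℕ) {r : ℕ}
    {Θ Θ' : Arr2 (R.N i + 1) → (Fin r → Fin (R.N i + 1) → Bool) → ℝ} (hΘ : OBdd Θ) (hΘ' : OBdd Θ') :
    eV R β ν i (fun W x => Θ W x + Θ' W x) = eV R β ν i Θ + eV R β ν i Θ' := by
  simp only [eV]
  rw [← integral_add (integrable_evT (R.base i) (hν _) (hν _) hΘ)
    (integrable_evT (R.base i) (hν _) (hν _) hΘ')]
  refine integral_congr_ae (Eventually.of_forall fun V => ?_)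
  exact ev_add (orthLaw_evT (R.base i) (hν _) _) hΘ hΘ'

/-- A function of the covariance can be read on the rows of the base. -/
lemma exists_replace (hν : ∀ N, OrthInvLaw N (ν N)) {χ : ℝ → ℝ} (hχc : Continuous χ) {Bχ Λχ Bφ ε : ℝ}
    (hBχ : 0 ≤ Bχ) (hΛχ : 0 ≤ Λχ) (hBφ : 0 ≤ Bφ) (hε : 0 < ε) (hχ : ∀ x, |x| ≤ R.ρ → |χ x| ≤ Bχ)
    (hχ' : ∀ x x', |x| ≤ R.ρ → |x'| ≤ R.ρ → |χ x - χ x'| ≤ Λχ * |x - x'|) :
    ∀ᶠ i in atTop, ∀ (u v : Fin 2) (φ : Arr2 (R.N i + 1) → (Fin 2 → Fin (R.N i + 1) → Bool) → ℝ),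
      (∀ x, Continuous fun W => φ W x) → (∀ W x, IsOrth W → |φ W x| ≤ Bφ) →
      |eV R β ν i (fun W x => χ (R.ρ * gramF (R.n i) (R.base i).plus none W x u v) * φ W x) -
        eV R β ν i (fun W x => χ (R.ρ * gramB (R.base i) (R.n i) W x u v) * φ W x)| ≤ ε := by
  obtain ⟨C, hC, hs⟩ := exists_small R (β := β) hν
  have hn : Tendsto (fun i => (1 : ℝ) / R.n i) atTop (𝓝 0) :=
    squeeze_zero (fun i => by positivity) (fun i => div_le_div_of_nonneg_right
      (one_le_mul_of_one_le_of_one_le (one_le_pow₀ (le_add_of_nonneg_left (Nat.cast_nonneg _)))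
        (le_add_of_nonneg_right (sq_nonneg _))) (Nat.cast_nonneg _)) R.small
  have hlim : Tendsto (fun i => Λχ * R.ρ * Bφ * (1 / (R.n i : ℝ)) * C + 2 * Bχ * Bφ * C * badI R ν i)
      atTop (𝓝 0) := by
    simpa [badI] using ((hn.const_mul (Λχ * R.ρ * Bφ)).mul_const C).add
      ((tendsto_bad R hν).const_mul (2 * Bχ * Bφ * C))
  filter_upwards [hs, hlim.eventually (gt_mem_nhds hε)] with i hsi hli u v φ hφc hφ
  set b := R.base i
  have hn1 : R.N i + 1 ≤ R.n i := R.le i
  have hGc : ∀ x : Fin 2 → Fin (R.N i + 1) → Bool,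
      Continuous fun W => R.ρ * gramF (R.n i) b.plus none W x u v := fun x =>
    (continuous_gramF x u v).const_mul _
  have hBc : ∀ x : Fin 2 → Fin (R.N i + 1) → Bool,
      Continuous fun W => R.ρ * gramB b (R.n i) W x u v := fun x => (continuous_gramB b x u v).const_mul _
  set D : Arr2 (R.N i + 1) → (Fin 2 → Fin (R.N i + 1) → Bool) → ℝ := fun W x =>
    (χ (R.ρ * gramF (R.n i) b.plus none W x u v) - χ (R.ρ * gramB b (R.n i) W x u v)) * φ W x
  have hD : OBdd D := OBdd.of_continuous fun x =>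
    ((hχc.comp (hGc x)).sub (hχc.comp (hBc x))).mul (hφc x)
  have hB : OBdd fun W x => χ (R.ρ * gramB b (R.n i) W x u v) * φ W x :=
    OBdd.of_continuous fun x => (hχc.comp (hBc x)).mul (hφc x)
  have hsplit : eV R β ν i (fun W x => χ (R.ρ * gramF (R.n i) b.plus none W x u v) * φ W x) =
      eV R β ν i D + eV R β ν i (fun W x => χ (R.ρ * gramB b (R.n i) W x u v) * φ W x) := by
    rw [← eV_add R hν i hD hB]
    refine congrArg _ (funext fun W => funext fun x => ?_)
    simp only [D]
    ring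
  rw [hsplit, add_sub_cancel_right]
  have hb1 : ∀ W x, IsOrth W → |R.ρ * gramF (R.n i) b.plus none W x u v| ≤ R.ρ := fun W x hW => by
    rw [abs_mul, abs_of_pos R.ρpos, gramF]
    exact mul_le_of_le_one_right R.ρpos.le ((abs_real_inner_le_norm _ _).trans
      (mul_le_one₀ (Low.norm_featV_le hW _ _ _ _) (norm_nonneg _) (Low.norm_featV_le hW _ _ _ _)))
  have hb2 : ∀ W x, IsOrth W → |R.ρ * gramB b (R.n i) W x u v| ≤ R.ρ := fun W x hW => by
    rw [abs_mul, abs_of_pos R.ρpos]
    exact mul_le_of_le_one_right R.ρpos.le (abs_gramB_le b hn1 hW x u v)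
  refine (hsi 2 u v D (2 * Bχ * Bφ) (Λχ * R.ρ * Bφ * (1 / (R.n i : ℝ))) hD (by positivity)
    (by have := R.ρpos; positivity) (fun W x hW => ?_) fun W x hW => ?_).trans hli.le
  · rw [abs_mul]
    refine mul_le_mul ((abs_sub _ _).trans ?_) (hφ W x hW) (abs_nonneg _) (by positivity)
    linarith [hχ _ (hb1 W x hW), hχ _ (hb2 W x hW)]
  · rw [abs_mul]
    calc _ ≤ Λχ * |R.ρ * gramF (R.n i) b.plus none W x u v - R.ρ * gramB b (R.n i) W x u v| * Bφ :=
          mul_le_mul (hχ' _ _ (hb1 W x hW) (hb2 W x hW)) (hφ W x hW) (abs_nonneg _) (by positivity)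
      _ = Λχ * R.ρ * Bφ * (1 / (R.n i : ℝ)) *
          |coord W (x u) (b.rep none) * coord W (x v) (b.rep none)| := by
          rw [← mul_sub, gramF_sub_gramB b hn1, abs_mul, abs_of_pos R.ρpos, abs_div,
            abs_of_nonneg (Nat.cast_nonneg (α := ℝ) (R.n i))]
          ring
      _ ≤ _ := by
          refine mul_le_mul_of_nonneg_left ?_ (by have := R.ρpos; positivity)
          have h1 : ∀ w : Fin 2, coord W (x w) (b.rep none) ^ 2 ≤ zW b W (x w) := fun w =>
            (Finset.single_le_sum (f := fun j => coord W (x w) (b.rep j) ^ 2) (fun j _ => sq_nonneg _)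
              (Finset.mem_univ (none : Option (Fin K)))).trans
              (le_add_of_nonneg_right (Finset.sum_nonneg fun j _ => sq_nonneg _))
          rw [abs_mul]
          nlinarith [h1 u, h1 v, sq_abs (coord W (x u) (b.rep none)), sq_abs (coord W (x v) (b.rep none)),
            sq_nonneg (|coord W (x u) (b.rep none)| - |coord W (x v) (b.rep none)|),
            sq_nonneg (coord W (x u) (b.rep none)), sq_nonneg (coord W (x v) (b.rep none))]

lemma tiltAvg_eq_tT (hν : ∀ N, OrthInvLaw N (ν N)) (hd : ∀ j, 0 ≤ dlA a β i0 j) (i : ℕ) {L : ℝ}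
    (hL : 0 < L) {r : ℕ} {Θ : Arr2 (R.N i) → (Fin r → Fin (R.N i) → Bool) → ℝ}
    (hΘ : ∀ x, Continuous fun U => Θ U x) {B : ℝ} (hB : ∀ U x, IsOrth U → |Θ U x| ≤ B) :
    R.tiltAvg β ν i (spinW (dlA a β i0) (some i0) (lim R) L) Θ = tT R β ν i (lim R) L Θ :=
  pmean_tilt_eq (R.base i) (hν _) (continuous_spinW _ _ _).measurable
    (fun z => one_pos.trans_le (spinW_range hd hL.le _ z).1) (fun x => (hΘ x).measurable) hB

/-- The overlap of one class above the lowest atom is that of one probe. -/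
lemma exists_class (hν : ∀ N, OrthInvLaw N (ν N)) (hd : ∀ j, 0 ≤ dlA a β i0 j) {ψ : ℝ → ℝ} {Λ : ℝ}
    (hΛ : 0 ≤ Λ) (hψc : Continuous ψ) (hψ1 : ∀ x, |ψ x| ≤ 1)
    (hψ : ∀ x x', |ψ x - ψ x'| ≤ Λ * |x - x'|) (u v : Fin 2) (cl : ℝ → ℝ → ℝ → ℝ) (m : ℕ)
    (hclc : ∀ b, Continuous fun p : ℝ × ℝ => cl b p.1 p.2)
    (hclb : ∀ b p q, 1 ≤ b → |cl b p q| ≤ b ^ m)
    (hcld : ∀ b p q, 1 ≤ b → (u = v → p = q) →
      |p * q - cl b p q| ≤ (p ^ 4 + p ^ 2 + q ^ 4 + q ^ 2) / b)
    {l : Fin K} (hl : l ≠ i0) :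
    ∃ C : ℝ, 0 ≤ C ∧ ∀ L b : ℝ, 0 < L → 1 ≤ b → ∀ ε : ℝ, 0 < ε → ∀ᶠ i in atTop,
      |ev (dlA a β i0) (R.n i) (R.base i).plus none (R.s i) (R.y i) (ν (R.N i + 1))
          (fun W (x : Fin 2 → Fin (R.N i + 1) → Bool) =>
            ψ (R.ρ * gramF (R.n i) (R.base i).plus none W x u v) *
              cOv (R.base i).plus (some l) W (x u) (x v)) / ((R.N i : ℝ) + 1) -
        a.wt l * tT R β ν i (lim R) L (fun U (x : Fin 2 → Fin (R.N i) → Bool) =>
          ψ (R.cov i U x u v) *
            cl b (R.field i U (x u) (Sum.inr ⟨some l, fun h => hl (Option.some_inj.1 h)⟩))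
              (R.field i U (x v) (Sum.inr ⟨some l, fun h => hl (Option.some_inj.1 h)⟩)))| ≤
        b ^ m * C / L + C / b + ε := by
  obtain ⟨Cs, hCs, hs⟩ := exists_small R (β := β) hν
  obtain ⟨Cc, hCc, hch⟩ := exists_chain R (β := β) hν hd
  obtain ⟨c, hc, hsh⟩ := exists_plus_share R
  set C4 : ℝ := 2 * (3 / c ^ 2 + 1 / c)
  refine ⟨2 * Cc + C4, by positivity, fun L b hL hb ε hε => ?_⟩
  have hbm : (0 : ℝ) < b ^ m := pow_pos (by linarith) m
  have hb0 : (0 : ℝ) < b := by linarith
  set η : ℝ := ε / 5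
  have hη : 0 < η := by positivity
  have hN1 : Tendsto (fun i => 1 / ((R.N i : ℝ) + 1)) atTop (𝓝 0) :=
    (tendsto_atTop_add_const_right _ _ (tendsto_N R)).const_div_atTop 1
  have hwt : lim R (some l) ^ 2 = a.wt l := by rw [(lim_sq R).2, if_neg hl]
  have hcf : Tendsto (fun i => |((csize (R.base i).plus (some l) : ℝ) - 1) / ((R.N i : ℝ) + 1) - a.wt l|)
      atTop (𝓝 0) := by
    have h := ((tendsto_plus R (some l)).sub hN1).sub_const (a.wt l)
    rw [hwt, sub_zero, sub_self] at h
    simpa [sub_div] using h.abs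
  have hyy : Tendsto (fun i => Cs * (1 / ((R.N i : ℝ) + 1)) + Cs * badI R ν i) atTop (𝓝 0) := by
    simpa [badI] using (hN1.const_mul Cs).add ((tendsto_bad R hν).const_mul Cs)
  filter_upwards [hs, hsh, hch 2 L (b ^ m) η hL hbm.le hη,
    exists_replace R (β := β) hν hψc zero_le_one hΛ hbm.le hη (fun x _ => hψ1 x)
      (fun x x' _ _ => hψ x x'),
    hcf.eventually (gt_mem_nhds (div_pos hη hbm)), hyy.eventually (gt_mem_nhds hη)]
    with i hsi hi hchi hrep hcfi hyi
  have := (hν (R.N i + 1)).prob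
  have := (hν (R.N i)).prob
  set B := R.base i
  set N1 : ℝ := (R.N i : ℝ) + 1
  have hN0 : 0 < N1 := by positivity
  set slot : Slot (some i0 : Option (Fin K)) := ⟨some l, fun h => hl (Option.some_inj.1 h)⟩
  set p : Fin (R.N i + 1) := (B.row (Sum.inr slot)).castSucc
  set q : Fin (R.N i + 1) := B.rep (some l)
  have hlab : lab (some i0 : Option (Fin K)) none slot.1 = some l := by
    rw [lab, if_neg (Option.some_ne_none l)]
  have hp : p ∈ restRows B (some l) := hlab ▸ mem_restRows_lab B slot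
  set S := restRows B (some l)
  have hS : ∀ w ∈ S, B.plus w = some l := fun w hw => (Finset.mem_filter.1 hw).2.1
  have hfilter : (Finset.univ.filter fun w => B.plus w = some l) = insert q S := by
    ext w
    simp only [Finset.mem_filter, Finset.mem_univ, true_and, Finset.mem_insert, S, restRows, q]
    by_cases h : w = B.rep (some l)
    · simp [h, B.plus_rep]
    · simp [h]
  have hqS : q ∉ S := by simp [S, q, restRows]
  have hcard : (csize B.plus (some l) : ℝ) = (S.card : ℝ) + 1 := by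
    rw [csize, hfilter, Finset.card_insert_of_notMem hqS]
    push_cast
    ring
  set G : Arr2 (R.N i + 1) → (Fin 2 → Fin (R.N i + 1) → Bool) → ℝ := fun W x =>
    R.ρ * gramF (R.n i) B.plus none W x u v
  have hGc : ∀ x, Continuous fun W => ψ (G W x) := fun x =>
    hψc.comp ((continuous_gramF x u v).const_mul _)
  set Θy : Arr2 (R.N i + 1) → (Fin 2 → Fin (R.N i + 1) → Bool) → ℝ := fun W x =>
    ψ (G W x) * (coord W (x u) q * coord W (x v) q)
  set Θp : Arr2 (R.N i + 1) → (Fin 2 → Fin (R.N i + 1) → Bool) → ℝ := fun W x =>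
    ψ (G W x) * (coord W (x u) p * coord W (x v) p)
  set Θc : Arr2 (R.N i + 1) → (Fin 2 → Fin (R.N i + 1) → Bool) → ℝ := fun W x =>
    ψ (G W x) * cl b (coord W (x u) p) (coord W (x v) p)
  set Θb : Arr2 (R.N i + 1) → (Fin 2 → Fin (R.N i + 1) → Bool) → ℝ := fun W x =>
    ψ (R.ρ * gramB B (R.n i) W x u v) * cl b (coord W (x u) p) (coord W (x v) p)
  have hclw : ∀ x : Fin 2 → Fin (R.N i + 1) → Bool,
      Continuous fun W => cl b (coord W (x u) p) (coord W (x v) p) := fun x =>
    (hclc b).comp ((continuous_coord (x u) p).prodMk (continuous_coord (x v) p))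
  have oy : OBdd Θy := OBdd.of_continuous fun x =>
    (hGc x).mul ((continuous_coord (x u) q).mul (continuous_coord (x v) q))
  have op : OBdd Θp := OBdd.of_continuous fun x =>
    (hGc x).mul ((continuous_coord (x u) p).mul (continuous_coord (x v) p))
  have oc : OBdd Θc := OBdd.of_continuous fun x => (hGc x).mul (hclw x)
  have ob : OBdd Θb := OBdd.of_continuous fun x =>
    (hψc.comp ((continuous_gramB B x u v).const_mul _)).mul (hclw x)
  -- the class is the representative and exchangeable rows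
  have hsplit : ev (dlA a β i0) (R.n i) B.plus none (R.s i) (R.y i) (ν (R.N i + 1))
      (fun W (x : Fin 2 → Fin (R.N i + 1) → Bool) => ψ (G W x) * cOv B.plus (some l) W (x u) (x v)) =
      eV R β ν i Θy + (S.card : ℝ) * eV R β ν i Θp := by
    have oa : OBdd fun W (x : Fin 2 → Fin (R.N i + 1) → Bool) => ψ (G W x) * cOv B.plus (some l) W (x u) (x v) :=
      OBdd.of_continuous fun x => (hGc x).mul (continuous_cOv' _ _ _)
    rw [ev_split B (hν _) (hν _) oa (classInv_gramF_cOv B.plus ψ R.ρ (some l) u v)]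
    simp only [eV]
    rw [← integral_const_mul, ← integral_add (integrable_evT B (hν _) (hν _) oy)
      ((integrable_evT B (hν _) (hν _) op).const_mul _)]
    refine integral_congr_ae (Eventually.of_forall fun V => ?_)
    set T := colNorm B.plus V
    have hμ := orthLaw_evT B (hν (R.N i)) T
    have havg := ev_row_avg (dl := dlA a β i0) (n := R.n i) (f := none) (s := R.s i) (y := R.y i) hμ
      (invOn_restRows B (hν _) T (some l)) hS hp
      (fun z : (Fin 2 → ℝ) × ℝ => z.2 * (z.1 u * z.1 v)) (by fun_prop) (fun W x => ψ (G W x)) hGc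
      fun O hO W x => by simp only [G, gramF_resp hO]
    have osum : OBdd fun W (x : Fin 2 → Fin (R.N i + 1) → Bool) =>
        ∑ w ∈ S, ψ (G W x) * (coord W (x u) w * coord W (x v) w) :=
      OBdd.of_continuous fun x => continuous_finsetSum _ fun w _ =>
        (hGc x).mul ((continuous_coord (x u) w).mul (continuous_coord (x v) w))
    simp only [evT]
    rw [show (fun W (x : Fin 2 → Fin (R.N i + 1) → Bool) => ψ (G W x) * cOv B.plus (some l) W (x u) (x v)) =
        fun W x => Θy W x + ∑ w ∈ S, ψ (G W x) * (coord W (x u) w * coord W (x v) w) by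
      funext W x
      rw [cOv, ← Finset.sum_filter, hfilter, Finset.sum_insert hqS, mul_add, Finset.mul_sum],
      ev_add hμ oy osum, ← havg]
  -- the representative is negligible
  have hy1 : |eV R β ν i Θy| ≤ 1 * Cs + N1 * Cs * badI R ν i := by
    have hsq : ∀ W, IsOrth W → ∀ σ : Fin (R.N i + 1) → Bool, coord W σ q ^ 2 ≤ N1 ∧
        coord W σ q ^ 2 ≤ zW B W σ := fun W hW σ => by
      refine ⟨(sq_coord_le hW σ q).trans_eq (by simp [N1]), ?_⟩
      exact (Finset.single_le_sum (f := fun j => coord W σ (B.rep j) ^ 2) (fun j _ => sq_nonneg _)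
        (Finset.mem_univ (some l : Option (Fin K)))).trans
        (le_add_of_nonneg_right (Finset.sum_nonneg fun j _ => sq_nonneg _))
    have hA : ∀ W x, |Θy W x| ≤ (coord W (x u) q ^ 2 + coord W (x v) q ^ 2) / 2 := fun W x => by
      rw [abs_mul]
      refine (mul_le_of_le_one_left (abs_nonneg _) (hψ1 _)).trans ?_
      rw [abs_mul]
      nlinarith [sq_abs (coord W (x u) q), sq_abs (coord W (x v) q),
        sq_nonneg (|coord W (x u) q| - |coord W (x v) q|)]
    refine hsi 2 u v Θy N1 1 oy hN0.le zero_le_one (fun W x hW => (hA W x).trans ?_)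
      fun W x hW => (hA W x).trans ?_
    · linarith [(hsq W hW (x u)).1, (hsq W hW (x v)).1]
    · linarith [(hsq W hW (x u)).2, (hsq W hW (x v)).2, sq_nonneg (coord W (x u) q),
        sq_nonneg (coord W (x v) q)]
  -- clipping the probes
  have hpc : |eV R β ν i Θp - eV R β ν i Θc| ≤ C4 / b := by
    simp only [eV]
    rw [← integral_sub (integrable_evT B (hν _) (hν _) op) (integrable_evT B (hν _) (hν _) oc)]
    refine abs_integral_le_integral_abs.trans ((integral_mono
      ((integrable_evT B (hν _) (hν _) op).sub (integrable_evT B (hν _) (hν _) oc)).abs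
      (integrable_const (C4 / b)) fun V => ?_).trans_eq (by simp))
    simp only [Pi.sub_apply]
    set T := colNorm B.plus V
    have hμ := orthLaw_evT B (hν (R.N i)) T
    have h4 : ∀ w : Fin 2, OBdd (fun W (x : Fin 2 → Fin (R.N i + 1) → Bool) => coord W (x w) p ^ 4) :=
      fun w => OBdd.of_continuous fun x => (continuous_coord (x w) p).pow 4
    have h2 : ∀ w : Fin 2, OBdd (fun W (x : Fin 2 → Fin (R.N i + 1) → Bool) => coord W (x w) p ^ 2) :=
      fun w => OBdd.of_continuous fun x => (continuous_coord (x w) p).pow 2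
    have o42 : ∀ w : Fin 2, OBdd (fun W (x : Fin 2 → Fin (R.N i + 1) → Bool) =>
        coord W (x w) p ^ 4 + coord W (x w) p ^ 2) := fun w => OBdd.of_continuous fun x =>
      ((continuous_coord (x w) p).pow 4).add ((continuous_coord (x w) p).pow 2)
    have od : OBdd fun W x => Θp W x + -1 * Θc W x := OBdd.of_continuous fun x =>
      ((hGc x).mul ((continuous_coord (x u) p).mul (continuous_coord (x v) p))).add
        (((hGc x).mul (hclw x)).const_mul _)
    have oc' : OBdd fun W x => -1 * Θc W x := OBdd.of_continuous fun x =>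
      ((hGc x).mul (hclw x)).const_mul _
    have oe : OBdd fun W (x : Fin 2 → Fin (R.N i + 1) → Bool) => 1 / b *
        ((coord W (x u) p ^ 4 + coord W (x u) p ^ 2) + (coord W (x v) p ^ 4 + coord W (x v) p ^ 2)) :=
      OBdd.of_continuous fun x => ((((continuous_coord (x u) p).pow 4).add
        ((continuous_coord (x u) p).pow 2)).add (((continuous_coord (x v) p).pow 4).add
        ((continuous_coord (x v) p).pow 2))).const_mul _
    simp only [evT]
    rw [sub_eq_add_neg, ← neg_one_mul (ev _ _ _ _ _ _ _ Θc), ← ev_smul, ← ev_add hμ op oc']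
    refine (abs_ev_le_ev hμ od oe fun W x _ => ?_).trans ?_
    · simp only [Θp, Θc]
      rw [show ψ (G W x) * (coord W (x u) p * coord W (x v) p) +
        -1 * (ψ (G W x) * cl b (coord W (x u) p) (coord W (x v) p)) =
        ψ (G W x) * (coord W (x u) p * coord W (x v) p - cl b (coord W (x u) p) (coord W (x v) p)) by ring,
        abs_mul]
      exact ((mul_le_of_le_one_left (abs_nonneg _) (hψ1 _)).trans
        (hcld b _ _ hb fun h => by rw [h])).trans_eq (by ring)
    · rw [ev_smul, ev_add hμ (o42 u) (o42 v), ev_add hμ (h4 u) (h2 u), ev_add hμ (h4 v) (h2 v)]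
      have e : ∀ w : Fin 2, ev (dlA a β i0) (R.n i) B.plus none (R.s i) (R.y i)
            ((ν (R.N i)).map (B.splitRot T)) (fun W (x : Fin 2 → Fin (R.N i + 1) → Bool) => coord W (x w) p ^ 4) +
          ev (dlA a β i0) (R.n i) B.plus none (R.s i) (R.y i)
            ((ν (R.N i)).map (B.splitRot T)) (fun W (x : Fin 2 → Fin (R.N i + 1) → Bool) => coord W (x w) p ^ 2) ≤
          3 / c ^ 2 + 1 / c := fun w => by
        have h := evT_probe_moments R (β := β) hν hc hi.2.1 slot T w
        exact add_le_add h.2 h.1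
      rw [show C4 / b = 1 / b * ((3 / c ^ 2 + 1 / c) + (3 / c ^ 2 + 1 / c)) by simp only [C4]; ring]
      exact mul_le_mul_of_nonneg_left (add_le_add (e u) (e v)) (by positivity)
  -- reading in the base
  have hcb := hrep u v (fun W x => cl b (coord W (x u) p) (coord W (x v) p)) hclw
    fun W x _ => hclb b _ _ hb
  have hcn : ∀ x : Fin 2 → Fin (R.N i) → Bool, Continuous fun U => ψ (R.cov i U x u v) *
      cl b (R.field i U (x u) (Sum.inr slot)) (R.field i U (x v) (Sum.inr slot)) := fun x =>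
    (hψc.comp (R.continuous_cov i x u v)).mul
      ((hclc b).comp ((continuous_fields B (x u) (Sum.inr slot)).prodMk (continuous_fields B (x v) (Sum.inr slot))))
  have hbc := hchi (fun U x => ψ (R.cov i U x u v) *
      cl b (R.field i U (x u) (Sum.inr slot)) (R.field i U (x v) (Sum.inr slot))) Θb
    (fun x => (hcn x).measurable) ob (fun U x _ => by
      rw [abs_mul]
      exact (mul_le_of_le_one_left (abs_nonneg _) (hψ1 _)).trans (hclb b _ _ hb))
    fun T _ U x t => by
      simp only [Θb, p, gramB_splitRot B some_ne_none' (R.le i), coord_probe, Regime.cov, Regime.field]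
      rfl
  set t := tT R β ν i (lim R) L (fun U (x : Fin 2 → Fin (R.N i) → Bool) => ψ (R.cov i U x u v) *
      cl b (R.field i U (x u) (Sum.inr slot)) (R.field i U (x v) (Sum.inr slot)))
  have hct : |eV R β ν i Θc - t| ≤ b ^ m * (2 * Cc) / L + 2 * η := by
    refine (abs_sub_le _ (eV R β ν i Θb) _).trans ((add_le_add hcb hbc).trans_eq ?_)
    push_cast
    ring
  have hc1 : |eV R β ν i Θc| ≤ b ^ m := abs_eV_le R hν i fun W x _ => by
    rw [abs_mul]
    exact (mul_le_of_le_one_left (abs_nonneg _) (hψ1 _)).trans (hclb b _ _ hb)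
  set cf := (S.card : ℝ) / N1
  have hcf1 : 0 ≤ cf ∧ cf ≤ 1 := by
    refine ⟨by positivity, (div_le_one hN0).2 ?_⟩
    have h : S.card ≤ R.N i + 1 := (Finset.card_le_univ S).trans_eq (Fintype.card_fin _)
    simp only [N1]
    exact_mod_cast h
  have hcfw : |cf - a.wt l| ≤ η / b ^ m := by
    have e : cf = ((csize B.plus (some l) : ℝ) - 1) / N1 := by rw [hcard, add_sub_cancel_right]
    rw [e]
    exact hcfi.le
  rw [hsplit, show (eV R β ν i Θy + (S.card : ℝ) * eV R β ν i Θp) / N1 - a.wt l * t =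
    eV R β ν i Θy / N1 + cf * (eV R β ν i Θp - eV R β ν i Θc) + (cf - a.wt l) * eV R β ν i Θc +
      a.wt l * (eV R β ν i Θc - t) by simp only [cf]; field_simp; ring]
  have t1 : |eV R β ν i Θy / N1| ≤ η := by
    rw [abs_div, abs_of_pos hN0]
    refine (div_le_div_of_nonneg_right hy1 hN0.le).trans (le_of_eq_of_le ?_ hyi.le)
    simp only [N1]
    field_simp
  have t2 : |cf * (eV R β ν i Θp - eV R β ν i Θc)| ≤ C4 / b := by
    rw [abs_mul, abs_of_nonneg hcf1.1]
    exact (mul_le_of_le_one_left (abs_nonneg _) hcf1.2).trans hpc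
  have t3 : |(cf - a.wt l) * eV R β ν i Θc| ≤ η := by
    rw [abs_mul]
    exact (mul_le_mul hcfw hc1 (abs_nonneg _) (by positivity)).trans_eq (div_mul_cancel₀ _ hbm.ne')
  have t4 : |a.wt l * (eV R β ν i Θc - t)| ≤ b ^ m * (2 * Cc) / L + 2 * η := by
    rw [abs_mul, abs_of_pos (a.pos l)]
    exact (mul_le_of_le_one_left (abs_nonneg _) (wt_le_one l)).trans hct
  refine (abs_add_le _ _).trans ((add_le_add ((abs_add_le _ _).trans (add_le_add ((abs_add_le _ _).trans
    (add_le_add t1 t2)) t3)) t4).trans ?_)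
  have h1 : b ^ m * (2 * Cc) / L ≤ b ^ m * (2 * Cc + C4) / L := by
    gcongr
    exact le_add_of_nonneg_right (by positivity)
  have h2 : C4 / b ≤ (2 * Cc + C4) / b := by
    gcongr
    exact le_add_of_nonneg_left (by positivity)
  simp only [η]
  linarith

/-- The classes together, against the probes and the covariance at the limiting norms. -/
lemma exists_core (hν : ∀ N, OrthInvLaw N (ν N)) (hd : ∀ j, 0 ≤ dlA a β i0 j) {ψ : ℝ → ℝ} {Λ : ℝ}
    (hΛ : 0 ≤ Λ) (hψc : Continuous ψ) (hψ1 : ∀ x, |ψ x| ≤ 1)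
    (hψ : ∀ x x', |ψ x - ψ x'| ≤ Λ * |x - x'|) (u v : Fin 2) (cl : ℝ → ℝ → ℝ → ℝ) (m : ℕ)
    (hclc : ∀ b, Continuous fun p : ℝ × ℝ => cl b p.1 p.2)
    (hclb : ∀ b p q, 1 ≤ b → |cl b p q| ≤ b ^ m)
    (hcld : ∀ b p q, 1 ≤ b → (u = v → p = q) →
      |p * q - cl b p q| ≤ (p ^ 4 + p ^ 2 + q ^ 4 + q ^ 2) / b) :
    ∃ C : ℝ, 0 ≤ C ∧ ∀ L b : ℝ, 0 < L → 1 ≤ b → ∀ ε : ℝ, 0 < ε → ∀ᶠ i in atTop,
      |(∑ j : Option (Fin K), ev (dlA a β i0) (R.n i) (R.base i).plus none (R.s i) (R.y i) (ν (R.N i + 1))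
          (fun W (x : Fin 2 → Fin (R.N i + 1) → Bool) =>
            ψ (R.ρ * gramF (R.n i) (R.base i).plus none W x u v) *
              cOv (R.base i).plus j W (x u) (x v))) / ((R.N i : ℝ) + 1) -
        ((∑ l : Fin K, if hl : l = i0 then 0 else
            a.wt l * tT R β ν i (lim R) L (fun U (x : Fin 2 → Fin (R.N i) → Bool) =>
              ψ (R.cov i U x u v) *
                cl b (R.field i U (x u) (Sum.inr ⟨some l, fun h => hl (Option.some_inj.1 h)⟩))
                  (R.field i U (x v) (Sum.inr ⟨some l, fun h => hl (Option.some_inj.1 h)⟩)))) +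
          a.wt i0 * tT R β ν i (lim R) L (fun U (x : Fin 2 → Fin (R.N i) → Bool) =>
            ψ (R.cov i U x u v) * R.cov i U x u v))| ≤
        b ^ m * C / L + C / b + ε := by
  have hρ := R.ρpos
  have hcl := fun (l : Fin K) (hl : l ≠ i0) =>
    exists_class R (β := β) hν hd hΛ hψc hψ1 hψ u v cl m hclc hclb hcld hl
  choose C hC hev using hcl
  obtain ⟨Cc, hCc, hch⟩ := exists_chain R (β := β) hν hd
  set C' : Fin K → ℝ := fun l => if hl : l = i0 then 0 else C l hl
  have hC' : ∀ l, 0 ≤ C' l := fun l => by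
    simp only [C']
    split_ifs with hl
    exacts [le_rfl, hC l hl]
  refine ⟨(∑ l, C' l) + 2 * R.ρ * Cc, add_nonneg (Finset.sum_nonneg fun l _ => hC' l) (by positivity),
    fun L b hL hb ε hε => ?_⟩
  set η : ℝ := ε / ((K : ℝ) + 3)
  have hη : 0 < η := by positivity
  have hbm : (1 : ℝ) ≤ b ^ m := one_le_pow₀ hb
  have hall : ∀ᶠ i in atTop, ∀ (l : Fin K) (hl : l ≠ i0),
      |ev (dlA a β i0) (R.n i) (R.base i).plus none (R.s i) (R.y i) (ν (R.N i + 1))
          (fun W (x : Fin 2 → Fin (R.N i + 1) → Bool) =>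
            ψ (R.ρ * gramF (R.n i) (R.base i).plus none W x u v) *
              cOv (R.base i).plus (some l) W (x u) (x v)) / ((R.N i : ℝ) + 1) -
        a.wt l * tT R β ν i (lim R) L (fun U (x : Fin 2 → Fin (R.N i) → Bool) =>
          ψ (R.cov i U x u v) *
            cl b (R.field i U (x u) (Sum.inr ⟨some l, fun h => hl (Option.some_inj.1 h)⟩))
              (R.field i U (x v) (Sum.inr ⟨some l, fun h => hl (Option.some_inj.1 h)⟩)))| ≤
        b ^ m * C l hl / L + C l hl / b + η :=
    Filter.eventually_all.2 fun l => by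
      by_cases hl : l = i0
      · exact Eventually.of_forall fun i hl' => absurd hl hl'
      · exact (hev l hl L b hL hb η hη).mono fun i h _ => h
  have hχc : Continuous fun x => ψ x * x := hψc.mul continuous_id
  have hχb : ∀ x, |x| ≤ R.ρ → |ψ x * x| ≤ R.ρ := fun x hx => by
    rw [abs_mul]
    exact (mul_le_of_le_one_left (abs_nonneg _) (hψ1 x)).trans hx
  have hχl : ∀ x x', |x| ≤ R.ρ → |x'| ≤ R.ρ → |ψ x * x - ψ x' * x'| ≤ (1 + Λ * R.ρ) * |x - x'| :=
    fun x x' _ hx' => by
      rw [show ψ x * x - ψ x' * x' = ψ x * (x - x') + (ψ x - ψ x') * x' by ring]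
      refine (abs_add_le _ _).trans ?_
      rw [abs_mul, abs_mul, add_mul, one_mul]
      refine add_le_add (mul_le_of_le_one_left (abs_nonneg _) (hψ1 x)) ?_
      exact (mul_le_mul (hψ x x') hx' (abs_nonneg _) (mul_nonneg hΛ (abs_nonneg _))).trans_eq (by ring)
  filter_upwards [hall, classes_ef R (β := β) hν η hη,
    exists_replace R (β := β) hν hχc hρ.le (by positivity) zero_le_one hη hχb hχl,
    hch 2 L R.ρ η hL hρ.le hη] with i hl2 hef hrep hchi
  set B := R.base i
  set E : Option (Fin K) → ℝ := fun j => ev (dlA a β i0) (R.n i) B.plus none (R.s i) (R.y i) (ν (R.N i + 1))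
    (fun W (x : Fin 2 → Fin (R.N i + 1) → Bool) =>
      ψ (R.ρ * gramF (R.n i) B.plus none W x u v) * cOv B.plus j W (x u) (x v))
  set tc := tT R β ν i (lim R) L (fun U (x : Fin 2 → Fin (R.N i) → Bool) =>
    ψ (R.cov i U x u v) * R.cov i U x u v)
  set tl : Fin K → ℝ := fun l => if hl : l = i0 then 0 else
    a.wt l * tT R β ν i (lim R) L (fun U (x : Fin 2 → Fin (R.N i) → Bool) =>
      ψ (R.cov i U x u v) *
        cl b (R.field i U (x u) (Sum.inr ⟨some l, fun h => hl (Option.some_inj.1 h)⟩))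
          (R.field i U (x v) (Sum.inr ⟨some l, fun h => hl (Option.some_inj.1 h)⟩)))
  set N1 : ℝ := (R.N i : ℝ) + 1
  have hd1 : ∀ l, |(if l = i0 then 0 else E (some l) / N1) - tl l| ≤ b ^ m * C' l / L + C' l / b + η :=
    fun l => by
      by_cases hl : l = i0
      · simp only [tl, C', if_pos hl, dif_pos hl, sub_zero, abs_zero, mul_zero, zero_div, zero_add]
        exact hη.le
      · simp only [tl, C', if_neg hl, dif_neg hl]
        exact hl2 l hl
  have hsum : (∑ j, E j) / N1 = (∑ l, if l = i0 then 0 else E (some l) / N1) +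
      (E (some i0) + E none) / N1 := by
    rw [Fintype.sum_option, ← Finset.add_sum_erase _ (fun l => E (some l)) (Finset.mem_univ i0),
      ← Finset.add_sum_erase _ (fun l => if l = i0 then 0 else E (some l) / N1) (Finset.mem_univ i0),
      if_pos rfl, zero_add, Finset.sum_congr rfl fun l hl => if_neg (Finset.ne_of_mem_erase hl),
      ← Finset.sum_div]
    ring
  set EG := ev (dlA a β i0) (R.n i) B.plus none (R.s i) (R.y i) (ν (R.N i + 1))
    (fun W (x : Fin 2 → Fin (R.N i + 1) → Bool) =>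
      ψ (R.ρ * gramF (R.n i) B.plus none W x u v) * (R.ρ * gramF (R.n i) B.plus none W x u v))
  have hEG : |EG - tc| ≤ 2 * R.ρ * Cc / L + 2 * η := by
    have hc1 : ∀ x : Fin 2 → Fin (R.N i + 1) → Bool,
        Continuous fun W => R.ρ * gramF (R.n i) B.plus none W x u v := fun x =>
      (continuous_gramF x u v).const_mul _
    have e : EG = eV R β ν i (fun W (x : Fin 2 → Fin (R.N i + 1) → Bool) =>
        ψ (R.ρ * gramF (R.n i) B.plus none W x u v) * (R.ρ * gramF (R.n i) B.plus none W x u v) * 1) := by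
      simp only [mul_one]
      exact ev_split B (hν _) (hν _) (OBdd.of_continuous fun x => (hψc.comp (hc1 x)).mul (hc1 x))
        fun O hO W x => by simp only [gramF_resp hO]
    have h1 := hrep u v (fun _ _ => 1) (fun _ => continuous_const) fun _ _ _ => by simp
    have h2 := hchi (fun U (x : Fin 2 → Fin (R.N i) → Bool) => ψ (R.cov i U x u v) * R.cov i U x u v)
      (fun W (x : Fin 2 → Fin (R.N i + 1) → Bool) =>
        ψ (R.ρ * gramB B (R.n i) W x u v) * (R.ρ * gramB B (R.n i) W x u v) * 1)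
      (fun x => ((hψc.comp (R.continuous_cov i x u v)).mul (R.continuous_cov i x u v)).measurable)
      (OBdd.of_continuous fun x => ((hψc.comp ((continuous_gramB B x u v).const_mul _)).mul
        ((continuous_gramB B x u v).const_mul _)).mul continuous_const)
      (fun U x hU => hχb _ (abs_cov_base_le R hU x u v))
      fun T _ U x t => by
        simp only [gramB_splitRot B some_ne_none' (R.le i), mul_one]
        rfl
    rw [e]
    refine (abs_sub_le _ _ _).trans ((add_le_add h1 h2).trans_eq ?_)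
    push_cast
    ring
  change |(∑ j, E j) / N1 - ((∑ l, tl l) + a.wt i0 * tc)| ≤ _
  rw [hsum, show (∑ l, if l = i0 then 0 else E (some l) / N1) + (E (some i0) + E none) / N1 -
      ((∑ l, tl l) + a.wt i0 * tc) = (∑ l, ((if l = i0 then 0 else E (some l) / N1) - tl l)) +
      ((E (some i0) + E none) / N1 - a.wt i0 * EG) + a.wt i0 * (EG - tc) by
    rw [Finset.sum_sub_distrib]; ring]
  have t3 : |a.wt i0 * (EG - tc)| ≤ 2 * R.ρ * Cc / L + 2 * η := by
    rw [abs_mul, abs_of_pos (a.pos i0)]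
    exact (mul_le_of_le_one_left (abs_nonneg _) (wt_le_one i0)).trans hEG
  refine (abs_add_le _ _).trans ((add_le_add ((abs_add_le _ _).trans (add_le_add
    ((Finset.abs_sum_le_sum_abs _ _).trans (Finset.sum_le_sum fun l _ => hd1 l))
    (hef u v ψ hψc hψ1))) t3).trans ?_)
  simp only [Finset.sum_add_distrib, ← Finset.sum_div, ← Finset.mul_sum, Finset.sum_const,
    Finset.card_univ, Fintype.card_fin, nsmul_eq_mul]
  have h1 : b ^ m * (∑ l, C' l) / L + 2 * R.ρ * Cc / L ≤ b ^ m * ((∑ l, C' l) + 2 * R.ρ * Cc) / L := by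
    rw [mul_add, add_div]
    exact add_le_add le_rfl (div_le_div_of_nonneg_right (le_mul_of_one_le_left (by positivity) hbm) hL.le)
  have h2 : (∑ l, C' l) / b ≤ ((∑ l, C' l) + 2 * R.ρ * Cc) / b := by
    gcongr
    exact le_add_of_nonneg_right (by positivity)
  have h3 : η * ((K : ℝ) + 3) = ε := div_mul_cancel₀ _ (by positivity)
  linarith

lemma stationary_pair_aux (hν : ∀ N, OrthInvLaw N (ν N)) (hd : ∀ j, 0 ≤ dlA a β i0 j) {ψ : ℝ → ℝ}
    {Λ : ℝ} (hψ1 : ∀ x, |ψ x| ≤ 1) (hψ : ∀ x x', |ψ x - ψ x'| ≤ Λ * |x - x'|) :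
    ∃ C : ℝ, ∀ L b : ℝ, 0 < L → 1 ≤ b → ∀ ε : ℝ, 0 < ε → ∀ᶠ i in atTop,
      |R.tiltAvg β ν i (spinW (dlA a β i0) (some i0) (lim R) L) (r := 2) (fun U x =>
          spinT' (dlA a β i0) (some i0) (lim R) (R.field i U (x 0)) *
              spinT' (dlA a β i0) (some i0) (lim R) (R.field i U (x 1)) *
            ψ (R.cov i U x 0 1)) -
        ((∑ l : Fin K, if hl : l = i0 then 0 else
            a.wt l * R.tiltAvg β ν i (spinW (dlA a β i0) (some i0) (lim R) L) (r := 2) (fun U x =>
              max (-b) (min b (R.field i U (x 0) (Sum.inr ⟨some l, fun h => hl (Option.some_inj.1 h)⟩))) *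
                  max (-b) (min b (R.field i U (x 1) (Sum.inr ⟨some l, fun h => hl (Option.some_inj.1 h)⟩))) *
                ψ (R.cov i U x 0 1))) +
          a.wt i0 * R.tiltAvg β ν i (spinW (dlA a β i0) (some i0) (lim R) L) (r := 2) (fun U x =>
            R.cov i U x 0 1 * ψ (R.cov i U x 0 1)))| ≤
        C * b ^ 2 / L + C / b + ε := by
  have hΛ : 0 ≤ Λ := by simpa using (abs_nonneg _).trans (hψ 1 0)
  have hψc : Continuous ψ := (LipschitzWith.of_dist_le_mul (K := ⟨Λ, hΛ⟩) fun x x' => hψ x x').continuous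
  have hclip : ∀ b p : ℝ, 1 ≤ b → |max (-b) (min b p)| ≤ b ∧ |max (-b) (min b p)| ≤ |p| ∧
      |p - max (-b) (min b p)| ≤ p ^ 2 / b := fun b p hb => by
    refine ⟨abs_le.2 ⟨le_max_left _ _, max_le (by linarith) (min_le_left _ _)⟩, ?_, ?_⟩
    · rcases le_total b p with h | h
      · rw [min_eq_left h, max_eq_right (by linarith), abs_of_nonneg (by linarith),
          abs_of_nonneg (by linarith)]
        exact h
      · rw [min_eq_right h]
        rcases le_total (-b) p with h' | h'
        · rw [max_eq_right h']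
        · rw [max_eq_left h', abs_neg, abs_of_nonneg (by linarith), abs_of_nonpos (by linarith)]
          linarith
    · rw [le_div_iff₀ (by linarith)]
      rcases le_total b p with h | h
      · rw [min_eq_left h, max_eq_right (by linarith), abs_of_nonneg (by linarith)]
        nlinarith
      · rw [min_eq_right h]
        rcases le_total (-b) p with h' | h'
        · rw [max_eq_right h', sub_self, abs_zero, zero_mul]; positivity
        · rw [max_eq_left h', sub_neg_eq_add, abs_of_nonpos (by linarith)]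
          nlinarith
  obtain ⟨C, hC, hcore⟩ := exists_core R (β := β) hν hd hΛ hψc hψ1 hψ 0 1
    (fun b p q => max (-b) (min b p) * max (-b) (min b q)) 2 (fun b => by fun_prop)
    (fun b p q hb => by
      rw [abs_mul, sq]
      exact mul_le_mul (hclip b p hb).1 (hclip b q hb).1 (abs_nonneg _) (by linarith))
    fun b p q hb _ => by
      obtain ⟨-, hp2, hp3⟩ := hclip b p hb
      obtain ⟨-, -, hq3⟩ := hclip b q hb
      rw [show p * q - max (-b) (min b p) * max (-b) (min b q) = (p - max (-b) (min b p)) * q +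
        max (-b) (min b p) * (q - max (-b) (min b q)) by ring]
      refine (abs_add_le _ _).trans ?_
      rw [abs_mul, abs_mul]
      refine (add_le_add (mul_le_mul_of_nonneg_right hp3 (abs_nonneg q))
        (mul_le_mul hp2 hq3 (abs_nonneg _) (abs_nonneg p))).trans ?_
      rw [div_mul_eq_mul_div, mul_div_assoc', ← add_div]
      refine div_le_div_of_nonneg_right ?_ (by linarith)
      nlinarith [sq_nonneg (p ^ 2 - |q|), sq_nonneg (q ^ 2 - |p|), sq_abs p, sq_abs q,
        sq_nonneg p, sq_nonneg q, sq_nonneg (p ^ 2), sq_nonneg (q ^ 2)]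
  obtain ⟨Cp, hCp, hsp⟩ := exists_spin_chain R (β := β) hν hd 2
  refine ⟨C + Cp, fun L b hL hb ε hε => ?_⟩
  filter_upwards [hcore L b hL hb (ε / 3) (by linarith),
    exists_replace R (β := β) hν hψc zero_le_one hΛ zero_le_one (ε := ε / 3) (by linarith)
      (fun x _ => hψ1 x) (fun x x' _ _ => hψ x x'),
    hsp L (ε / 3) hL (by linarith)] with i hco hrep hspi
  set B := R.base i
  have hpair := ev_last_pair R (β := β) hν i (0 : Fin 2) 1 hψc
  have hfc : ∀ w : Fin 2, ∀ x : Fin 2 → Fin (R.N i) → Bool, ∀ p, Continuous fun U => R.field i U (x w) p :=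
    fun w x p => continuous_fields B (x w) p
  have hcc : ∀ x : Fin 2 → Fin (R.N i) → Bool, Continuous fun U => ψ (R.cov i U x 0 1) := fun x =>
    hψc.comp (R.continuous_cov i x 0 1)
  have hTc : ∀ w : Fin 2, ∀ x : Fin 2 → Fin (R.N i) → Bool,
      Continuous fun U => spinT' (dlA a β i0) (some i0) (lim R) (R.field i U (x w)) := fun w x =>
    (continuous_spinT' _ _).comp (R.continuous_field i (x w))
  have hΛ' : ∀ U (x : Fin 2 → Fin (R.N i) → Bool), IsOrth U →
      |R.cov i U x 0 1 * ψ (R.cov i U x 0 1)| ≤ R.ρ := fun U x hU => by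
    rw [abs_mul]
    exact (mul_le_of_le_one_right (abs_nonneg _) (hψ1 _)).trans (abs_cov_base_le R hU x 0 1)
  have ea : R.tiltAvg β ν i (spinW (dlA a β i0) (some i0) (lim R) L) (r := 2) (fun U x =>
      spinT' (dlA a β i0) (some i0) (lim R) (R.field i U (x 0)) *
        spinT' (dlA a β i0) (some i0) (lim R) (R.field i U (x 1)) * ψ (R.cov i U x 0 1)) =
      tT R β ν i (lim R) L (fun U (x : Fin 2 → Fin (R.N i) → Bool) =>
        spinT' (dlA a β i0) (some i0) (lim R) (R.field i U (x 0)) *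
          spinT' (dlA a β i0) (some i0) (lim R) (R.field i U (x 1)) * ψ (R.cov i U x 0 1)) :=
    tiltAvg_eq_tT R hν hd i hL (fun x => ((hTc 0 x).mul (hTc 1 x)).mul (hcc x)) (B := 1)
      fun U x _ => by
        rw [abs_mul, abs_mul]
        exact mul_le_one₀ (mul_le_one₀ (abs_spinT'_le_one _ _) (abs_nonneg _) (abs_spinT'_le_one _ _))
          (abs_nonneg _) (hψ1 _)
  have eb : R.tiltAvg β ν i (spinW (dlA a β i0) (some i0) (lim R) L) (r := 2) (fun U x =>
      R.cov i U x 0 1 * ψ (R.cov i U x 0 1)) =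
      tT R β ν i (lim R) L (fun U (x : Fin 2 → Fin (R.N i) → Bool) =>
        R.cov i U x 0 1 * ψ (R.cov i U x 0 1)) :=
    tiltAvg_eq_tT R hν hd i hL (fun x => (R.continuous_cov i x 0 1).mul (hcc x)) hΛ'
  rw [ea, eb]
  have hl : ∀ (l : Fin K) (hl : l ≠ i0),
      R.tiltAvg β ν i (spinW (dlA a β i0) (some i0) (lim R) L) (r := 2) (fun U x =>
        max (-b) (min b (R.field i U (x 0) (Sum.inr ⟨some l, fun h => hl (Option.some_inj.1 h)⟩))) *
            max (-b) (min b (R.field i U (x 1) (Sum.inr ⟨some l, fun h => hl (Option.some_inj.1 h)⟩))) *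
          ψ (R.cov i U x 0 1)) =
      tT R β ν i (lim R) L (fun U (x : Fin 2 → Fin (R.N i) → Bool) => ψ (R.cov i U x 0 1) *
        (max (-b) (min b (R.field i U (x 0) (Sum.inr ⟨some l, fun h => hl (Option.some_inj.1 h)⟩))) *
          max (-b) (min b (R.field i U (x 1) (Sum.inr ⟨some l, fun h => hl (Option.some_inj.1 h)⟩))))) :=
    fun l hl => by
      refine (tiltAvg_eq_tT R hν hd i hL (fun x => ((continuous_const.max (continuous_const.min (hfc 0 x _))).mul
        (continuous_const.max (continuous_const.min (hfc 1 x _)))).mul (hcc x)) (B := b ^ 2)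
        (fun U x _ => by
          simp only [Pi.mul_apply]
          rw [abs_mul, abs_mul]
          refine (mul_le_of_le_one_right (by positivity) (hψ1 _)).trans ?_
          rw [sq]
          exact mul_le_mul (hclip b _ hb).1 (hclip b _ hb).1 (abs_nonneg _) (by linarith))).trans ?_
      exact congrArg _ (funext fun U => funext fun x => mul_comm _ _)
  rw [Finset.sum_congr rfl fun l _ => dite_congr rfl (fun _ => rfl) fun h => congrArg (a.wt l * ·) (hl l h)]
  have hs1 := hrep 0 1 (fun _ x => spin (x 0 (Fin.last _)) * spin (x 1 (Fin.last _)))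
    (fun _ => continuous_const) fun W x _ => by
      cases x 0 (Fin.last (R.N i)) <;> cases x 1 (Fin.last (R.N i)) <;> simp [spin]
  have hs2 := hspi (fun U (x : Fin 2 → Fin (R.N i) → Bool) => ψ (R.cov i U x 0 1))
    (fun W (x : Fin 2 → Fin (R.N i + 1) → Bool) => ψ (R.ρ * gramB B (R.n i) W x 0 1) *
      (spin (x 0 (Fin.last _)) * spin (x 1 (Fin.last _))))
    (fun x => (hcc x).measurable)
    (OBdd.of_continuous fun x => (hψc.comp ((continuous_gramB B x 0 1).const_mul _)).mul continuous_const)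
    (fun U x _ => hψ1 _) fun T _ U x t => by
      simp only [gramB_splitRot B some_ne_none' (R.le i), Fin.prod_univ_two, Fin.snoc_last]
      rfl
  simp only [Fin.prod_univ_two] at hs2
  have e1 : eV R β ν i (fun W (x : Fin 2 → Fin (R.N i + 1) → Bool) =>
      ψ (R.ρ * gramF (R.n i) B.plus none W x 0 1) * (spin (x 0 (Fin.last _)) * spin (x 1 (Fin.last _)))) =
      (∑ j : Option (Fin K), ev (dlA a β i0) (R.n i) B.plus none (R.s i) (R.y i) (ν (R.N i + 1))
          (fun W (x : Fin 2 → Fin (R.N i + 1) → Bool) =>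
            ψ (R.ρ * gramF (R.n i) B.plus none W x 0 1) * cOv B.plus j W (x 0) (x 1))) /
        ((R.N i : ℝ) + 1) := by
    rw [eq_div_iff (by positivity), ← hpair]
    refine congrArg (· * _) ?_
    refine (ev_split B (hν _) (hν _) (OBdd.of_continuous fun x =>
      (hψc.comp ((continuous_gramF x 0 1).const_mul _)).mul continuous_const)
      (classInv_gramF B.plus ψ (fun x => spin (x 0 (Fin.last _)) * spin (x 1 (Fin.last _))) R.ρ 0 1)).symm.trans ?_
    exact congrArg _ (funext fun W => funext fun x => mul_comm _ _)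
  have e2 : tT R β ν i (lim R) L (fun U (x : Fin 2 → Fin (R.N i) → Bool) =>
      spinT' (dlA a β i0) (some i0) (lim R) (R.field i U (x 0)) *
        spinT' (dlA a β i0) (some i0) (lim R) (R.field i U (x 1)) * ψ (R.cov i U x 0 1)) =
      tT R β ν i (lim R) L (fun U (x : Fin 2 → Fin (R.N i) → Bool) => ψ (R.cov i U x 0 1) *
        (spinT' (dlA a β i0) (some i0) (lim R) (B.fields U (x 0)) *
          spinT' (dlA a β i0) (some i0) (lim R) (B.fields U (x 1)))) :=
    congrArg _ (funext fun U => funext fun x => mul_comm _ _)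
  have e3 : tT R β ν i (lim R) L (fun U (x : Fin 2 → Fin (R.N i) → Bool) =>
      R.cov i U x 0 1 * ψ (R.cov i U x 0 1)) =
      tT R β ν i (lim R) L (fun U (x : Fin 2 → Fin (R.N i) → Bool) =>
        ψ (R.cov i U x 0 1) * R.cov i U x 0 1) :=
    congrArg _ (funext fun U => funext fun x => mul_comm _ _)
  rw [e2, e3]
  rw [← e1] at hco
  have h1 : (C + Cp) * b ^ 2 / L = b ^ 2 * C / L + b ^ 2 * (Cp / L) := by ring
  have h2 : Cp / L ≤ b ^ 2 * (Cp / L) := le_mul_of_one_le_left (by positivity) (one_le_pow₀ hb)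
  have h3 : C / b ≤ (C + Cp) / b :=
    div_le_div_of_nonneg_right (le_add_of_nonneg_right hCp) (by linarith)
  rw [abs_le] at hco hs1 hs2 ⊢
  constructor <;> linarith [hco.1, hco.2, hs1.1, hs1.2, hs2.1, hs2.2]

lemma stationary_one_aux (hν : ∀ N, OrthInvLaw N (ν N)) (hd : ∀ j, 0 ≤ dlA a β i0 j) :
    ∃ C : ℝ, ∀ L b : ℝ, 0 < L → 1 ≤ b → ∀ ε : ℝ, 0 < ε → ∀ᶠ i in atTop,
      |1 - ((∑ l : Fin K, if hl : l = i0 then 0 else
            a.wt l * R.tiltAvg β ν i (spinW (dlA a β i0) (some i0) (lim R) L) (r := 1) (fun U x =>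
              min b (R.field i U (x 0) (Sum.inr ⟨some l, fun h => hl (Option.some_inj.1 h)⟩) ^ 2))) +
          a.wt i0 * R.tiltAvg β ν i (spinW (dlA a β i0) (some i0) (lim R) L) (r := 1)
            (fun U x => R.cov i U x 0 0))| ≤
        C * b / L + C / b + ε := by
  obtain ⟨C, hC, hcore⟩ := exists_core R (β := β) hν hd (ψ := fun _ => 1) (Λ := 0) le_rfl continuous_const
    (fun _ => by simp) (fun _ _ => by simp) (0 : Fin 2) 0 (fun b p _ => min b (p ^ 2)) 1
    (fun b => by fun_prop)
    (fun b p q hb => by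
      rw [pow_one, abs_of_nonneg (le_min (by linarith) (sq_nonneg p))]
      exact min_le_left _ _)
    fun b p q hb hpq => by
      obtain rfl := hpq rfl
      rw [le_div_iff₀ (by linarith), ← sq]
      rcases le_total (p ^ 2) b with h | h
      · rw [min_eq_right h, sub_self, abs_zero, zero_mul]; positivity
      · rw [min_eq_left h, abs_of_nonneg (by linarith)]
        nlinarith [sq_nonneg p]
  refine ⟨C, fun L b hL hb ε hε => (hcore L b hL hb ε hε).mono fun i hco => ?_⟩
  set B := R.base i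
  have hμ := orthLaw_of_inv (hν (R.N i + 1))
  simp only [one_mul, pow_one] at hco
  have e1 : ∑ j : Option (Fin K), ev (dlA a β i0) (R.n i) B.plus none (R.s i) (R.y i) (ν (R.N i + 1))
      (fun W (x : Fin 2 → Fin (R.N i + 1) → Bool) => cOv B.plus j W (x 0) (x 0)) = (R.N i : ℝ) + 1 := by
    rw [← ev_sum hμ Finset.univ (fun j W (x : Fin 2 → Fin (R.N i + 1) → Bool) => cOv B.plus j W (x 0) (x 0))
      fun j => OBdd.of_continuous fun x => continuous_cOv' j (x 0) (x 0)]
    refine (ev_congr hμ (Θ' := fun _ _ => ((R.N i + 1 : ℕ) : ℝ)) fun W x hW => ?_).trans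
      ((ev_const hμ _).trans (by push_cast; rfl))
    rw [← sum_spin_mul (lbl := B.plus) hW]
    simp [← sq, spin_sq]
  have hred : ∀ (F : Arr2 (R.N i) → (Fin (R.N i) → Bool) → ℝ) (B' : ℝ), (∀ σ, Continuous fun U => F U σ) →
      (∀ U σ, IsOrth U → |F U σ| ≤ B') →
      R.tiltAvg β ν i (spinW (dlA a β i0) (some i0) (lim R) L) (r := 1) (fun U x => F U (x 0)) =
        tT R β ν i (lim R) L (fun U (x : Fin 2 → Fin (R.N i) → Bool) => F U (x 0)) := fun F B' hc hb' => by
    rw [tiltAvg_eq_tT R hν hd i hL (fun x => hc (x 0)) fun U x hU => hb' U (x 0) hU]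
    simp only [tT, tU]
    exact congrArg (∫ U, · U ∂ν (R.N i)) (funext fun U => (tint_at B _ U (F U) (0 : Fin 2)).symm)
  have e2 : R.tiltAvg β ν i (spinW (dlA a β i0) (some i0) (lim R) L) (r := 1)
      (fun U x => R.cov i U x 0 0) =
      tT R β ν i (lim R) L (fun U (x : Fin 2 → Fin (R.N i) → Bool) => R.cov i U x 0 0) :=
    hred (fun U σ => R.cov i U (fun _ : Fin 1 => σ) 0 0) R.ρ (fun σ => R.continuous_cov i _ 0 0)
      fun U σ hU => abs_cov_base_le R hU _ 0 0
  have e3 : ∀ (l : Fin K) (hl : l ≠ i0),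
      R.tiltAvg β ν i (spinW (dlA a β i0) (some i0) (lim R) L) (r := 1) (fun U x =>
        min b (R.field i U (x 0) (Sum.inr ⟨some l, fun h => hl (Option.some_inj.1 h)⟩) ^ 2)) =
      tT R β ν i (lim R) L (fun U (x : Fin 2 → Fin (R.N i) → Bool) =>
        min b (R.field i U (x 0) (Sum.inr ⟨some l, fun h => hl (Option.some_inj.1 h)⟩) ^ 2)) :=
    fun l hl => hred (fun U σ => min b (R.field i U σ (Sum.inr ⟨some l, fun h => hl (Option.some_inj.1 h)⟩) ^ 2))
      b (fun σ => continuous_const.min ((continuous_fields B σ _).pow 2)) fun U σ _ => by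
        rw [abs_of_nonneg (le_min (by linarith) (sq_nonneg _))]
        exact min_le_left _ _
  rw [e2, Finset.sum_congr rfl fun l _ => dite_congr rfl (fun _ => rfl)
    fun h => congrArg (a.wt l * ·) (e3 l h)]
  rw [e1, div_self (by positivity)] at hco
  exact hco.trans_eq (by ring)

end Vale.Agent.P166F.Low.Tgt
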