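import Vale.Agent.P166F.Low.Target.Spin

/-!
P166: the enlarged system averaged over its class norms: invariance, exchangeable rows and columns, and
the moments of the fields.
-/

namespace Vale.Agent.P166F.Low.Tgt

open MeasureTheory ProbabilityTheory Matrix Filter
open scoped RealInnerProductSpace
open Vale.Agent.P166 (spin)
open Vale.Agent.P166N.Spectrum (OrthInvLaw)
open Vale.Agent.P166F.Orth (mm mm_apply)

variable {κ : Type} [Fintype κ] [DecidableEq κ] {e f : κ} {N P r n : ℕ} {dl : κ → ℝ} {s : ℝ}
  {y : CIdx Unit P → ℝ} {ν : Measure (Fin N → Fin N → ℝ)}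
  {ν' : Measure (Fin (N + 1) → Fin (N + 1) → ℝ)}

lemma fix_of_orth {M : ℕ} {U : Fin M → Fin M → ℝ} (hU : IsOrth U) : Orth.Fix ∅ U :=
  ⟨hU, fun i hi => absurd hi (Finset.notMem_empty i)⟩

lemma orthLaw_evT (b : Base e f N) (hν : OrthInvLaw N ν) (T : κ → ℝ) :
    OrthLaw (ν.map (b.splitRot T)) := by
  have := hν.prob
  have hm := (b.continuous_splitRot T).measurable
  refine ⟨Measure.isProbabilityMeasure_map hm.aemeasurable, ?_⟩
  exact (ae_map_iff hm.aemeasurable (by
      simpa [IsOrth, Orth.Fix] using (Orth.isClosed_fix (N := N + 1) ∅).measurableSet)).2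
    (hν.orth.mono fun U hU => (b.splitRot_fix T (fix_of_orth hU)).1)

omit [Fintype κ] in
lemma measurable_colNorm (lbl : Fin (N + 1) → κ) : Measurable (colNorm (N := N) lbl) :=
  measurable_pi_lambda _ fun j => Real.continuous_sqrt.measurable.comp
    (Finset.measurable_fun_sum _ fun i _ => by split_ifs <;> fun_prop)

lemma unit0_colNorm (lbl : Fin (N + 1) → κ) {V : Fin (N + 1) → Fin (N + 1) → ℝ} (hV : IsOrth V) :
    Unit0 (colNorm lbl V) := by
  refine ⟨fun j => Real.sqrt_nonneg _, ?_⟩
  simp only [colNorm_sq, colSq]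
  rw [Finset.sum_comm]
  simpa using sum_col_sq hV (Fin.last N)

lemma evT_eq (b : Base e f N) (T : κ → ℝ)
    {Θ : (Fin (N + 1) → Fin (N + 1) → ℝ) → (Fin r → Fin (N + 1) → Bool) → ℝ}
    (hΘ : ∀ x, Measurable fun W => Θ W x) :
    evT dl n b s y ν T Θ =
      ∫ U, gint dl n b.plus f s y (b.splitRot T U) (Θ (b.splitRot T U)) ∂ν :=
  integral_map (b.continuous_splitRot T).measurable.aemeasurable
    (measurable_gint hΘ).aestronglyMeasurable

/-- An observable unchanged by maps respecting the classes. -/
def ClassInv (lbl : Fin (N + 1) → κ)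
    (Θ : (Fin (N + 1) → Fin (N + 1) → ℝ) → (Fin r → Fin (N + 1) → Bool) → ℝ) : Prop :=
  ∀ O, Resp lbl O → ∀ W x, Θ (mm O W) x = Θ W x

variable {Θ : (Fin (N + 1) → Fin (N + 1) → ℝ) → (Fin r → Fin (N + 1) → Bool) → ℝ}

lemma measurable_evT (b : Base e f N) [SFinite ν] (hΘ : ∀ x, Measurable fun W => Θ W x) :
    Measurable fun T => evT dl n b s y ν T Θ := by
  simp only [evT_eq b _ hΘ]
  exact ((measurable_gint hΘ).comp b.measurable_splitRot).stronglyMeasurable.integral_prod_right'.measurable

lemma integrable_evT (b : Base e f N) (hν : OrthInvLaw N ν) (hν' : OrthInvLaw (N + 1) ν')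
    (hΘ : OBdd Θ) : Integrable (fun V => evT dl n b s y ν (colNorm b.plus V) Θ) ν' := by
  have := hν'.prob
  have := hν.prob
  obtain ⟨B, hB⟩ := hΘ.bdd
  exact Integrable.of_bound ((measurable_evT b hΘ.meas).comp (measurable_colNorm _)).aestronglyMeasurable B
    (Eventually.of_forall fun V => (Real.norm_eq_abs _).trans_le (abs_ev_le (orthLaw_evT b hν _) hB))

/-- Class-invariant observables of the enlarged system, split by the norms of the last column. -/
lemma ev_split (b : Base e f N) (hν : OrthInvLaw N ν) (hν' : OrthInvLaw (N + 1) ν') (hΘ : OBdd Θ)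
    (hinv : ClassInv b.plus Θ) :
    ev dl n b.plus f s y ν' Θ = ∫ V, evT dl n b s y ν (colNorm b.plus V) Θ ∂ν' := by
  obtain ⟨B, hB⟩ := hΘ.bdd
  simp only [evT_eq b _ hΘ.meas]
  refine integral_split b hν hν' (measurable_gint hΘ.meas) (C := B) (fun W hW => ?_) fun O hO W _ => ?_
  · exact abs_gint_le W fun x => hB W x hW.1
  · have hR : Resp b.plus (of.symm O) := ⟨hO.1, hO.2⟩
    rw [gint_resp hR]
    exact congrArg _ (funext fun x => hinv _ hR W x)

/-! ### Exchangeable rows at fixed class norms -/

/-- Rows of class `c` other than the representatives. -/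
noncomputable def restRows (b : Base e f N) (c : κ) : Finset (Fin (N + 1)) :=
  Finset.univ.filter fun i => b.plus i = c ∧ i ≠ b.rep c

omit [Fintype κ] in
lemma last_notMem_restRows (b : Base e f N) (c : κ) : Fin.last N ∉ restRows b c := by
  simp only [restRows, Finset.mem_filter, Finset.mem_univ, true_and, not_and, not_not, b.plus_last]
  rintro rfl
  exact b.rep_e.symm

omit [Fintype κ] in
lemma not_rep_of_mem (b : Base e f N) {c : κ} {i : Fin (N + 1)} (hi : i ∈ restRows b c) :
    i ≠ b.rep (b.plus i) ∧ ∀ j, i ≠ b.rep j := by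
  simp only [restRows, Finset.mem_filter, Finset.mem_univ, true_and] at hi
  refine ⟨by rw [hi.1]; exact hi.2, fun j h => ?_⟩
  have : c = j := by rw [← hi.1, h, b.plus_rep]
  exact hi.2 (this ▸ h)

lemma invOn_restRows (b : Base e f N) (hν : OrthInvLaw N ν) (T : κ → ℝ) (c : κ) :
    InvOn b.plus (restRows b c) (ν.map (b.splitRot T)) := by
  intro O hO hfix
  have hst := Orth.OrthInvLaw.stabLaw hν
  set S := restRows b c
  have hcol : ∀ p ∈ S, ∀ q ∉ S, O p q = 0 := by
    intro p hp q hq
    have h := congrFun₂ hO.orth q q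
    rw [Matrix.mul_apply, Matrix.one_apply_eq] at h
    simp only [transpose_apply, of_apply] at h
    rw [← Finset.add_sum_erase _ _ (Finset.mem_univ q), hfix q hq q, if_pos rfl, mul_one,
      add_eq_left] at h
    exact mul_self_eq_zero.1 ((Finset.sum_eq_zero_iff_of_nonneg fun i _ => mul_self_nonneg _).1 h p
      (Finset.mem_erase.2 ⟨fun hpq => hq (hpq ▸ hp), Finset.mem_univ p⟩))
  have hlast := last_notMem_restRows b c
  have hlast' : ∀ i, O i (Fin.last N) = if i = Fin.last N then 1 else 0 := fun i => by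
    by_cases hi : i ∈ S
    · rw [hcol i hi _ hlast, if_neg fun h : i = Fin.last N => hlast (h ▸ hi)]
    · rw [hfix i hi]
      simp [eq_comm]
  set O0 : Fin N → Fin N → ℝ := fun i k => O i.castSucc k.castSucc with hO0
  have hext : ext O0 = O := by
    funext i k
    induction i using Fin.lastCases with
    | last =>
      induction k using Fin.lastCases <;> simp [ext, hfix _ hlast, (Fin.castSucc_lt_last _).ne]
    | cast i =>
      induction k using Fin.lastCases <;> simp [ext, O0, hlast', (Fin.castSucc_lt_last _).ne]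
  have hO0o : Orth.Fix ∅ O0 := by
    refine fix_of_orth (Matrix.ext fun i k => ?_)
    have h := congrFun₂ hO.orth i.castSucc k.castSucc
    rw [Matrix.mul_apply, Fin.sum_univ_castSucc] at h
    simpa [Matrix.mul_apply, O0, hfix _ hlast, (Fin.castSucc_lt_last _).ne, Matrix.one_apply] using h
  set Fm := frameMat b.plus b.rep e T
  have hFm := (frameMat_spec b.plus_rep e T).2
  have hmv : ∀ (v : Fin (N + 1) → ℝ) (p : Fin (N + 1)), p ∉ S → (of O *ᵥ v) p = v p := fun v p hp => by
    simp only [mulVec, dotProduct, of_apply, hfix p hp]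
    simp
  have hmS : ∀ (v w : Fin (N + 1) → ℝ) (p : Fin (N + 1)), p ∈ S → (∀ q ∈ S, v q = w q) →
      (of O *ᵥ v) p = (of O *ᵥ w) p := fun v w p hp h => by
    simp only [mulVec, dotProduct, of_apply]
    refine Finset.sum_congr rfl fun q _ => ?_
    by_cases hq : q ∈ S
    · rw [h q hq]
    · rw [hcol p hp q hq, zero_mul, zero_mul]
  have hcomm : of O * Fm = Fm * of O := by
    refine Matrix.ext_of_mulVec_single fun k => ?_
    set v : Fin (N + 1) → ℝ := Pi.single k 1
    rw [← mulVec_mulVec, ← mulVec_mulVec, hFm, hFm]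
    funext p
    by_cases hp : p ∈ S
    · rw [hmS _ v p hp fun q hq => by rw [frameFun, if_neg (not_rep_of_mem b hq).1]]
      rw [frameFun, if_neg (not_rep_of_mem b hp).1]
    · have hr : (fun l => (of O *ᵥ v) (b.rep l)) = fun l => v (b.rep l) :=
        funext fun l => hmv _ _ fun h => (not_rep_of_mem b h).2 l rfl
      rw [hmv _ p hp, frameFun, frameFun, hr, hmv v p hp]
  have hmove : ∀ U, mm O (b.splitRot T U) = b.splitRot T (mm O0 U) := fun U => by
    have h1 : mm O (of.symm Fm) = mm (of.symm Fm) O := by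
      simp only [mm, Equiv.apply_symm_apply, hcomm]
    rw [Base.splitRot, Base.splitRot, ← Orth.mm_assoc, h1, Orth.mm_assoc, ← hext, mm_ext]
  have hm := (b.continuous_splitRot T).measurable
  rw [Measure.map_map (Orth.continuous_mm_right O).measurable hm,
    show mm O ∘ b.splitRot T = b.splitRot T ∘ mm O0 from funext hmove,
    ← Measure.map_map hm (Orth.continuous_mm_right O0).measurable, hst.invariant O0 hO0o]

omit [Fintype κ] in
lemma mem_restRows_of_probe (b : Base e f N) (hef : e ≠ f) (j : Slot e) (hj : j.1 ≠ f) :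
    (b.row (Sum.inr j)).castSucc ∈ restRows b j.1 := by
  have : lab e f j.1 = j.1 := by unfold lab; rw [if_neg hj]
  simp only [restRows, Finset.mem_filter, Finset.mem_univ, true_and, b.plus_castSucc, b.moved_row,
    Sum.elim_inr, this, true_and]
  exact b.rep_ne_inr _ j

/-! ### Columns -/

/-- Two columns exchanged. -/
def colSwap (k : Fin (N + 1)) (W : Fin (N + 1) → Fin (N + 1) → ℝ) : Fin (N + 1) → Fin (N + 1) → ℝ :=
  fun i j => W i (Equiv.swap k (Fin.last N) j)

lemma colSwap_eq (k : Fin (N + 1)) (W : Fin (N + 1) → Fin (N + 1) → ℝ) :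
    colSwap k W = mm W (swapM k (Fin.last N)) := by
  funext i j
  rw [colSwap, mm_apply, Finset.sum_eq_single (Equiv.swap k (Fin.last N) j)]
  · simp [swapM]
  · intro l _ hl
    rw [swapM, if_neg, mul_zero]
    intro h
    exact hl (by rw [← h, Equiv.swap_apply_self])
  · simp

lemma coord_colSwap (k : Fin (N + 1)) (W : Fin (N + 1) → Fin (N + 1) → ℝ) (σ : Fin (N + 1) → Bool)
    (i : Fin (N + 1)) :
    coord (colSwap k W) σ i = coord W (fun j => σ (Equiv.swap k (Fin.last N) j)) i := by
  simp only [coord, colSwap]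
  exact Fintype.sum_equiv (Equiv.swap k (Fin.last N)) _ _ fun j => by rw [Equiv.swap_apply_self]

omit [Fintype κ] in
lemma gint_colSwap (lbl : Fin (N + 1) → κ) (k : Fin (N + 1)) (W : Fin (N + 1) → Fin (N + 1) → ℝ)
    (Θ : (Fin r → Fin (N + 1) → Bool) → ℝ) :
    gint dl n lbl f s y (colSwap k W) Θ =
      gint dl n lbl f s y W (fun x => Θ fun l j => x l (Equiv.swap k (Fin.last N) j)) := by
  set E : (Fin (N + 1) → Bool) ≃ (Fin (N + 1) → Bool) :=
    Equiv.arrowCongr (Equiv.swap k (Fin.last N)) (Equiv.refl Bool) with hE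
  refine integral_congr_ae (Eventually.of_forall fun g => ?_)
  show rav _ Θ = rav _ _
  rw [← rav_equiv E (fun σ => pertH dl n lbl f s y (colSwap k W) g σ) Θ]
  have hσ : ∀ σ, (fun j => E σ (Equiv.swap k (Fin.last N) j)) = σ := fun σ => funext fun j => by
    simp [E, Equiv.arrowCongr]
  have hH : ∀ σ, pertH dl n lbl f s y (colSwap k W) g (E σ) = pertH dl n lbl f s y W g σ := fun σ => by
    simp only [pertH, clsEnergy, featV, coord_colSwap, hσ]
  simp only [hH]
  congr 1

omit [Fintype κ] in
lemma ev_colSwap (lbl : Fin (N + 1) → κ) (hν' : OrthInvLaw (N + 1) ν') (k : Fin (N + 1))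
    {Θ : (Fin (N + 1) → Fin (N + 1) → ℝ) → (Fin r → Fin (N + 1) → Bool) → ℝ}
    (hΘ : ∀ x, Measurable fun W => Θ W x) :
    ev dl n lbl f s y ν' Θ = ev dl n lbl f s y ν'
      (fun W x => Θ (colSwap k W) fun l j => x l (Equiv.swap k (Fin.last N) j)) := by
  have hO : IsOrth (swapM k (Fin.last N)) :=
    (resp_swapM (lbl := fun _ => ()) (i := k) (j := Fin.last N) rfl).orth
  have hm : (fun W => mm W (swapM k (Fin.last N))) = colSwap k := funext fun W => (colSwap_eq k W).symm
  conv_lhs => rw [ev, ← (Orth.OrthInvLaw.stabLaw hν').right_invariant (fix_of_orth hO)]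
  rw [integral_map (Orth.continuous_mm_left _).measurable.aemeasurable
    (measurable_gint hΘ).aestronglyMeasurable, ev]
  simp only [← colSwap_eq, gint_colSwap]

/-- The squared projection of the last column on a class. -/
def projSq (lbl : Fin (N + 1) → κ) (j : κ) (W : Fin (N + 1) → Fin (N + 1) → ℝ)
    (x : Fin 1 → Fin (N + 1) → Bool) : ℝ :=
  (∑ i, if lbl i = j then W i (Fin.last N) * coord W (x 0) i else 0) ^ 2

omit [Fintype κ] in
lemma continuous_projSq (lbl : Fin (N + 1) → κ) (j : κ) (x : Fin 1 → Fin (N + 1) → Bool) :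
    Continuous fun W => projSq lbl j W x := by
  refine (continuous_finsetSum _ fun i _ => ?_).pow 2
  split_ifs
  · exact (continuous_apply_apply i (Fin.last N)).mul (continuous_coord (x 0) i)
  · exact continuous_const

omit [Fintype κ] in
lemma classInv_projSq (lbl : Fin (N + 1) → κ) (j : κ) : ClassInv lbl (projSq lbl j) := by
  intro O hO W x
  have hc : (fun i => mm O W i (Fin.last N)) = of O *ᵥ fun i => W i (Fin.last N) := funext fun i => by
    simp [mm_apply, mulVec, dotProduct]
  have hd : coord (mm O W) (x 0) = of O *ᵥ coord W (x 0) := funext fun i => by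
    simp [Tgt.coord_mm, mulVec, dotProduct]
  have h := ClassPres.class_dot (B := of O) ⟨hO.orth, hO.zero⟩ (fun i => W i (Fin.last N))
    (coord W (x 0)) j
  simp only [← hc, ← hd] at h
  exact congrArg (· ^ 2) h

omit [Fintype κ] in
/-- The last column carries at most a unit share of the projections. -/
lemma ev_projSq_le (lbl : Fin (N + 1) → κ) (hν' : OrthInvLaw (N + 1) ν') (j : κ) :
    ev dl n lbl f s y ν' (projSq lbl j) ≤ 1 := by
  have hμ := orthLaw_of_inv hν'
  set Ξ : Fin (N + 1) → (Fin (N + 1) → Fin (N + 1) → ℝ) → (Fin 1 → Fin (N + 1) → Bool) → ℝ :=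
    fun k W x => (∑ i, if lbl i = j then W i k * coord W (x 0) i else 0) ^ 2 with hΞ
  have hbd : ∀ k, OBdd (Ξ k) := fun k => OBdd.of_continuous fun x =>
    (continuous_finsetSum _ fun i _ => by
      split_ifs
      · exact (continuous_apply_apply i k).mul (continuous_coord (x 0) i)
      · exact continuous_const).pow 2
  have hk : ∀ k, ev dl n lbl f s y ν' (Ξ k) = ev dl n lbl f s y ν' (projSq lbl j) := fun k => by
    conv_rhs => rw [ev_colSwap lbl hν' k (Θ := projSq lbl j)
      fun x => (continuous_projSq lbl j x).measurable]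
    refine ev_congr hμ fun W x _ => ?_
    simp only [Ξ, projSq, coord_colSwap]
    simp [colSwap]
  have hsum : ev dl n lbl f s y ν' (fun W x => ∑ k, Ξ k W x) ≤ (N + 1 : ℕ) := by
    refine (ev_mono hμ (OBdd.of_continuous fun x => continuous_finsetSum _ fun k _ => ?_)
      (OBdd.of_continuous fun _ => continuous_const) fun W x hW => ?_).trans_eq (ev_const hμ _)
    · simp only [Ξ]
      refine (continuous_finsetSum _ fun i _ => ?_).pow 2
      split_ifs
      · exact (continuous_apply_apply i k).mul (continuous_coord (x 0) i)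
      · exact continuous_const
    · set u : Fin (N + 1) → ℝ := fun i => if lbl i = j then coord W (x 0) i else 0
      have hT : IsOrth (Orth.tr W) := ((fix_of_orth hW).tr).1
      have h := orth_dot hT u u
      have e1 : ∀ k, Ξ k W x = (∑ i, Orth.tr W k i * u i) * (∑ i, Orth.tr W k i * u i) := fun k => by
        simp only [Ξ, Orth.tr, u, mul_ite, mul_zero, sq]
      simp only [e1, h]
      refine (Finset.sum_le_sum fun i _ => ?_).trans_eq (sum_coord_sq_orth hW (x 0))
      simp only [u]
      split_ifs
      · exact le_of_eq (sq _).symm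
      · rw [mul_zero]; positivity
  rw [ev_sum hμ _ Ξ hbd] at hsum
  simp only [hk, Finset.sum_const, Finset.card_univ, Fintype.card_fin, nsmul_eq_mul] at hsum
  push_cast at hsum
  exact le_of_mul_le_mul_left (by rw [mul_one]; exact hsum) (by positivity : (0 : ℝ) < (N : ℝ) + 1)

/-- At a split rotation the last column is the block norms on the representatives. -/
lemma projSq_splitRot (b : Base e f N) {T : κ → ℝ} (hT : Unit0 T) (U : Fin N → Fin N → ℝ)
    (σ : Fin N → Bool) (t : Bool) (j : κ) :
    projSq b.plus j (b.splitRot T U) (fun _ => Fin.snoc σ t) =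
      T j ^ 2 * coord (b.splitRot T U) (Fin.snoc σ t) (b.rep j) ^ 2 := by
  have hcol : ∀ i, b.splitRot T U i (Fin.last N) =
      if i = b.rep (b.plus i) then T (b.plus i) else 0 := fun i => by
    have h : b.splitRot T U i (Fin.last N) =
        (frameMat b.plus b.rep e T *ᵥ Pi.single (Fin.last N) 1) i := by
      rw [mulVec_single_one, col_apply, Base.splitRot, mm_apply, Finset.sum_eq_single (Fin.last N)]
      · simp [ext]
      · intro l _ hl
        induction l using Fin.lastCases with
        | last => exact absurd rfl hl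
        | cast l => simp [ext]
      · simp
    rw [h, (frameMat_spec b.plus_rep e T).2, frameFun]
    have hs : (fun l => (Pi.single (Fin.last N) (1 : ℝ) : Fin (N + 1) → ℝ) (b.rep l)) =
        Pi.single e 1 := funext fun l => by
      by_cases hl : l = e
      · subst hl; simp [b.rep_e]
      · have : b.rep l ≠ Fin.last N := fun h => hl (by rw [← b.plus_rep l, h, b.plus_last])
        simp [hl, this]
    rw [hs, Low.frame_unit e hT.unit]
    split_ifs with hi
    · rfl
    · exact Pi.single_eq_of_ne (fun h => hi (by rw [h, b.plus_last, b.rep_e])) 1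
  rw [projSq, Finset.sum_eq_single (b.rep j)]
  · rw [if_pos (b.plus_rep j), hcol, b.plus_rep, if_pos rfl, mul_pow]
  · intro i _ hi
    split_ifs with h
    · rw [hcol, h, if_neg hi, zero_mul]
    · rfl
  · simp

end Vale.Agent.P166F.Low.Tgt
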