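import Vale.Agent.P166F.Low.Defs

/-!
P166: the frame of the added spin: orthogonality, bounds, and the dependence on the block norms.
-/

namespace Vale.Agent.P166F.Low.Tgt

open MeasureTheory

variable {κ : Type} [Fintype κ] [DecidableEq κ] {e : κ} {dl T T' : κ → ℝ} {L : ℝ}

/-- Nonnegative unit block norms. -/
structure Unit0 (T : κ → ℝ) : Prop where
  nonneg : ∀ j, 0 ≤ T j
  unit : ∑ j, T j ^ 2 = 1

omit [DecidableEq κ] in
lemma Unit0.le_one (hT : Unit0 T) (j : κ) : T j ≤ 1 := by
  have h := Finset.single_le_sum (f := fun j => T j ^ 2) (fun j _ => sq_nonneg _) (Finset.mem_univ j)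
  rw [hT.unit] at h
  exact (sq_le_one_iff₀ (hT.nonneg j)).1 h

omit [DecidableEq κ] in
lemma refl_dot {a : κ → ℝ} (ha : ∑ j, a j ^ 2 ≠ 0) (x y : κ → ℝ) :
    ∑ i, refl a x i * refl a y i = ∑ i, x i * y i := by
  simp only [refl]
  set A := ∑ j, a j ^ 2
  set u := ∑ j, a j * x j with hu
  set w := ∑ j, a j * y j with hw
  have e : ∀ i, (x i - 2 * u / A * a i) * (y i - 2 * w / A * a i) =
      x i * y i - 2 * w / A * (a i * x i) - 2 * u / A * (a i * y i) +
        2 * u / A * (2 * w / A) * a i ^ 2 := fun i => by ring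
  simp only [e, Finset.sum_add_distrib, Finset.sum_sub_distrib, ← Finset.mul_sum, ← hu, ← hw]
  rw [show ∑ i, a i ^ 2 = A from rfl]
  field_simp
  ring

/-- The vector of the second reflection. -/
def axis (e : κ) (T : κ → ℝ) : κ → ℝ := fun i => T i + if i = e then 1 else 0

lemma sum_axis_sq (hT : Unit0 T) : ∑ i, axis e T i ^ 2 = 2 * (1 + T e) := by
  simp only [axis, add_sq, Finset.sum_add_distrib, hT.unit, mul_ite, mul_one, mul_zero, ite_pow,
    one_pow, ne_eq, OfNat.ofNat_ne_zero, not_false_eq_true, zero_pow, Finset.sum_ite_eq',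
    Finset.mem_univ, if_true]
  ring

/-- The configuration with the sign of `e` changed. -/
def flipE (e : κ) (x : κ → ℝ) : κ → ℝ := fun i => if i = e then -x i else x i

lemma refl_single (e : κ) (x : κ → ℝ) :
    refl (fun i => if i = e then (1 : ℝ) else 0) x = flipE e x := by
  funext i
  simp only [refl, flipE, ite_mul, one_mul, zero_mul, Finset.sum_ite_eq', Finset.mem_univ, if_true,
    ite_pow, one_pow, ne_eq, OfNat.ofNat_ne_zero, not_false_eq_true, zero_pow, mul_ite, mul_one,
    mul_zero, div_one]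
  split_ifs with h
  · subst h; ring
  · ring

lemma frame_eq (e : κ) (T x : κ → ℝ) : frame e T x = refl (axis e T) (flipE e x) := by
  rw [frame, refl_single]
  rfl

lemma frame_dot (hT : Unit0 T) (x y : κ → ℝ) :
    ∑ i, frame e T x i * frame e T y i = ∑ i, x i * y i := by
  simp only [frame_eq]
  rw [refl_dot (by rw [sum_axis_sq hT]; linarith [hT.nonneg e])]
  exact Finset.sum_congr rfl fun i _ => by simp only [flipE]; split <;> ring

lemma sum_frame_sq (hT : Unit0 T) (x : κ → ℝ) : ∑ i, frame e T x i ^ 2 = ∑ i, x i ^ 2 := by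
  simpa only [← sq] using frame_dot (e := e) hT x x

/-- The frame carries the axis `e` to `T`. -/
lemma frame_single (hT : Unit0 T) : frame e T (fun i => if i = e then 1 else 0) = T := by
  rw [frame_eq]
  funext i
  have h1 : ∑ j, axis e T j * flipE e (fun i => if i = e then 1 else 0) j = -(1 + T e) := by
    simp only [flipE, axis, mul_ite, mul_neg, mul_one, mul_zero, neg_zero]
    rw [Finset.sum_congr rfl fun j _ => show _ = if j = e then -(T e + 1) else 0 by
      split_ifs with h <;> simp_all]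
    simp [add_comm]
  simp only [refl, h1, sum_axis_sq hT]
  have : (1 : ℝ) + T e ≠ 0 := by linarith [hT.nonneg e]
  simp only [flipE, axis]
  by_cases h : i = e
  · subst h
    simp only [if_pos]
    field_simp
    ring
  · simp only [if_neg h]
    field_simp
    ring

/-- One plus the squares of all fields. -/
def zn (z : Fld e → ℝ) : ℝ := 1 + ∑ x, z x ^ 2

lemma one_le_zn (z : Fld e → ℝ) : 1 ≤ zn z :=
  le_add_of_nonneg_right (Finset.sum_nonneg fun _ _ => sq_nonneg _)

lemma sum_fill_sq (z : Fld e → ℝ) (s : ℝ) :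
    ∑ j, fill e z s j ^ 2 = s ^ 2 + ∑ j : Slot e, z (Sum.inl j) ^ 2 := by
  rw [← Finset.add_sum_erase _ _ (Finset.mem_univ e)]
  congr 1
  · simp [fill]
  · rw [Finset.sum_subtype (p := fun j => j ≠ e) _ (fun x => by simp) fun j => fill e z s j ^ 2]
    exact Finset.sum_congr rfl fun j _ => by simp [fill, j.2]

lemma sum_fill_sq_le (z : Fld e → ℝ) {s : ℝ} (hs : s ^ 2 = 1) :
    ∑ j, fill e z s j ^ 2 ≤ zn z ∧ (∑ j, fill e z s j ^ 2) + ∑ j : Slot e, z (Sum.inr j) ^ 2 = zn z := by
  rw [sum_fill_sq, hs, zn, Fintype.sum_sum_type]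
  exact ⟨by linarith [Finset.sum_nonneg fun (j : Slot e) (_ : j ∈ Finset.univ) => sq_nonneg (z (Sum.inr j))],
    by ring⟩

omit [DecidableEq κ] in
lemma slope_le (dl : κ → ℝ) (j : κ) : |dl j| ≤ ∑ k, |dl k| :=
  Finset.single_le_sum (f := fun k => |dl k|) (fun k _ => abs_nonneg _) (Finset.mem_univ j)

lemma spinQ_nonneg (hd : ∀ j, 0 ≤ dl j) (T : κ → ℝ) (z : Fld e → ℝ) (s : ℝ) :
    0 ≤ spinQ dl e T z s :=
  add_nonneg (div_nonneg (Finset.sum_nonneg fun j _ => mul_nonneg (hd j) (sq_nonneg _)) zero_le_two)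
    (div_nonneg (Finset.sum_nonneg fun j _ => mul_nonneg (hd _) (sq_nonneg _)) zero_le_two)

lemma spinQ_le (hT : Unit0 T) (z : Fld e → ℝ) {s : ℝ} (hs : s ^ 2 = 1) :
    spinQ dl e T z s ≤ (∑ j, |dl j|) * zn z := by
  set D := ∑ j, |dl j|
  have hD : 0 ≤ D := Finset.sum_nonneg fun _ _ => abs_nonneg _
  have h1 : ∑ j, dl j * frame e T (fill e z s) j ^ 2 ≤ D * ∑ j, fill e z s j ^ 2 := by
    rw [← sum_frame_sq (e := e) hT, Finset.mul_sum]
    exact Finset.sum_le_sum fun j _ =>
      mul_le_mul_of_nonneg_right ((le_abs_self _).trans (slope_le dl j)) (sq_nonneg _)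
  have h2 : ∑ j : Slot e, dl j.1 * z (Sum.inr j) ^ 2 ≤ D * ∑ j : Slot e, z (Sum.inr j) ^ 2 := by
    rw [Finset.mul_sum]
    exact Finset.sum_le_sum fun j _ =>
      mul_le_mul_of_nonneg_right ((le_abs_self _).trans (slope_le dl j.1)) (sq_nonneg _)
  have h3 := (sum_fill_sq_le z hs).2
  have h4 : 0 ≤ D * zn z := mul_nonneg hD (zero_le_one.trans (one_le_zn z))
  rw [spinQ, probeQ]
  nlinarith

lemma frame_coord (hT : Unit0 T) (x : κ → ℝ) (j : κ) :
    frame e T x j = flipE e x j -
      (∑ i, axis e T i * flipE e x i) * axis e T j / (1 + T e) := by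
  rw [frame_eq]
  simp only [refl, sum_axis_sq hT]
  have : (1 : ℝ) + T e ≠ 0 := by linarith [hT.nonneg e]
  field_simp

/-- The frame depends Lipschitz on the block norms. -/
lemma abs_frame_sub_le (hT : Unit0 T) (hT' : Unit0 T') (x : κ → ℝ) (j : κ) :
    |frame e T x j - frame e T' x j| ≤
      8 * (∑ i, |T i - T' i|) * Real.sqrt (∑ i, x i ^ 2) := by
  set Δ := ∑ i, |T i - T' i|
  set W := Real.sqrt (∑ i, x i ^ 2)
  set w := flipE e x
  have hW : ∑ i, w i ^ 2 = ∑ i, x i ^ 2 :=
    Finset.sum_congr rfl fun i _ => by simp only [w, flipE]; split <;> ring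
  have hΔ : ∀ i, |T i - T' i| ≤ Δ := fun i =>
    Finset.single_le_sum (f := fun i => |T i - T' i|) (fun i _ => abs_nonneg _) (Finset.mem_univ i)
  have hΔ0 : 0 ≤ Δ := Finset.sum_nonneg fun _ _ => abs_nonneg _
  have hW0 : 0 ≤ W := Real.sqrt_nonneg _
  have hwi : ∀ i, |w i| ≤ W := fun i => Real.abs_le_sqrt (hW ▸ Finset.single_le_sum
    (f := fun i => w i ^ 2) (fun i _ => sq_nonneg _) (Finset.mem_univ i))
  have hax : ∀ T, Unit0 T → ∀ i, |axis e T i| ≤ 2 := fun T hT i => by
    have h1 := hT.nonneg i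
    have h2 := hT.le_one i
    rw [axis, abs_le]
    split_ifs <;> constructor <;> linarith
  have hp : ∀ T, Unit0 T → |∑ i, axis e T i * w i| ≤ 2 * W := fun T hT => by
    have h := Finset.sum_mul_sq_le_sq_mul_sq Finset.univ (axis e T) w
    rw [sum_axis_sq hT, hW] at h
    have h2 : (∑ i, axis e T i * w i) ^ 2 ≤ 4 * ∑ i, x i ^ 2 :=
      h.trans (mul_le_mul_of_nonneg_right (by linarith [hT.le_one e])
        (Finset.sum_nonneg fun i _ => sq_nonneg _))
    refine (Real.abs_le_sqrt h2).trans_eq ?_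
    rw [show (4 : ℝ) = 2 ^ 2 by norm_num, Real.sqrt_mul (sq_nonneg _), Real.sqrt_sq (by norm_num)]
  have hd1 : |∑ i, axis e T i * w i - ∑ i, axis e T' i * w i| ≤ Δ * W := by
    rw [← Finset.sum_sub_distrib, Finset.sum_mul]
    refine (Finset.abs_sum_le_sum_abs _ _).trans (Finset.sum_le_sum fun i _ => ?_)
    rw [← sub_mul, abs_mul, show axis e T i - axis e T' i = T i - T' i by simp [axis]]
    exact mul_le_mul_of_nonneg_left (hwi i) (abs_nonneg _)
  have hd2 : |axis e T j - axis e T' j| ≤ Δ := by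
    rw [show axis e T j - axis e T' j = T j - T' j by simp [axis]]
    exact hΔ j
  set p := ∑ i, axis e T i * w i
  set p' := ∑ i, axis e T' i * w i
  set A := axis e T j
  set A' := axis e T' j
  have hnum : |p * A - p' * A'| ≤ 4 * Δ * W := by
    rw [show p * A - p' * A' = (p - p') * A + p' * (A - A') by ring]
    refine (abs_add_le _ _).trans ?_
    rw [abs_mul, abs_mul]
    have e1 := mul_le_mul hd1 (hax T hT j) (abs_nonneg _) (by positivity)
    have e2 := mul_le_mul (hp T' hT') hd2 (abs_nonneg _) (by positivity)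
    linarith
  have hden : |p' * A'| ≤ 4 * W := by
    rw [abs_mul]
    have := mul_le_mul (hp T' hT') (hax T' hT' j) (abs_nonneg _) (by positivity)
    linarith
  have hE := hT.nonneg e
  have hE' := hT'.nonneg e
  rw [frame_coord hT, frame_coord hT', show flipE e x j - p * A / (1 + T e) -
      (flipE e x j - p' * A' / (1 + T' e)) = -((p * A - p' * A') / (1 + T e) +
        p' * A' * (T' e - T e) / ((1 + T e) * (1 + T' e))) by
    field_simp
    ring]
  rw [abs_neg]
  refine (abs_add_le _ _).trans ?_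
  rw [abs_div, abs_div, abs_of_pos (by linarith : 0 < 1 + T e),
    abs_of_pos (by positivity : 0 < (1 + T e) * (1 + T' e))]
  have e1 : |p * A - p' * A'| / (1 + T e) ≤ 4 * Δ * W :=
    (div_le_self (abs_nonneg _) (by linarith)).trans hnum
  have e2 : |p' * A' * (T' e - T e)| / ((1 + T e) * (1 + T' e)) ≤ 4 * W * Δ := by
    refine (div_le_self (abs_nonneg _) (by nlinarith)).trans ?_
    rw [abs_mul, abs_sub_comm]
    exact mul_le_mul hden (hΔ e) (abs_nonneg _) (by positivity)
  linarith

/-- The energy depends Lipschitz on the block norms. -/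
lemma abs_spinQ_sub_le (hT : Unit0 T) (hT' : Unit0 T') (z : Fld e → ℝ) {s : ℝ} (hs : s ^ 2 = 1) :
    |spinQ dl e T z s - spinQ dl e T' z s| ≤
      8 * (∑ j, |dl j|) * (∑ i, |T i - T' i|) * zn z := by
  set Δ := ∑ i, |T i - T' i|
  set W := Real.sqrt (∑ i, fill e z s i ^ 2) with hW
  have hW2 : W * W = ∑ i, fill e z s i ^ 2 :=
    Real.mul_self_sqrt (Finset.sum_nonneg fun i _ => sq_nonneg _)
  have hb : ∀ T, Unit0 T → ∀ j, |frame e T (fill e z s) j| ≤ W := fun T hT j =>
    Real.abs_le_sqrt (sum_frame_sq (e := e) hT (fill e z s) ▸ Finset.single_le_sum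
      (f := fun i => frame e T (fill e z s) i ^ 2) (fun i _ => sq_nonneg _) (Finset.mem_univ j))
  have hΔ0 : 0 ≤ Δ := Finset.sum_nonneg fun _ _ => abs_nonneg _
  rw [spinQ, spinQ, add_sub_add_right_eq_sub, ← sub_div, ← Finset.sum_sub_distrib, abs_div,
    abs_two, div_le_iff₀ two_pos]
  refine (Finset.abs_sum_le_sum_abs _ _).trans ((Finset.sum_le_sum fun j _ =>
    (?_ : _ ≤ |dl j| * (16 * Δ * (W * W)))).trans ?_)
  · rw [← mul_sub, abs_mul, sq_sub_sq, abs_mul]
    refine mul_le_mul_of_nonneg_left ?_ (abs_nonneg _)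
    have h1 : |frame e T (fill e z s) j + frame e T' (fill e z s) j| ≤ 2 * W :=
      (abs_add_le _ _).trans (by linarith [hb T hT j, hb T' hT' j])
    have h2 := abs_frame_sub_le (e := e) hT hT' (fill e z s) j
    exact (mul_le_mul h1 h2 (abs_nonneg _) (by positivity)).trans_eq (by rw [← hW]; ring)
  · rw [← Finset.sum_mul, hW2]
    have h := mul_le_mul_of_nonneg_left (sum_fill_sq_le z hs).1
      (mul_nonneg (Finset.sum_nonneg fun j (_ : j ∈ Finset.univ) => abs_nonneg (dl j))
        (mul_nonneg (by norm_num : (0 : ℝ) ≤ 16) hΔ0))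
    linarith

lemma abs_exp_min_sub_le (a b L : ℝ) :
    |Real.exp (min a L) - Real.exp (min b L)| ≤ Real.exp L * |a - b| := by
  have key : ∀ a b : ℝ, a ≤ b → Real.exp (min b L) - Real.exp (min a L) ≤ Real.exp L * (b - a) := by
    intro a b hab
    have h1 : min a L ≤ min b L := min_le_min_right L hab
    have h2 : min b L - min a L ≤ b - a := by
      rcases le_total a L with h | h
      · rw [min_eq_left h]; linarith [min_le_left b L]
      · rw [min_eq_right h, min_eq_right (h.trans hab)]; linarith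
    have h3 := Real.add_one_le_exp (min a L - min b L)
    rw [Real.exp_sub, le_div_iff₀ (Real.exp_pos _)] at h3
    have h4 : Real.exp (min b L) ≤ Real.exp L := Real.exp_le_exp.2 (min_le_right b L)
    have h5 := mul_le_mul h4 h2 (by linarith) (Real.exp_pos L).le
    nlinarith
  rcases le_total a b with h | h
  · rw [abs_sub_comm, abs_sub_comm a, abs_of_nonneg (by
      linarith [Real.exp_le_exp.2 (min_le_min_right L h)]), abs_of_nonneg (by linarith)]
    exact key a b h
  · rw [abs_of_nonneg (by linarith [Real.exp_le_exp.2 (min_le_min_right L h)]),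
      abs_of_nonneg (by linarith)]
    exact key b a h

lemma spinW_range (hd : ∀ j, 0 ≤ dl j) (hL : 0 ≤ L) (T : κ → ℝ) (z : Fld e → ℝ) :
    1 ≤ spinW dl e T L z ∧ spinW dl e T L z ≤ Real.exp L := by
  have h : ∀ s, 1 ≤ Real.exp (min (spinQ dl e T z s) L) ∧
      Real.exp (min (spinQ dl e T z s) L) ≤ Real.exp L := fun s =>
    ⟨Real.one_le_exp (le_min (spinQ_nonneg hd T z s) hL), Real.exp_le_exp.2 (min_le_right _ _)⟩
  rw [spinW]
  constructor <;> linarith [h 1, h (-1)]

lemma one_le_spinW' (hd : ∀ j, 0 ≤ dl j) (T : κ → ℝ) (z : Fld e → ℝ) : 1 ≤ spinW' dl e T z := by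
  have h : ∀ s, 1 ≤ Real.exp (spinQ dl e T z s) := fun s => Real.one_le_exp (spinQ_nonneg hd T z s)
  rw [spinW']
  linarith [h 1, h (-1)]

lemma spinW_le_spinW' (T : κ → ℝ) (L : ℝ) (z : Fld e → ℝ) :
    spinW dl e T L z ≤ spinW' dl e T z := by
  rw [spinW, spinW']
  linarith [Real.exp_le_exp.2 (min_le_left (spinQ dl e T z 1) L),
    Real.exp_le_exp.2 (min_le_left (spinQ dl e T z (-1)) L)]

lemma spinW'_le (hT : Unit0 T) (z : Fld e → ℝ) :
    spinW' dl e T z ≤ Real.exp ((∑ j, |dl j|) * zn z) := by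
  rw [spinW']
  linarith [Real.exp_le_exp.2 (spinQ_le (dl := dl) hT z (one_pow 2 : (1 : ℝ) ^ 2 = 1)),
    Real.exp_le_exp.2 (spinQ_le (dl := dl) hT z (by norm_num : (-1 : ℝ) ^ 2 = 1))]

lemma abs_spinW_sub_le (hT : Unit0 T) (hT' : Unit0 T') (z : Fld e → ℝ) (L : ℝ) :
    |spinW dl e T L z - spinW dl e T' L z| ≤
      Real.exp L * (8 * (∑ j, |dl j|)) * (∑ i, |T i - T' i|) * zn z := by
  have h : ∀ s : ℝ, s ^ 2 = 1 → |Real.exp (min (spinQ dl e T z s) L) -
      Real.exp (min (spinQ dl e T' z s) L)| ≤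
      Real.exp L * (8 * (∑ j, |dl j|)) * (∑ i, |T i - T' i|) * zn z := fun s hs =>
    ((abs_exp_min_sub_le _ _ L).trans (mul_le_mul_of_nonneg_left (abs_spinQ_sub_le hT hT' z hs)
      (Real.exp_pos L).le)).trans_eq (by ring)
  rw [spinW, spinW, div_sub_div_same, abs_div, abs_two, div_le_iff₀ two_pos, add_sub_add_comm]
  linarith [abs_add_le (Real.exp (min (spinQ dl e T z 1) L) - Real.exp (min (spinQ dl e T' z 1) L))
    (Real.exp (min (spinQ dl e T z (-1)) L) - Real.exp (min (spinQ dl e T' z (-1)) L)),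
    h 1 (one_pow 2), h (-1) (by norm_num)]

lemma abs_ratio_le_one (a b : ℝ) :
    |(Real.exp a - Real.exp b) / (Real.exp a + Real.exp b)| ≤ 1 := by
  have ha := Real.exp_pos a
  have hb := Real.exp_pos b
  rw [abs_div, abs_of_pos (by linarith : 0 < Real.exp a + Real.exp b), div_le_one (by linarith), abs_le]
  constructor <;> linarith

lemma abs_spinT_sub_le (hT : Unit0 T) (hL : 0 < L) (z : Fld e → ℝ) :
    |spinT dl e T L z - spinT' dl e T z| ≤ 2 * (∑ j, |dl j|) * zn z / L := by
  rcases le_or_gt ((∑ j, |dl j|) * zn z) L with h | h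
  · have h0 : ∀ s : ℝ, s ^ 2 = 1 → min (spinQ dl e T z s) L = spinQ dl e T z s := fun s hs =>
      min_eq_left ((spinQ_le hT z hs).trans h)
    rw [spinT, spinT', h0 1 (one_pow 2), h0 (-1) (by norm_num), sub_self, abs_zero]
    have := zero_le_one.trans (one_le_zn z)
    positivity
  · refine le_trans ?_ ((le_div_iff₀ hL).2 (by linarith : (2 : ℝ) * L ≤ 2 * (∑ j, |dl j|) * zn z))
    have e1 : |spinT dl e T L z| ≤ 1 := by rw [spinT]; exact abs_ratio_le_one _ _
    have e2 : |spinT' dl e T z| ≤ 1 := by rw [spinT']; exact abs_ratio_le_one _ _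
    exact (abs_sub _ _).trans (by linarith)

@[fun_prop]
lemma continuous_spinQ (dl T : κ → ℝ) (s : ℝ) :
    Continuous fun z : Fld e → ℝ => spinQ dl e T z s := by
  unfold spinQ probeQ frame refl fill
  refine Continuous.add (Continuous.div_const (continuous_finsetSum _ fun j _ => ?_) _) (by fun_prop)
  have hf : Continuous fun z : Fld e → ℝ => fill e z s := continuous_pi fun j => by
    simp only [fill]
    split_ifs <;> fun_prop
  have hr : ∀ a : κ → ℝ, Continuous (refl a) := fun a => continuous_pi fun i => by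
    simp only [refl]
    fun_prop
  exact continuous_const.mul (((continuous_apply j).comp
    (((hr _).comp (hr _)).comp hf)).pow 2)

lemma continuous_spinW (dl T : κ → ℝ) (L : ℝ) : Continuous (spinW dl e T L) := by
  unfold spinW
  fun_prop

lemma continuous_spinW' (dl T : κ → ℝ) : Continuous (spinW' dl e T) := by
  unfold spinW'
  fun_prop

lemma continuous_spinT (dl T : κ → ℝ) (L : ℝ) : Continuous (spinT dl e T L) := by
  unfold spinT
  exact Continuous.div (by fun_prop) (by fun_prop) fun z => (add_pos (Real.exp_pos _) (Real.exp_pos _)).ne'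

lemma continuous_spinT' (dl T : κ → ℝ) : Continuous (spinT' dl e T) := by
  unfold spinT'
  exact Continuous.div (by fun_prop) (by fun_prop) fun z => (add_pos (Real.exp_pos _) (Real.exp_pos _)).ne'

/-- The energy is measurable in the block norms and the fields together. -/
lemma measurable_spinQ (dl : κ → ℝ) (s : ℝ) :
    Measurable fun p : (κ → ℝ) × (Fld e → ℝ) => spinQ dl e p.1 p.2 s := by
  have hf : ∀ j, Measurable fun p : (κ → ℝ) × (Fld e → ℝ) => fill e p.2 s j := fun j => by
    simp only [fill]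
    split_ifs <;> fun_prop
  simp only [spinQ, probeQ, frame, refl]
  fun_prop

end Vale.Agent.P166F.Low.Tgt
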