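import Vale.Agent.P166F.Up.GaussFacts

/-!
P166: finite Gibbs measures: their distance, truncations, reweightings and marginals.
-/

namespace Vale.Agent.P166F.Low.Tgt

variable {X Y : Type} [Fintype X] [Fintype Y] {h h' h'' : X → ℝ} {r : ℕ}

/-- The probability of one configuration. -/
noncomputable def gw (h : X → ℝ) (x : X) : ℝ := Real.exp (h x) / ∑ y, Real.exp (h y)

/-- The mean of a function of one configuration. -/
noncomputable def gmn (h f : X → ℝ) : ℝ := ∑ x, gw h x * f x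

/-- The replica average. -/
noncomputable def rav (h : X → ℝ) (Θ : (Fin r → X) → ℝ) : ℝ :=
  (∑ x : Fin r → X, (∏ l, Real.exp (h (x l))) * Θ x) / (∑ y, Real.exp (h y)) ^ r

/-- The total distance of two Gibbs measures. -/
noncomputable def lone (h h' : X → ℝ) : ℝ := ∑ x, |gw h x - gw h' x|

lemma gw_nonneg (h : X → ℝ) (x : X) : 0 ≤ gw h x :=
  div_nonneg (Real.exp_pos _).le (Finset.sum_nonneg fun _ _ => (Real.exp_pos _).le)

lemma rav_eq (h : X → ℝ) (Θ : (Fin r → X) → ℝ) :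
    rav h Θ = ∑ x, (∏ l, gw h (x l)) * Θ x := by
  simp only [rav, gw, Finset.prod_div_distrib, Finset.prod_const, Finset.card_univ, Fintype.card_fin,
    Finset.sum_div, div_mul_eq_mul_div]

lemma rav_one (h : X → ℝ) (f : X → ℝ) : rav (r := 1) h (fun x => f (x 0)) = gmn h f := by
  rw [rav_eq]
  exact Fintype.sum_equiv (Equiv.funUnique (Fin 1) X) _ _ fun x => by simp

lemma lone_comm (h h' : X → ℝ) : lone h h' = lone h' h :=
  Finset.sum_congr rfl fun _ _ => abs_sub_comm _ _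

lemma lone_triangle (h h' h'' : X → ℝ) : lone h h'' ≤ lone h h' + lone h' h'' :=
  (Finset.sum_le_sum fun _ _ => abs_sub_le _ _ _).trans_eq Finset.sum_add_distrib

lemma lone_nonneg (h h' : X → ℝ) : 0 ≤ lone h h' := Finset.sum_nonneg fun _ _ => abs_nonneg _

section Nonempty

variable [Nonempty X]

lemma zpos (h : X → ℝ) : 0 < ∑ y, Real.exp (h y) :=
  Finset.sum_pos (fun _ _ => Real.exp_pos _) Finset.univ_nonempty

lemma gw_pos (h : X → ℝ) (x : X) : 0 < gw h x := div_pos (Real.exp_pos _) (zpos h)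

lemma sum_gw (h : X → ℝ) : ∑ x, gw h x = 1 := by
  simp only [gw, ← Finset.sum_div]
  exact div_self (zpos h).ne'

lemma sum_prod_gw (h : X → ℝ) (r : ℕ) : ∑ x : Fin r → X, ∏ l, gw h (x l) = 1 := by
  rw [← Fintype.prod_sum fun (_ : Fin r) x => gw h x]
  simp [sum_gw]

lemma rav_const (h : X → ℝ) (c : ℝ) : rav (r := r) h (fun _ => c) = c := by
  rw [rav_eq, ← Finset.sum_mul, sum_prod_gw, one_mul]

omit [Nonempty X] in
lemma rav_mono (h : X → ℝ) {Θ Θ' : (Fin r → X) → ℝ} (hle : ∀ x, Θ x ≤ Θ' x) :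
    rav h Θ ≤ rav h Θ' := by
  rw [rav_eq, rav_eq]
  exact Finset.sum_le_sum fun x _ =>
    mul_le_mul_of_nonneg_left (hle x) (Finset.prod_nonneg fun l _ => gw_nonneg h _)

lemma abs_rav_le (h : X → ℝ) {Θ : (Fin r → X) → ℝ} {B : ℝ} (hB : ∀ x, |Θ x| ≤ B) :
    |rav h Θ| ≤ B := by
  refine abs_le.2 ⟨?_, ?_⟩
  · exact le_of_eq_of_le (rav_const (r := r) h (-B)).symm (rav_mono h fun x => (abs_le.1 (hB x)).1)
  · exact (rav_mono h fun x => (abs_le.1 (hB x)).2).trans_eq (rav_const h B)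

lemma gmn_const (h : X → ℝ) (c : ℝ) : gmn h (fun _ => c) = c := by
  rw [gmn, ← Finset.sum_mul, sum_gw, one_mul]

omit [Nonempty X] in
lemma gmn_mono (h : X → ℝ) {f f' : X → ℝ} (hle : ∀ x, f x ≤ f' x) : gmn h f ≤ gmn h f' :=
  Finset.sum_le_sum fun x _ => mul_le_mul_of_nonneg_left (hle x) (gw_nonneg h x)

omit [Nonempty X] in
lemma gmn_nonneg (h : X → ℝ) {f : X → ℝ} (hf : ∀ x, 0 ≤ f x) : 0 ≤ gmn h f :=
  Finset.sum_nonneg fun x _ => mul_nonneg (gw_nonneg h x) (hf x)

lemma lone_le_two (h h' : X → ℝ) : lone h h' ≤ 2 := by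
  refine (Finset.sum_le_sum fun x _ => (abs_sub _ _).trans_eq
    (by rw [abs_of_pos (gw_pos h x), abs_of_pos (gw_pos h' x)])).trans_eq ?_
  rw [Finset.sum_add_distrib, sum_gw, sum_gw]
  norm_num

lemma sum_abs_prod_sub (h h' : X → ℝ) (r : ℕ) :
    ∑ x : Fin r → X, |∏ l, gw h (x l) - ∏ l, gw h' (x l)| ≤ r * lone h h' := by
  induction r with
  | zero => simp
  | succ r ih =>
    rw [← (Fin.consEquiv fun _ : Fin (r + 1) => X).sum_comp, Fintype.sum_prod_type]
    simp only [Fin.consEquiv, Equiv.coe_fn_mk, Fin.prod_univ_succ, Fin.cons_zero, Fin.cons_succ]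
    refine (Finset.sum_le_sum fun a _ => Finset.sum_le_sum fun x _ =>
      (?_ : _ ≤ |gw h a - gw h' a| * ∏ l, gw h (x l) +
        gw h' a * |∏ l, gw h (x l) - ∏ l, gw h' (x l)|)).trans ?_
    · rw [show gw h a * ∏ l, gw h (x l) - gw h' a * ∏ l, gw h' (x l) =
        (gw h a - gw h' a) * ∏ l, gw h (x l) +
          gw h' a * (∏ l, gw h (x l) - ∏ l, gw h' (x l)) by ring]
      refine (abs_add_le _ _).trans_eq ?_
      rw [abs_mul, abs_mul, abs_of_pos (gw_pos h' a),
        abs_of_nonneg (Finset.prod_nonneg fun l _ => gw_nonneg h (x l))]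
    · simp only [Finset.sum_add_distrib, ← Finset.mul_sum, sum_prod_gw, mul_one, ← Finset.sum_mul,
        sum_gw, one_mul]
      push_cast
      rw [lone] at *
      linarith

/-- Replica averages of bounded functions move by the distance of the measures. -/
lemma abs_rav_sub_le (h h' : X → ℝ) {Θ : (Fin r → X) → ℝ} {B : ℝ} (hB : ∀ x, |Θ x| ≤ B)
    (hB0 : 0 ≤ B) : |rav h Θ - rav h' Θ| ≤ B * r * lone h h' := by
  rw [rav_eq, rav_eq, ← Finset.sum_sub_distrib, mul_assoc]
  refine (Finset.abs_sum_le_sum_abs _ _).trans ((Finset.sum_le_sum fun x _ =>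
    (?_ : _ ≤ B * |∏ l, gw h (x l) - ∏ l, gw h' (x l)|)).trans ?_)
  · rw [← sub_mul, abs_mul, mul_comm B]
    exact mul_le_mul_of_nonneg_left (hB x) (abs_nonneg _)
  · rw [← Finset.mul_sum]
    exact mul_le_mul_of_nonneg_left (sum_abs_prod_sub h h' r) hB0

lemma abs_gmn_sub_le (h h' : X → ℝ) {f : X → ℝ} {B : ℝ} (hB : ∀ x, |f x| ≤ B) (hB0 : 0 ≤ B) :
    |gmn h f - gmn h' f| ≤ B * lone h h' := by
  simpa [rav_one] using abs_rav_sub_le (r := 1) h h' (Θ := fun x => f (x 0)) (fun x => hB (x 0)) hB0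

/-- Measures agreeing up to a factor where `F` is below one. -/
lemma lone_le_of_eq {F : X → ℝ} (hF : ∀ x, 0 ≤ F x) (hA : ∀ x, h x = h' x ∨ 1 ≤ F x) :
    lone h h' ≤ 2 * (gmn h F + gmn h' F) := by
  classical
  set Z := ∑ y, Real.exp (h y) with hZ
  set Z' := ∑ y, Real.exp (h' y) with hZ'
  set S := Finset.univ.filter fun x => h x = h' x with hS
  have hsum : ∀ g : X → ℝ, ∑ x, g x = ∑ x ∈ S, g x + ∑ x ∈ Sᶜ, g x := fun g =>
    (Finset.sum_add_sum_compl S g).symm
  have hout : ∀ k : X → ℝ, ∑ x ∈ Sᶜ, gw k x ≤ gmn k F := fun k => by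
    rw [gmn, hsum]
    have h0 : 0 ≤ ∑ x ∈ S, gw k x * F x :=
      Finset.sum_nonneg fun x _ => mul_nonneg (gw_nonneg k x) (hF x)
    have h1 : ∑ x ∈ Sᶜ, gw k x ≤ ∑ x ∈ Sᶜ, gw k x * F x :=
      Finset.sum_le_sum fun x hx => by
        simp only [hS, Finset.mem_compl, Finset.mem_filter, Finset.mem_univ, true_and] at hx
        exact le_mul_of_one_le_right (gw_nonneg k x) ((hA x).resolve_left hx)
    linarith
  have hsame : ∀ x ∈ S, gw h x - gw h' x = Real.exp (h x) * (Z⁻¹ - Z'⁻¹) := fun x hx => by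
    simp only [hS, Finset.mem_filter] at hx
    simp only [gw, ← hZ, ← hZ', ← hx.2]
    ring
  have hin : ∑ x ∈ S, |gw h x - gw h' x| = |∑ x ∈ Sᶜ, gw h x - ∑ x ∈ Sᶜ, gw h' x| := by
    have e1 : ∑ x ∈ S, |gw h x - gw h' x| = |∑ x ∈ S, (gw h x - gw h' x)| := by
      rw [Finset.sum_congr rfl hsame, ← Finset.sum_mul, abs_mul,
        abs_of_nonneg (Finset.sum_nonneg fun x _ => (Real.exp_pos _).le), Finset.sum_mul]
      exact Finset.sum_congr rfl fun x hx => by
        rw [hsame x hx, abs_mul, abs_of_pos (Real.exp_pos _)]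
    have e2 := hsum (gw h)
    have e3 := hsum (gw h')
    rw [sum_gw] at e2 e3
    rw [e1, Finset.sum_sub_distrib, ← abs_neg]
    congr 1
    linarith
  have hle : ∑ x ∈ Sᶜ, |gw h x - gw h' x| ≤ ∑ x ∈ Sᶜ, gw h x + ∑ x ∈ Sᶜ, gw h' x := by
    rw [← Finset.sum_add_distrib]
    exact Finset.sum_le_sum fun x _ => (abs_sub _ _).trans_eq
      (by rw [abs_of_pos (gw_pos h x), abs_of_pos (gw_pos h' x)])
  have habs : |∑ x ∈ Sᶜ, gw h x - ∑ x ∈ Sᶜ, gw h' x| ≤ ∑ x ∈ Sᶜ, gw h x + ∑ x ∈ Sᶜ, gw h' x := by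
    have := Finset.sum_nonneg fun x (_ : x ∈ Sᶜ) => gw_nonneg h x
    have := Finset.sum_nonneg fun x (_ : x ∈ Sᶜ) => gw_nonneg h' x
    rw [abs_le]
    constructor <;> linarith
  rw [lone, hsum fun x => |gw h x - gw h' x|, hin]
  linarith [hout h, hout h']

/-- Lowering weights only where `F` is at least one. -/
lemma lone_trunc {F : X → ℝ} (hF : ∀ x, 0 ≤ F x) (hle : ∀ x, h' x ≤ h x)
    (hA : ∀ x, h' x = h x ∨ 1 ≤ F x) : lone h h' ≤ 4 * gmn h F := by
  classical
  set S := Finset.univ.filter fun x => h' x = h x with hS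
  set G : X → ℝ := fun x => if h' x = h x then 0 else 1 with hG
  have h1 := lone_le_of_eq (h := h) (h' := h') (F := G) (fun x => by simp only [G]; split <;> norm_num)
    fun x => by
      by_cases hx : h' x = h x
      · exact Or.inl hx.symm
      · exact Or.inr (by simp [G, hx])
  have h2 : gmn h G ≤ gmn h F := gmn_mono h fun x => by
    simp only [G]
    split
    · exact hF x
    · exact (hA x).resolve_left ‹_›
  have e : ∀ k : X → ℝ, gmn k G = (∑ x ∈ Sᶜ, Real.exp (k x)) /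
      ((∑ x ∈ S, Real.exp (k x)) + ∑ x ∈ Sᶜ, Real.exp (k x)) := fun k => by
    rw [Finset.sum_add_sum_compl, gmn, Finset.sum_div, hS, Finset.compl_filter, Finset.sum_filter]
    refine Finset.sum_congr rfl fun x _ => ?_
    simp only [G, gw]
    by_cases hx : h' x = h x <;> simp [hx]
  have h3 : gmn h' G ≤ gmn h G := by
    rw [e h', e h]
    have ha : ∑ x ∈ S, Real.exp (h' x) = ∑ x ∈ S, Real.exp (h x) :=
      Finset.sum_congr rfl fun x hx => by rw [(Finset.mem_filter.1 hx).2]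
    have hb : ∑ x ∈ Sᶜ, Real.exp (h' x) ≤ ∑ x ∈ Sᶜ, Real.exp (h x) :=
      Finset.sum_le_sum fun x _ => Real.exp_le_exp.2 (hle x)
    have hs : 0 ≤ ∑ x ∈ S, Real.exp (h x) := Finset.sum_nonneg fun x _ => (Real.exp_pos _).le
    have hb0 : 0 ≤ ∑ x ∈ Sᶜ, Real.exp (h' x) := Finset.sum_nonneg fun x _ => (Real.exp_pos _).le
    have p1 : 0 < (∑ x ∈ S, Real.exp (h x)) + ∑ x ∈ Sᶜ, Real.exp (h x) := by
      rw [Finset.sum_add_sum_compl]; exact zpos h
    have p2 : 0 < (∑ x ∈ S, Real.exp (h x)) + ∑ x ∈ Sᶜ, Real.exp (h' x) := by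
      rw [← ha, Finset.sum_add_sum_compl]; exact zpos h'
    rw [ha, div_le_div_iff₀ p2 p1]
    nlinarith [mul_le_mul_of_nonneg_left hb hs]
  linarith

lemma gw_add_eq (h y : X → ℝ) (x : X) :
    gw (fun x => h x + y x) x = gw h x * Real.exp (y x) / ∑ x', gw h x' * Real.exp (y x') := by
  have hz := (zpos h).ne'
  have e : ∑ x', gw h x' * Real.exp (y x') =
      (∑ x', Real.exp (h x' + y x')) / ∑ x', Real.exp (h x') := by
    simp only [gw, Real.exp_add, Finset.sum_div, div_mul_eq_mul_div]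
  rw [e, gw, gw, div_mul_eq_mul_div, ← Real.exp_add]
  field_simp

/-- A reweighting by `exp y` moves the measure by at most twice the root of the relative entropy. -/
lemma lone_add_le (h y : X → ℝ) :
    lone (fun x => h x + y x) h ≤
      2 * Real.sqrt (Real.log (∑ x, gw h x * Real.exp (y x)) - gmn h y) := by
  set f : X → ℝ := fun x => if gw h x ≤ gw (fun x => h x + y x) x then 1 else -1 with hf
  have hb : ∀ x, |f x| ≤ 1 := fun x => by simp only [f]; split <;> norm_num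
  have := abs_tilt_sub_le (gw_pos h) (sum_gw h) y f hb
  refine le_trans (le_of_eq ?_) ((le_abs_self _).trans this)
  rw [Finset.sum_div, ← Finset.sum_sub_distrib, lone]
  refine Finset.sum_congr rfl fun x _ => ?_
  rw [← div_mul_eq_mul_div, ← gw_add_eq, ← sub_mul]
  simp only [f]
  split
  · rw [mul_one, abs_of_nonneg (by linarith)]
  · rw [abs_of_nonpos (by linarith)]; ring

/-- Jensen: the gain of the larger exponent. -/
lemma log_gain_le (h G G' : X → ℝ) :
    Real.log (gmn h fun x => Real.exp (G x)) - Real.log (gmn h fun x => Real.exp (G' x)) ≤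
      gmn (fun x => h x + G x) (fun x => G x - G' x) := by
  have hG : ∀ G : X → ℝ, 0 < gmn h fun x => Real.exp (G x) := fun G =>
    Finset.sum_pos (fun x _ => mul_pos (gw_pos h x) (Real.exp_pos _)) Finset.univ_nonempty
  have e : gmn (fun x => h x + G x) (fun x => Real.exp (G' x - G x)) =
      (gmn h fun x => Real.exp (G' x)) / gmn h fun x => Real.exp (G x) := by
    simp only [gmn, gw_add_eq, div_mul_eq_mul_div, ← Finset.sum_div, mul_assoc, ← Real.exp_add,
      add_sub_cancel]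
  have hj := (convexOn_exp).map_sum_le (t := Finset.univ) (w := gw fun x => h x + G x)
    (p := fun x => G' x - G x) (fun x _ => (gw_pos _ x).le) (sum_gw _) (fun x _ => Set.mem_univ _)
  simp only [smul_eq_mul] at hj
  have h2 : gmn (fun x => h x + G x) (fun x => G' x - G x) ≤
      Real.log ((gmn h fun x => Real.exp (G' x)) / gmn h fun x => Real.exp (G x)) := by
    rw [← e, Real.le_log_iff_exp_le (by rw [e]; exact div_pos (hG G') (hG G))]
    exact hj
  rw [Real.log_div (hG G').ne' (hG G).ne'] at h2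
  have e2 : gmn (fun x => h x + G x) (fun x => G x - G' x) =
      -gmn (fun x => h x + G x) (fun x => G' x - G x) := by
    simp only [gmn, ← Finset.sum_neg_distrib]
    exact Finset.sum_congr rfl fun x _ => by ring
  linarith

variable {Φ Φ' : X → ℝ}

lemma one_le_gmn (h : X → ℝ) (hΦ : ∀ x, 1 ≤ Φ x) : 1 ≤ gmn h Φ :=
  le_of_eq_of_le (gmn_const h 1).symm (gmn_mono h hΦ)

/-- Log-averages of weights above one are Lipschitz. -/
lemma abs_log_gmn_sub_le (h : X → ℝ) (hΦ : ∀ x, 1 ≤ Φ x) (hΦ' : ∀ x, 1 ≤ Φ' x) :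
    |Real.log (gmn h Φ) - Real.log (gmn h Φ')| ≤ gmn h (fun x => |Φ x - Φ' x|) := by
  have key : ∀ a b : X → ℝ, (∀ x, 1 ≤ a x) → (∀ x, 1 ≤ b x) →
      Real.log (gmn h a) - Real.log (gmn h b) ≤ gmn h (fun x => |a x - b x|) := fun a b ha hb => by
    have h1 : 1 ≤ gmn h b := one_le_gmn h hb
    have h0 : 0 < gmn h a := one_pos.trans_le (one_le_gmn h ha)
    rw [← Real.log_div h0.ne' (by linarith)]
    refine (Real.log_le_sub_one_of_pos (div_pos h0 (by linarith))).trans ?_
    rw [div_sub_one (by linarith : gmn h b ≠ 0)]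
    have h2 : gmn h a - gmn h b ≤ gmn h (fun x => |a x - b x|) := by
      simp only [gmn, ← Finset.sum_sub_distrib, ← mul_sub]
      exact Finset.sum_le_sum fun x _ => mul_le_mul_of_nonneg_left (le_abs_self _) (gw_nonneg h x)
    have h3 : 0 ≤ gmn h (fun x => |a x - b x|) := gmn_nonneg h fun x => abs_nonneg _
    rw [div_le_iff₀ (by linarith)]
    nlinarith
  refine abs_le.2 ⟨?_, key Φ Φ' hΦ hΦ'⟩
  have := key Φ' Φ hΦ' hΦ
  simp only [abs_sub_comm (Φ' _)] at this
  linarith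

/-- Reweightings by weights above one. -/
lemma lone_log_le (h : X → ℝ) (hΦ : ∀ x, 1 ≤ Φ x) (hΦ' : ∀ x, 1 ≤ Φ' x) :
    lone (fun x => h x + Real.log (Φ x)) (fun x => h x + Real.log (Φ' x)) ≤
      2 * gmn h (fun x => |Φ x - Φ' x|) := by
  have e : ∀ Ψ : X → ℝ, (∀ x, 1 ≤ Ψ x) → ∀ x,
      gw (fun x => h x + Real.log (Ψ x)) x = gw h x * Ψ x / gmn h Ψ := fun Ψ hΨ x => by
    rw [gw_add_eq]
    simp only [gmn, Real.exp_log (one_pos.trans_le (hΨ _))]
  set a := gmn h Φ with hadef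
  set b := gmn h Φ' with hbdef
  have ha : 1 ≤ a := one_le_gmn h hΦ
  have hb : 1 ≤ b := one_le_gmn h hΦ'
  have hd : |a - b| ≤ gmn h (fun x => |Φ x - Φ' x|) := by
    simp only [a, b, gmn, ← Finset.sum_sub_distrib, ← mul_sub]
    refine (Finset.abs_sum_le_sum_abs _ _).trans_eq (Finset.sum_congr rfl fun x _ => ?_)
    rw [abs_mul, abs_of_pos (gw_pos h x)]
  have hx : ∀ x, |gw h x * Φ x / a - gw h x * Φ' x / b| ≤
      gw h x * |Φ x - Φ' x| / a + gw h x * Φ' x / b * (|a - b| / a) := fun x => by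
    rw [show gw h x * Φ x / a - gw h x * Φ' x / b =
      gw h x * (Φ x - Φ' x) / a + gw h x * Φ' x / b * ((b - a) / a) by field_simp; ring]
    refine (abs_add_le _ _).trans_eq ?_
    rw [abs_div, abs_mul, abs_of_pos (gw_pos h x), abs_of_pos (by linarith : (0:ℝ) < a), abs_mul,
      abs_div, abs_div (b - a), abs_sub_comm b a, abs_of_pos (by linarith : (0:ℝ) < b),
      abs_of_pos (by linarith : (0:ℝ) < a),
      abs_of_pos (mul_pos (gw_pos h x) (by linarith [hΦ' x]))]
  rw [lone]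
  simp only [e Φ hΦ, e Φ' hΦ', ← hadef, ← hbdef]
  refine (Finset.sum_le_sum fun x _ => hx x).trans ?_
  rw [Finset.sum_add_distrib, ← Finset.sum_mul, ← Finset.sum_div, ← Finset.sum_div]
  rw [show ∑ x, gw h x * Φ' x = b from rfl, div_self (by linarith : b ≠ 0), one_mul]
  have h0 : 0 ≤ gmn h (fun x => |Φ x - Φ' x|) := gmn_nonneg h fun x => abs_nonneg _
  have h1 := div_le_self h0 ha
  have h2 := div_le_self (abs_nonneg (a - b)) ha
  simp only [gmn] at *
  linarith

/-- A reweighting as a ratio of replica averages. -/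
lemma rav_tilt (h : X → ℝ) (hΦ : ∀ x, 0 < Φ x) (Θ : (Fin r → X) → ℝ) :
    rav (fun x => h x + Real.log (Φ x)) Θ =
      rav h (fun x => (∏ l, Φ (x l)) * Θ x) / rav (r := 1) h (fun x => Φ (x 0)) ^ r := by
  have e : ∀ x, gw (fun x => h x + Real.log (Φ x)) x = gw h x * Φ x / gmn h Φ := fun x => by
    rw [gw_add_eq]
    simp only [gmn, Real.exp_log (hΦ _)]
  rw [rav_one, rav_eq, rav_eq, Finset.sum_div]
  refine Finset.sum_congr rfl fun x _ => ?_
  simp only [e, Finset.prod_div_distrib, Finset.prod_mul_distrib, Finset.prod_const, Finset.card_univ,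
    Fintype.card_fin]
  ring

/-- The first of two replicas alone. -/
lemma rav_first (h : X → ℝ) (f : X → ℝ) : rav (r := 2) h (fun x => f (x 0)) = gmn h f := by
  rw [rav_eq, ← (finTwoArrowEquiv X).symm.sum_comp, Fintype.sum_prod_type, gmn]
  refine Finset.sum_congr rfl fun a _ => ?_
  simp only [Fin.prod_univ_two, finTwoArrowEquiv_symm_apply, Matrix.cons_val_zero, Matrix.cons_val_one]
  rw [← Finset.sum_mul, ← Finset.mul_sum, sum_gw, mul_one]

end Nonempty

/-- Relabelling configurations. -/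
lemma rav_equiv (e : X ≃ Y) (h : Y → ℝ) (Θ : (Fin r → Y) → ℝ) :
    rav (fun x => h (e x)) (fun x => Θ fun l => e (x l)) = rav h Θ := by
  simp only [rav]
  rw [e.sum_comp fun y => Real.exp (h y)]
  congr 1
  exact Fintype.sum_equiv (Equiv.arrowCongr (Equiv.refl _) e) _ _ fun x => rfl

/-- The weight of a configuration after summing an extra variable. -/
noncomputable def hSum [Nonempty Y] (h : X × Y → ℝ) (x : X) : ℝ :=
  Real.log (∑ y, Real.exp (h (x, y)))

/-- Summing an extra variable. -/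
lemma rav_sum [Nonempty X] [Nonempty Y] (h : X × Y → ℝ) (Θ : (Fin r → X × Y) → ℝ) :
    rav h Θ = rav (hSum h) fun x =>
      ∑ y : Fin r → Y, (∏ l, gw (fun y => h (x l, y)) (y l)) * Θ fun l => (x l, y l) := by
  have e : ∀ p : X × Y, gw h p = gw (hSum h) p.1 * gw (fun y => h (p.1, y)) p.2 := fun p => by
    simp only [gw, hSum, Fintype.sum_prod_type,
      Real.exp_log (zpos fun y => h (_, y))]
    rw [div_mul_div_comm, mul_comm, mul_div_mul_right _ _ (zpos fun y => h (p.1, y)).ne']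
  rw [rav_eq, rav_eq]
  simp only [Finset.mul_sum]
  rw [← Fintype.sum_prod_type']
  refine Fintype.sum_equiv (Equiv.arrowProdEquivProdArrow _ _ _) _ _ fun p => ?_
  simp only [e, Finset.prod_mul_distrib, Equiv.arrowProdEquivProdArrow, Equiv.coe_fn_mk]
  ring

end Vale.Agent.P166F.Low.Tgt
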