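import Vale.Agent.P166F.Low.Target.Gain

/-!
P166: averages in the base reweighted by the weight of an added spin, as functions of the block norms.
-/

namespace Vale.Agent.P166F.Low.Tgt

open MeasureTheory ProbabilityTheory Filter
open scoped RealInnerProductSpace
open Vale.Agent.P166 (spin)
open Vale.Agent.P166N.Spectrum (OrthInvLaw)

section Generic

variable {X : Type} [Fintype X] [Nonempty X] {r : ℕ}

/-- One replica alone. -/
lemma rav_at (h : X → ℝ) (f : X → ℝ) (a : Fin r) : rav h (fun x => f (x a)) = gmn h f := by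
  rw [rav_eq]
  have e : ∀ x : Fin r → X, (∏ l, gw h (x l)) * f (x a) =
      ∏ l, gw h (x l) * (if l = a then f (x l) else 1) := fun x => by
    rw [Finset.prod_mul_distrib, Fintype.prod_ite_eq']
  simp only [e]
  rw [← Fintype.prod_sum fun (l : Fin r) σ => gw h σ * if l = a then f σ else 1,
    Finset.prod_eq_single a (fun l _ hl => by simp [hl, sum_gw]) (by simp)]
  simp [gmn]

omit [Nonempty X] in
/-- Replica averages differ by at most the average of the differences. -/
lemma abs_rav_sub_le_rav (h : X → ℝ) {Θ Θ' Ξ : (Fin r → X) → ℝ}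
    (hΞ : ∀ x, |Θ x - Θ' x| ≤ Ξ x) : |rav h Θ - rav h Θ'| ≤ rav h Ξ := by
  rw [rav_eq, rav_eq, rav_eq, ← Finset.sum_sub_distrib]
  refine (Finset.abs_sum_le_sum_abs _ _).trans (Finset.sum_le_sum fun x _ => ?_)
  rw [← mul_sub, abs_mul, abs_of_nonneg (Finset.prod_nonneg fun l _ => gw_nonneg h (x l))]
  exact mul_le_mul_of_nonneg_left (hΞ x) (Finset.prod_nonneg fun l _ => gw_nonneg h (x l))

/-- Sums over replicas. -/
lemma rav_sum_at (h : X → ℝ) (f : X → ℝ) :
    rav h (fun x : Fin r → X => ∑ l, f (x l)) = (r : ℝ) * gmn h f := by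
  have e : rav h (fun x : Fin r → X => ∑ l, f (x l)) = ∑ l : Fin r, rav h (fun x => f (x l)) := by
    simp only [rav_eq, Finset.mul_sum]
    exact Finset.sum_comm
  rw [e]
  simp [rav_at]

/-- A reweighting by a weight in `[1, M]` enlarges means of nonnegative functions at most `M` times. -/
lemma gmn_log_le (h : X → ℝ) {Φ f : X → ℝ} {M : ℝ} (hΦ : ∀ x, 1 ≤ Φ x ∧ Φ x ≤ M)
    (hf : ∀ x, 0 ≤ f x) : gmn (fun x => h x + Real.log (Φ x)) f ≤ M * gmn h f := by
  have h1 : 1 ≤ gmn h Φ := one_le_gmn h fun x => (hΦ x).1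
  rw [← rav_one, rav_tilt h (fun x => one_pos.trans_le (hΦ x).1), rav_one, pow_one]
  simp only [Fin.prod_univ_one]
  rw [rav_one (f := fun x => Φ x * f x)]
  refine (div_le_self (gmn_nonneg h fun x => mul_nonneg (zero_le_one.trans (hΦ x).1) (hf x)) h1).trans ?_
  refine (gmn_mono h (f' := fun x => M * f x) fun x =>
    mul_le_mul_of_nonneg_right (hΦ x).2 (hf x)).trans_eq ?_
  simp only [gmn, Finset.mul_sum]
  exact Finset.sum_congr rfl fun x _ => by ring

lemma abs_prod_sub_prod_le {ι : Type} (s : Finset ι) {u v : ι → ℝ} (hu : ∀ l, |u l| ≤ 1)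
    (hv : ∀ l, |v l| ≤ 1) : |∏ l ∈ s, u l - ∏ l ∈ s, v l| ≤ ∑ l ∈ s, |u l - v l| := by
  classical
  induction s using Finset.induction with
  | empty => simp
  | insert a t ha ih =>
    rw [Finset.prod_insert ha, Finset.prod_insert ha, Finset.sum_insert ha,
      show u a * ∏ l ∈ t, u l - v a * ∏ l ∈ t, v l =
        (u a - v a) * ∏ l ∈ t, u l + v a * (∏ l ∈ t, u l - ∏ l ∈ t, v l) by ring]
    refine (abs_add_le _ _).trans (add_le_add ?_ ?_) <;> rw [abs_mul]
    · refine mul_le_of_le_one_right (abs_nonneg _) ?_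
      rw [Finset.abs_prod]
      exact Finset.prod_le_one (fun l _ => abs_nonneg _) fun l _ => hu l
    · exact (mul_le_of_le_one_left (abs_nonneg _) (hv a)).trans ih

end Generic

variable {κ : Type} [Fintype κ] [DecidableEq κ] {e f : κ} {N n P r : ℕ} {dl : κ → ℝ} {s : ℝ}
  {y : CIdx Unit P → ℝ} {ν : Measure (Fin N → Fin N → ℝ)}

/-- The tilted mean of an observable of the new spin at given fields. -/
noncomputable def mix (dl : κ → ℝ) (e : κ) (T : κ → ℝ) (L : ℝ) (k : Bool → ℝ) (z : Fld e → ℝ) : ℝ :=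
  (Real.exp (min (spinQ dl e T z 1) L) * k true + Real.exp (min (spinQ dl e T z (-1)) L) * k false) /
    (Real.exp (min (spinQ dl e T z 1) L) + Real.exp (min (spinQ dl e T z (-1)) L))

lemma mix_one (T : κ → ℝ) (L : ℝ) (z : Fld e → ℝ) : mix dl e T L (fun _ => 1) z = 1 := by
  rw [mix, mul_one, mul_one, div_self]
  exact (add_pos (Real.exp_pos _) (Real.exp_pos _)).ne'

lemma mix_spin (T : κ → ℝ) (L : ℝ) (z : Fld e → ℝ) : mix dl e T L spin z = spinT dl e T L z := by
  simp [mix, spinT, spin, sub_eq_add_neg]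

lemma abs_mix_le (T : κ → ℝ) (L : ℝ) {k : Bool → ℝ} (hk : ∀ t, |k t| ≤ 1) (z : Fld e → ℝ) :
    |mix dl e T L k z| ≤ 1 := by
  have h1 := Real.exp_pos (min (spinQ dl e T z 1) L)
  have h2 := Real.exp_pos (min (spinQ dl e T z (-1)) L)
  rw [mix, abs_div, abs_of_pos (add_pos h1 h2), div_le_one (add_pos h1 h2)]
  refine (abs_add_le _ _).trans (add_le_add ?_ ?_) <;>
    rw [abs_mul, abs_of_pos (Real.exp_pos _)] <;>
    exact mul_le_of_le_one_right (Real.exp_pos _).le (hk _)

lemma abs_spinT'_le_one (T : κ → ℝ) (z : Fld e → ℝ) : |spinT' dl e T z| ≤ 1 := by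
  rw [spinT']
  exact abs_ratio_le_one _ _

/-- The ratio is Lipschitz in the two exponents. -/
lemma abs_ratio_sub_le (a b a' b' : ℝ) :
    |(Real.exp a - Real.exp b) / (Real.exp a + Real.exp b) -
        (Real.exp a' - Real.exp b') / (Real.exp a' + Real.exp b')| ≤
      2 * (|a - a'| + |b - b'|) := by
  have hform : ∀ a b : ℝ, (Real.exp a - Real.exp b) / (Real.exp a + Real.exp b) =
      2 / (1 + Real.exp (b - a)) - 1 := fun a b => by
    have := Real.exp_pos a
    have := Real.exp_pos b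
    rw [Real.exp_sub]
    field_simp
    ring
  have key : ∀ c c' : ℝ, c ≤ c' →
      0 ≤ 2 / (1 + Real.exp c) - 2 / (1 + Real.exp c') ∧
        2 / (1 + Real.exp c) - 2 / (1 + Real.exp c') ≤ 2 * (c' - c) := fun c c' h => by
    have h0 := Real.exp_pos c
    have h0' := Real.exp_pos c'
    have hle := Real.exp_le_exp.2 h
    have e1 : Real.exp c' * (1 - (c' - c)) ≤ Real.exp c := by
      have := mul_le_mul_of_nonneg_left (Real.add_one_le_exp (c - c')) h0'.le
      rw [← Real.exp_add, add_sub_cancel] at this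
      linarith
    refine ⟨sub_nonneg.2 (div_le_div_of_nonneg_left zero_le_two (by linarith) (by linarith)), ?_⟩
    rw [div_sub_div _ _ (by linarith) (by linarith), div_le_iff₀ (by positivity)]
    nlinarith [mul_nonneg (sub_nonneg.2 h) h0.le, mul_nonneg (mul_nonneg (sub_nonneg.2 h) h0.le) h0'.le]
  rw [hform, hform, sub_sub_sub_cancel_right]
  rcases le_total (b - a) (b' - a') with h | h
  · rw [abs_of_nonneg (key _ _ h).1]
    linarith [(key _ _ h).2, le_abs_self (a - a'), neg_abs_le (b - b')]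
  · rw [abs_of_nonpos (by linarith [(key _ _ h).1])]
    linarith [(key _ _ h).2, neg_abs_le (a - a'), le_abs_self (b - b')]

/-- The added spin's mean moves by little in the block norms. -/
lemma abs_spinT'_sub_le {T T' : κ → ℝ} (hT : Unit0 T) (hT' : Unit0 T') (z : Fld e → ℝ) :
    |spinT' dl e T z - spinT' dl e T' z| ≤
      32 * (∑ j, |dl j|) * (∑ i, |T i - T' i|) * zn z := by
  refine (abs_ratio_sub_le _ _ _ _).trans ?_
  linarith [abs_spinQ_sub_le (dl := dl) hT hT' z (one_pow 2 : (1 : ℝ) ^ 2 = 1),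
    abs_spinQ_sub_le (dl := dl) hT hT' z (by norm_num : (-1 : ℝ) ^ 2 = 1)]

/-- The averages in the base reweighted by `Φ`, over the law of the rotation. -/
noncomputable def tU (dl : κ → ℝ) (n : ℕ) (b : Base e f N) (s : ℝ) (y : CIdx Unit P → ℝ)
    (ν : Measure (Fin N → Fin N → ℝ)) (Φ : (Fld e → ℝ) → ℝ)
    (Θ : (Fin N → Fin N → ℝ) → (Fin r → Fin N → Bool) → ℝ) : ℝ :=
  ∫ U, tint dl n b s y Φ U (Θ U) ∂ν

omit [Fintype κ] in
lemma integrable_tint_field (b : Base e f N) (Φ : (Fld e → ℝ) → ℝ) (U : Fin N → Fin N → ℝ)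
    (Θ : (Fin r → Fin N → Bool) → ℝ) :
    Integrable (fun g => rav (fun σ => pertH dl n b.lbl f s y U g σ + Real.log (Φ (b.fields U σ))) Θ)
      (stdGaussian (EuclideanSpace ℝ (GIdx Unit P N))) := by
  have hh : ∀ σ, Continuous fun g =>
      pertH dl n b.lbl f s y U g σ + Real.log (Φ (b.fields U σ)) := fun σ =>
    ((continuous_pertH σ).comp (continuous_const.prodMk continuous_id)).add continuous_const
  refine Integrable.of_bound (continuous_rav hh Θ).aestronglyMeasurable
    (∑ x, |Θ x|) (Eventually.of_forall fun g => (Real.norm_eq_abs _).trans_le (abs_rav_le _ fun x =>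
      Finset.single_le_sum (f := fun x => |Θ x|) (fun x _ => abs_nonneg _) (Finset.mem_univ x)))

omit [Fintype κ] in
lemma abs_tint_le (b : Base e f N) (Φ : (Fld e → ℝ) → ℝ) (U : Fin N → Fin N → ℝ)
    {Θ : (Fin r → Fin N → Bool) → ℝ} {B : ℝ} (hB : ∀ x, |Θ x| ≤ B) :
    |tint dl n b s y Φ U Θ| ≤ B := by
  have h := norm_integral_le_of_norm_le_const (μ := stdGaussian (EuclideanSpace ℝ (GIdx Unit P N)))
    (f := fun g => rav (fun σ => pertH dl n b.lbl f s y U g σ + Real.log (Φ (b.fields U σ))) Θ)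
    (Eventually.of_forall fun g => (Real.norm_eq_abs _).trans_le (abs_rav_le _ hB))
  simpa [tint, probReal_univ] using h

omit [Fintype κ] in
lemma abs_tint_sub_le (b : Base e f N) (Φ : (Fld e → ℝ) → ℝ) (U : Fin N → Fin N → ℝ)
    {Θ Θ' Ξ : (Fin r → Fin N → Bool) → ℝ} (h : ∀ x, |Θ x - Θ' x| ≤ Ξ x) :
    |tint dl n b s y Φ U Θ - tint dl n b s y Φ U Θ'| ≤ tint dl n b s y Φ U Ξ := by
  rw [tint, tint, ← integral_sub (integrable_tint_field b Φ U Θ) (integrable_tint_field b Φ U Θ')]
  exact (abs_integral_le_integral_abs).trans (integral_mono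
    ((integrable_tint_field b Φ U Θ).sub (integrable_tint_field b Φ U Θ')).abs
    (integrable_tint_field b Φ U Ξ) fun g => abs_rav_sub_le_rav _ h)

omit [Fintype κ] in
lemma tint_at (b : Base e f N) (Φ : (Fld e → ℝ) → ℝ) (U : Fin N → Fin N → ℝ)
    (F : (Fin N → Bool) → ℝ) (a : Fin r) :
    tint dl n b s y Φ U (fun x => F (x a)) =
      tint dl n b s y Φ U (fun x : Fin 1 → Fin N → Bool => F (x 0)) := by
  simp only [tint, rav_at]

omit [Fintype κ] in
lemma tint_sum_at (b : Base e f N) (Φ : (Fld e → ℝ) → ℝ) (U : Fin N → Fin N → ℝ)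
    (F : (Fin N → Bool) → ℝ) :
    tint dl n b s y Φ U (fun x : Fin r → Fin N → Bool => ∑ l, F (x l)) =
      (r : ℝ) * tint dl n b s y Φ U (fun x : Fin 1 → Fin N → Bool => F (x 0)) := by
  simp only [tint, rav_at, rav_sum_at, integral_const_mul]

omit [Fintype κ] in
lemma tint_lin (b : Base e f N) (Φ : (Fld e → ℝ) → ℝ) (U : Fin N → Fin N → ℝ)
    (F G : (Fin r → Fin N → Bool) → ℝ) (c : ℝ) :
    tint dl n b s y Φ U (fun x => F x + c * G x) =
      tint dl n b s y Φ U F + c * tint dl n b s y Φ U G := by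
  rw [tint, tint, tint, ← integral_const_mul,
    ← integral_add (integrable_tint_field b Φ U F) ((integrable_tint_field b Φ U G).const_mul c)]
  refine integral_congr_ae (Eventually.of_forall fun g => ?_)
  simp only [rav_eq, mul_add, Finset.sum_add_distrib, Finset.mul_sum]
  exact congrArg _ (Finset.sum_congr rfl fun x _ => by ring)

omit [Fintype κ] in
lemma tint_le_gint (b : Base e f N) {Φ : (Fld e → ℝ) → ℝ} {M : ℝ} (hΦ : ∀ z, 1 ≤ Φ z ∧ Φ z ≤ M)
    (U : Fin N → Fin N → ℝ) {F : (Fin N → Bool) → ℝ} (hF : ∀ σ, 0 ≤ F σ) :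
    tint dl n b s y Φ U (fun x : Fin 1 → Fin N → Bool => F (x 0)) ≤
      M * gint dl n b.lbl f s y U (fun x : Fin 1 → Fin N → Bool => F (x 0)) := by
  rw [gint, ← integral_const_mul]
  refine integral_mono (integrable_tint_field b Φ U _) ((integrable_rav U _).const_mul M) fun g => ?_
  simp only [rav_one]
  exact gmn_log_le _ (fun σ => hΦ _) hF

omit [Fintype κ] in
/-- Averages move by the mean distance of the weights. -/
lemma abs_tint_weight_le (b : Base e f N) {Φ Φ' : (Fld e → ℝ) → ℝ}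
    (hΦ : ∀ z, 1 ≤ Φ z) (hΦ' : ∀ z, 1 ≤ Φ' z) (U : Fin N → Fin N → ℝ)
    {Θ : (Fin r → Fin N → Bool) → ℝ} {B : ℝ} (hB : ∀ x, |Θ x| ≤ B) (hB0 : 0 ≤ B) :
    |tint dl n b s y Φ U Θ - tint dl n b s y Φ' U Θ| ≤
      B * r * 2 * gint dl n b.lbl f s y U
        (fun x : Fin 1 → Fin N → Bool => |Φ (b.fields U (x 0)) - Φ' (b.fields U (x 0))|) := by
  rw [tint, tint, ← integral_sub (integrable_tint_field b Φ U Θ) (integrable_tint_field b Φ' U Θ),
    gint, ← integral_const_mul]
  refine (abs_integral_le_integral_abs).trans (integral_mono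
    ((integrable_tint_field b Φ U Θ).sub (integrable_tint_field b Φ' U Θ)).abs
    ((integrable_rav U _).const_mul _) fun g => ?_)
  refine (abs_rav_sub_le _ _ hB hB0).trans ?_
  simp only [rav_one (f := fun σ => |Φ (b.fields U σ) - Φ' (b.fields U σ)|)]
  rw [mul_assoc (B * r) 2]
  exact mul_le_mul_of_nonneg_left (lone_log_le _ (fun σ => hΦ _) fun σ => hΦ' _)
    (mul_nonneg hB0 (Nat.cast_nonneg r))

lemma measurable_tint {Z : Type} [MeasurableSpace Z] (b : Base e f N) {Φ : Z → (Fld e → ℝ) → ℝ}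
    (hΦ : Measurable fun p : Z × (Fld e → ℝ) => Φ p.1 p.2)
    {Θ : Z → (Fin N → Fin N → ℝ) → (Fin r → Fin N → Bool) → ℝ}
    (hΘ : ∀ x, Measurable fun p : Z × (Fin N → Fin N → ℝ) => Θ p.1 p.2 x) :
    Measurable fun p : Z × (Fin N → Fin N → ℝ) => tint dl n b s y (Φ p.1) p.2 (Θ p.1 p.2) := by
  have hH : ∀ σ, Measurable fun q : (Z × (Fin N → Fin N → ℝ)) × EuclideanSpace ℝ (GIdx Unit P N) =>
      pertH dl n b.lbl f s y q.1.2 q.2 σ + Real.log (Φ q.1.1 (b.fields q.1.2 σ)) := fun σ => by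
    refine (((continuous_pertH σ).measurable.comp
      ((measurable_snd.comp measurable_fst).prodMk measurable_snd))).add ?_
    exact (hΦ.comp ((measurable_fst.comp measurable_fst).prodMk ((continuous_pi fun x =>
      continuous_fields b σ x).measurable.comp (measurable_snd.comp measurable_fst)))).log
  have hr : Measurable fun q : (Z × (Fin N → Fin N → ℝ)) × EuclideanSpace ℝ (GIdx Unit P N) =>
      rav (fun σ => pertH dl n b.lbl f s y q.1.2 q.2 σ + Real.log (Φ q.1.1 (b.fields q.1.2 σ)))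
        (Θ q.1.1 q.1.2) :=
    (Finset.measurable_fun_sum _ fun x _ => (Finset.measurable_fun_prod _ fun l _ =>
      (hH (x l)).exp).mul ((hΘ x).comp measurable_fst)).div
      ((Finset.measurable_fun_sum _ fun σ _ => (hH σ).exp).pow_const r)
  exact hr.stronglyMeasurable.integral_prod_right'.measurable

lemma measurable_spinW_joint (dl : κ → ℝ) (L : ℝ) :
    Measurable fun p : (κ → ℝ) × (Fld e → ℝ) => spinW dl e p.1 L p.2 :=
  ((((measurable_spinQ dl 1).min measurable_const).exp).add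
    (((measurable_spinQ dl (-1)).min measurable_const).exp)).div_const 2

lemma measurable_mix_joint (dl : κ → ℝ) (L : ℝ) (k : Bool → ℝ) :
    Measurable fun p : (κ → ℝ) × (Fld e → ℝ) => mix dl e p.1 L k p.2 := by
  have h : ∀ s : ℝ, Measurable fun p : (κ → ℝ) × (Fld e → ℝ) =>
      Real.exp (min (spinQ dl e p.1 p.2 s) L) := fun s =>
    ((measurable_spinQ dl s).min measurable_const).exp
  exact (((h 1).mul_const _).add ((h (-1)).mul_const _)).div ((h 1).add (h (-1)))

lemma integrable_tint (b : Base e f N) (hν : OrthInvLaw N ν) {Φ : (Fld e → ℝ) → ℝ}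
    (hΦ : Measurable Φ) {Θ : (Fin N → Fin N → ℝ) → (Fin r → Fin N → Bool) → ℝ}
    (hΘ : ∀ x, Measurable fun U => Θ U x) {B : ℝ} (hB : ∀ U x, IsOrth U → |Θ U x| ≤ B) :
    Integrable (fun U => tint dl n b s y Φ U (Θ U)) ν := by
  have := hν.prob
  have h1 : Measurable fun p : Unit × (Fld e → ℝ) => Φ p.2 := hΦ.comp measurable_snd
  have h2 : ∀ x, Measurable fun p : Unit × (Fin N → Fin N → ℝ) => Θ p.2 x :=
    fun x => (hΘ x).comp measurable_snd
  have h3 : Measurable fun p : Unit × (Fin N → Fin N → ℝ) => tint dl n b s y Φ p.2 (Θ p.2) :=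
    measurable_tint (Φ := fun (_ : Unit) z => Φ z) (Θ := fun (_ : Unit) U x => Θ U x) b h1 h2
  have h4 : Measurable fun U : Fin N → Fin N → ℝ => ((), U) := measurable_prodMk_left
  have hm := h3.comp h4
  simp only [Function.comp_def] at hm
  exact Integrable.of_bound hm.aestronglyMeasurable B (hν.orth.mono fun U hU =>
    (Real.norm_eq_abs _).trans_le (abs_tint_le b Φ U fun x => hB U x hU))

omit [Fintype κ] in
lemma abs_tU_le (b : Base e f N) (hν : OrthInvLaw N ν) (Φ : (Fld e → ℝ) → ℝ)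
    {Θ : (Fin N → Fin N → ℝ) → (Fin r → Fin N → Bool) → ℝ} {B : ℝ}
    (hB : ∀ U x, IsOrth U → |Θ U x| ≤ B) : |tU dl n b s y ν Φ Θ| ≤ B := by
  have := hν.prob
  have h := norm_integral_le_of_norm_le_const (μ := ν) (f := fun U => tint dl n b s y Φ U (Θ U))
    (hν.orth.mono fun U hU => (Real.norm_eq_abs _).trans_le (abs_tint_le b Φ U fun x => hB U x hU))
  simpa [tU, probReal_univ] using h

/-- The reweighted averages as ratios of replica averages. -/
lemma pmean_tilt_eq (b : Base e f N) (hν : OrthInvLaw N ν) {Φ : (Fld e → ℝ) → ℝ}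
    (hΦm : Measurable Φ) (hΦ : ∀ z, 0 < Φ z)
    {Θ : (Fin N → Fin N → ℝ) → (Fin r → Fin N → Bool) → ℝ}
    (hΘ : ∀ x, Measurable fun U => Θ U x) {B : ℝ} (hB : ∀ U x, IsOrth U → |Θ U x| ≤ B) :
    pmean ν (fun U g => pgibbs dl n b.lbl f s y U g (fun x => (∏ l, Φ (b.fields U (x l))) * Θ U x) /
        pgibbs dl n b.lbl f s y U g (r := 1) (fun x => Φ (b.fields U (x 0))) ^ r) =
      tU dl n b s y ν Φ Θ := by
  have := hν.prob
  have e : ∀ U g, pgibbs dl n b.lbl f s y U g (fun x => (∏ l, Φ (b.fields U (x l))) * Θ U x) /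
      pgibbs dl n b.lbl f s y U g (r := 1) (fun x => Φ (b.fields U (x 0))) ^ r =
      rav (fun σ => pertH dl n b.lbl f s y U g σ + Real.log (Φ (b.fields U σ))) (Θ U) := fun U g =>
    (rav_tilt (fun σ => pertH dl n b.lbl f s y U g σ) (fun σ => hΦ (b.fields U σ)) (Θ U)).symm
  simp only [e, tU, tint, pmean]
  refine integral_prod _ (Integrable.of_bound (Measurable.aestronglyMeasurable ?_) B
    ((ae_orth_prod hν).mono fun z hz =>
      (Real.norm_eq_abs _).trans_le (abs_rav_le _ fun x => hB z.1 x hz)))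
  have hH : ∀ σ, Measurable fun z : (Fin N → Fin N → ℝ) × EuclideanSpace ℝ (GIdx Unit P N) =>
      pertH dl n b.lbl f s y z.1 z.2 σ + Real.log (Φ (b.fields z.1 σ)) := fun σ =>
    (continuous_pertH σ).measurable.add ((hΦm.comp ((continuous_pi fun x =>
      continuous_fields b σ x).measurable.comp measurable_fst)).log)
  exact (Finset.measurable_fun_sum _ fun x _ => (Finset.measurable_fun_prod _ fun l _ =>
    (hH (x l)).exp).mul ((hΘ x).comp measurable_fst)).div
    ((Finset.measurable_fun_sum _ fun σ _ => (hH σ).exp).pow_const r)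

end Vale.Agent.P166F.Low.Tgt
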