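import Vale.Agent.P166F.Haar.Stab
import Vale.Agent.P166F.Low.Basic
import Vale.Agent.P166F.Low.Target.Gibbs

/-!
P166: averages over the field and over arrays, maps respecting the classes, and moments of exchangeable
rows.
-/

namespace Vale.Agent.P166F.Low.Tgt

open MeasureTheory ProbabilityTheory Matrix Filter
open scoped RealInnerProductSpace
open Vale.Agent.P166F.Orth (mm mm_apply cube)
open Vale.Agent.P166N.Spectrum (OrthInvLaw)

variable {κ : Type} [DecidableEq κ] {M n P r : ℕ} {dl : κ → ℝ} {lbl : Fin M → κ} {f : κ} {s : ℝ}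
  {y : CIdx Unit P → ℝ}

/-- Orthogonality of an array. -/
def IsOrth (U : Fin M → Fin M → ℝ) : Prop := (of U)ᵀ * of U = 1

lemma IsOrth.mem_cube {U : Fin M → Fin M → ℝ} (hU : IsOrth U) : U ∈ cube M :=
  Orth.Fix.mem_cube (S := ∅) ⟨hU, fun i hi => absurd hi (Finset.notMem_empty i)⟩

lemma IsOrth.mul {O U : Fin M → Fin M → ℝ} (hO : IsOrth O) (hU : IsOrth U) : IsOrth (mm O U) :=
  (Orth.Fix.mul (S := ∅) ⟨hO, fun i hi => absurd hi (Finset.notMem_empty i)⟩
    ⟨hU, fun i hi => absurd hi (Finset.notMem_empty i)⟩).1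

/-- An orthogonal map preserving the classes. -/
structure Resp (lbl : Fin M → κ) (O : Fin M → Fin M → ℝ) : Prop where
  orth : IsOrth O
  zero : ∀ i j, lbl i ≠ lbl j → O i j = 0

lemma coord_mm (O U : Fin M → Fin M → ℝ) (σ : Fin M → Bool) (i : Fin M) :
    coord (mm O U) σ i = ∑ k, O i k * coord U σ k := by
  simp only [coord, mm_apply, Finset.mul_sum, Finset.sum_mul]
  rw [Finset.sum_comm]
  simp only [mul_assoc]

lemma orth_dot {O : Fin M → Fin M → ℝ} (hO : IsOrth O) (u v : Fin M → ℝ) :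
    ∑ i, (∑ k, O i k * u k) * (∑ k, O i k * v k) = ∑ k, u k * v k := by
  have h : ((of O) *ᵥ u) ⬝ᵥ ((of O) *ᵥ v) = u ⬝ᵥ v := by
    rw [dotProduct_mulVec, ← mulVec_transpose, mulVec_mulVec, hO, one_mulVec]
  simpa [dotProduct, mulVec] using h

/-- The overlap of two configurations in the class `c`. -/
def cOv (lbl : Fin M → κ) (c : κ) (U : Fin M → Fin M → ℝ) (σ τ : Fin M → Bool) : ℝ :=
  ∑ i, if lbl i = c then coord U σ i * coord U τ i else 0

lemma cOv_resp {O : Fin M → Fin M → ℝ} (hO : Resp lbl O) (c : κ) (U : Fin M → Fin M → ℝ)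
    (σ τ : Fin M → Bool) : cOv lbl c (mm O U) σ τ = cOv lbl c U σ τ := by
  set u : Fin M → ℝ := fun k => if lbl k = c then coord U σ k else 0 with hu
  set v : Fin M → ℝ := fun k => if lbl k = c then coord U τ k else 0 with hv
  have e : ∀ (w : Fin M → ℝ) (i : Fin M), (∑ k, O i k * if lbl k = c then w k else 0) =
      if lbl i = c then ∑ k, O i k * w k else 0 := fun w i => by
    by_cases hi : lbl i = c
    · rw [if_pos hi]
      refine Finset.sum_congr rfl fun k _ => ?_
      by_cases hk : lbl k = c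
      · rw [if_pos hk]
      · rw [if_neg hk, hO.zero i k (fun h => hk (h ▸ hi)), mul_zero, zero_mul]
    · rw [if_neg hi]
      refine Finset.sum_eq_zero fun k _ => ?_
      by_cases hk : lbl k = c
      · rw [hO.zero i k (fun h => hi (h.trans hk)), zero_mul]
      · rw [if_neg hk, mul_zero]
  have h := orth_dot hO.orth u v
  simp only [u, v, e] at h
  simp only [cOv, coord_mm]
  refine ((Finset.sum_congr rfl fun i _ => ?_).trans h).trans (Finset.sum_congr rfl fun k _ => ?_)
  · split <;> simp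
  · split <;> simp

lemma inner_featV (U U' : Fin M → Fin M → ℝ) (σ τ : Fin M → Bool) :
    ⟪featV n lbl f U σ, featV n lbl f U' τ⟫ =
      (∑ i, if lbl i = f then coord U σ i * coord U' τ i else 0) / (max n M : ℕ) := by
  simp only [featV, PiLp.inner_apply, RCLike.inner_apply, conj_trivial, Finset.sum_div]
  refine Finset.sum_congr rfl fun i _ => ?_
  split
  · rw [div_mul_div_comm, Real.mul_self_sqrt (Nat.cast_nonneg _), mul_comm]
  · simp

lemma inner_featV_resp {O : Fin M → Fin M → ℝ} (hO : Resp lbl O) (U : Fin M → Fin M → ℝ)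
    (σ τ : Fin M → Bool) :
    ⟪featV n lbl f (mm O U) σ, featV n lbl f (mm O U) τ⟫ =
      ⟪featV n lbl f U σ, featV n lbl f U τ⟫ := by
  rw [inner_featV, inner_featV]
  exact congrArg (· / _) (cOv_resp hO f U σ τ)

lemma gramF_resp {O : Fin M → Fin M → ℝ} (hO : Resp lbl O) (U : Fin M → Fin M → ℝ) {r : ℕ}
    (x : Fin r → Fin M → Bool) (a b : Fin r) :
    gramF n lbl f (mm O U) x a b = gramF n lbl f U x a b := inner_featV_resp hO U _ _

lemma clsEnergy_resp {O : Fin M → Fin M → ℝ} (hO : Resp lbl O) (U : Fin M → Fin M → ℝ)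
    (σ : Fin M → Bool) : clsEnergy dl lbl (mm O U) σ = clsEnergy dl lbl U σ := by
  have h : ∀ U : Fin M → Fin M → ℝ, ∑ i, dl (lbl i) * coord U σ i ^ 2 =
      ∑ c ∈ Finset.univ.image lbl, dl c * cOv lbl c U σ σ := fun U => by
    simp only [cOv, Finset.mul_sum]
    rw [Finset.sum_comm]
    refine Finset.sum_congr rfl fun i _ => ?_
    simp [mul_ite, Finset.sum_ite_eq, sq]
  simp only [clsEnergy, h, cOv_resp hO]

lemma inner_pvec (y : CIdx Unit P → ℝ) (u v : EuclideanSpace ℝ (Fin M)) :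
    ⟪pvec y u, pvec y v⟫ = ∑ e : Mon Unit P, y (Sum.inl e) ^ 2 * ⟪u, v⟫ ^ (e.1 () : ℕ) := by
  simp only [pvec, PiLp.inner_apply, RCLike.inner_apply, conj_trivial, Fintype.sum_sigma,
    Fintype.prod_unique]
  refine Finset.sum_congr rfl fun e _ => ?_
  have h : ∑ i : (j : Unit) → Fin (e.1 j : ℕ) → Fin M,
      (∏ t, v (i () t)) * (∏ t, u (i () t)) = (∑ d, v d * u d) ^ (e.1 () : ℕ) := by
    rw [Fintype.sum_pow]
    exact Fintype.sum_equiv (Equiv.piUnique fun j : Unit => Fin (e.1 j : ℕ) → Fin M) _ _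
      fun i => by simp only [Finset.prod_mul_distrib]; rfl
  rw [← h, Finset.mul_sum]
  exact Finset.sum_congr rfl fun i _ => by ring

/-- The mean over the field of a replica average. -/
noncomputable def gint (dl : κ → ℝ) (n : ℕ) (lbl : Fin M → κ) (f : κ) (s : ℝ)
    (y : CIdx Unit P → ℝ) (U : Fin M → Fin M → ℝ) (Θ : (Fin r → Fin M → Bool) → ℝ) : ℝ :=
  ∫ g, rav (fun σ => pertH dl n lbl f s y U g σ) Θ
    ∂stdGaussian (EuclideanSpace ℝ (GIdx Unit P M))

lemma gint_resp {O : Fin M → Fin M → ℝ} (hO : Resp lbl O) (U : Fin M → Fin M → ℝ)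
    (Θ : (Fin r → Fin M → Bool) → ℝ) :
    gint dl n lbl f s y (mm O U) Θ = gint dl n lbl f s y U Θ := by
  set c : (Fin M → Bool) → ℝ := fun σ =>
    clsEnergy dl lbl U σ + s * y (Sum.inr ()) * ‖featV n lbl f U σ‖ ^ 2 with hc
  have hn : ∀ σ, ‖featV n lbl f (mm O U) σ‖ ^ 2 = ‖featV n lbl f U σ‖ ^ 2 := fun σ => by
    rw [← real_inner_self_eq_norm_sq, ← real_inner_self_eq_norm_sq, inner_featV_resp hO]
  have e : ∀ (W : Fin M → Fin M → ℝ), (∀ σ, clsEnergy dl lbl W σ + s * y (Sum.inr ()) *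
      ‖featV n lbl f W σ‖ ^ 2 = c σ) → gint dl n lbl f s y W Θ =
      ∫ g, (fun q : (Fin M → Bool) → ℝ => rav (fun σ => c σ + q σ) Θ)
        (fun σ => ⟪g, pvec y (featV n lbl f W σ)⟫)
        ∂stdGaussian (EuclideanSpace ℝ (GIdx Unit P M)) := fun W hW => by
    refine integral_congr_ae (Eventually.of_forall fun g => ?_)
    show rav _ Θ = rav _ Θ
    congr 1
    funext σ
    rw [pertH, ← hW]
    ring
  rw [e _ fun σ => by simp only [c, clsEnergy_resp hO, hn], e U fun σ => rfl]
  have hF : Measurable fun q : (Fin M → Bool) → ℝ => rav (fun σ => c σ + q σ) Θ := by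
    unfold rav; fun_prop
  refine integral_gram_eq _ _ (fun σ τ => ?_) hF
  simp only [inner_pvec, inner_featV_resp hO]

/-- Observables bounded on orthogonal arrays. -/
structure OBdd (Θ : (Fin M → Fin M → ℝ) → (Fin r → Fin M → Bool) → ℝ) : Prop where
  meas : ∀ x, Measurable fun W => Θ W x
  bdd : ∃ B, ∀ W x, IsOrth W → |Θ W x| ≤ B

lemma OBdd.of_continuous {Θ : (Fin M → Fin M → ℝ) → (Fin r → Fin M → Bool) → ℝ}
    (h : ∀ x, Continuous fun W => Θ W x) : OBdd Θ := by
  refine ⟨fun x => (h x).measurable, ?_⟩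
  have h' : ∀ x, ∃ B, ∀ W ∈ cube M, |Θ W x| ≤ B := fun x => by
    obtain ⟨B, hB⟩ := Orth.isCompact_cube.exists_bound_of_continuousOn (h x).continuousOn
    exact ⟨B, fun W hW => (Real.norm_eq_abs _).ge.trans (hB W hW)⟩
  choose B hB using h'
  exact ⟨∑ x, |B x|, fun W x hW => (hB x W hW.mem_cube).trans ((le_abs_self _).trans
    (Finset.single_le_sum (f := fun x => |B x|) (fun x _ => abs_nonneg _) (Finset.mem_univ x)))⟩

variable {Θ Θ' : (Fin M → Fin M → ℝ) → (Fin r → Fin M → Bool) → ℝ}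
  {μ : Measure (Fin M → Fin M → ℝ)}

lemma measurable_rav_pertH (hΘ : ∀ x, Measurable fun W => Θ W x) :
    Measurable fun z : (Fin M → Fin M → ℝ) × EuclideanSpace ℝ (GIdx Unit P M) =>
      rav (fun σ => pertH dl n lbl f s y z.1 z.2 σ) (Θ z.1) := by
  have hH : ∀ σ, Measurable fun z : (Fin M → Fin M → ℝ) × EuclideanSpace ℝ (GIdx Unit P M) =>
      pertH dl n lbl f s y z.1 z.2 σ := fun σ => (continuous_pertH σ).measurable
  exact (Finset.measurable_fun_sum _ fun x _ => (Finset.measurable_fun_prod _ fun l _ =>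
    (hH (x l)).exp).mul ((hΘ x).comp measurable_fst)).div
    ((Finset.measurable_fun_sum _ fun σ _ => (hH σ).exp).pow_const r)

lemma measurable_gint (hΘ : ∀ x, Measurable fun W => Θ W x) :
    Measurable fun W => gint dl n lbl f s y W (Θ W) :=
  ((measurable_rav_pertH hΘ).stronglyMeasurable.integral_prod_right').measurable

lemma integrable_rav (U : Fin M → Fin M → ℝ) (Θ : (Fin r → Fin M → Bool) → ℝ) :
    Integrable (fun g => rav (fun σ => pertH dl n lbl f s y U g σ) Θ)
      (stdGaussian (EuclideanSpace ℝ (GIdx Unit P M))) :=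
  Integrable.of_bound ((measurable_rav_pertH (Θ := fun _ => Θ) fun _ => measurable_const).comp
    (measurable_const.prodMk measurable_id)).aestronglyMeasurable (∑ x, |Θ x|)
    (Eventually.of_forall fun g => (Real.norm_eq_abs _).trans_le (abs_rav_le _ fun x =>
      Finset.single_le_sum (f := fun x => |Θ x|) (fun x _ => abs_nonneg _) (Finset.mem_univ x)))

lemma gint_mono (U : Fin M → Fin M → ℝ) {Θ Θ' : (Fin r → Fin M → Bool) → ℝ}
    (h : ∀ x, Θ x ≤ Θ' x) : gint dl n lbl f s y U Θ ≤ gint dl n lbl f s y U Θ' :=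
  integral_mono (integrable_rav U Θ) (integrable_rav U Θ') fun g => rav_mono _ h

lemma gint_const (U : Fin M → Fin M → ℝ) (c : ℝ) :
    gint dl n lbl f s y U (fun _ : Fin r → Fin M → Bool => c) = c := by
  simp [gint, rav_const]

lemma gint_add (U : Fin M → Fin M → ℝ) (Θ Θ' : (Fin r → Fin M → Bool) → ℝ) :
    gint dl n lbl f s y U (fun x => Θ x + Θ' x) =
      gint dl n lbl f s y U Θ + gint dl n lbl f s y U Θ' := by
  rw [gint, gint, gint, ← integral_add (integrable_rav U Θ) (integrable_rav U Θ')]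
  simp only [rav, mul_add, Finset.sum_add_distrib, add_div]

lemma gint_smul (U : Fin M → Fin M → ℝ) (c : ℝ) (Θ : (Fin r → Fin M → Bool) → ℝ) :
    gint dl n lbl f s y U (fun x => c * Θ x) = c * gint dl n lbl f s y U Θ := by
  rw [gint, gint, ← integral_const_mul]
  simp only [rav, mul_left_comm _ c, ← Finset.mul_sum, mul_div_assoc]

lemma abs_gint_le (U : Fin M → Fin M → ℝ) {Θ : (Fin r → Fin M → Bool) → ℝ} {B : ℝ}
    (h : ∀ x, |Θ x| ≤ B) : |gint dl n lbl f s y U Θ| ≤ B :=
  abs_le.2 ⟨(gint_const U (-B)).symm.trans_le (gint_mono U fun x => (abs_le.1 (h x)).1),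
    (gint_mono U fun x => (abs_le.1 (h x)).2).trans_eq (gint_const U B)⟩

/-- The average over a law of arrays. -/
noncomputable def ev (dl : κ → ℝ) (n : ℕ) (lbl : Fin M → κ) (f : κ) (s : ℝ)
    (y : CIdx Unit P → ℝ) (μ : Measure (Fin M → Fin M → ℝ))
    (Θ : (Fin M → Fin M → ℝ) → (Fin r → Fin M → Bool) → ℝ) : ℝ :=
  ∫ W, gint dl n lbl f s y W (Θ W) ∂μ

/-- A probability law carried by orthogonal arrays. -/
structure OrthLaw (μ : Measure (Fin M → Fin M → ℝ)) : Prop where
  prob : IsProbabilityMeasure μ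
  orth : ∀ᵐ W ∂μ, IsOrth W

lemma orthLaw_of_inv (h : OrthInvLaw M μ) : OrthLaw μ := ⟨h.prob, h.orth⟩

lemma integrable_gint (hμ : OrthLaw μ) (hΘ : OBdd Θ) :
    Integrable (fun W => gint dl n lbl f s y W (Θ W)) μ := by
  have := hμ.prob
  obtain ⟨B, hB⟩ := hΘ.bdd
  exact Integrable.of_bound (measurable_gint hΘ.meas).aestronglyMeasurable B
    (hμ.orth.mono fun W hW => (Real.norm_eq_abs _).trans_le (abs_gint_le W fun x => hB W x hW))

lemma ev_mono (hμ : OrthLaw μ) (hΘ : OBdd Θ) (hΘ' : OBdd Θ')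
    (h : ∀ W x, IsOrth W → Θ W x ≤ Θ' W x) :
    ev dl n lbl f s y μ Θ ≤ ev dl n lbl f s y μ Θ' :=
  integral_mono_ae (integrable_gint hμ hΘ) (integrable_gint hμ hΘ')
    (hμ.orth.mono fun W hW => gint_mono W fun x => h W x hW)

lemma ev_const (hμ : OrthLaw μ) (c : ℝ) :
    ev dl n lbl f s y μ (fun _ (_ : Fin r → Fin M → Bool) => c) = c := by
  have := hμ.prob
  simp [ev, gint_const]

lemma ev_add (hμ : OrthLaw μ) (hΘ : OBdd Θ) (hΘ' : OBdd Θ') :
    ev dl n lbl f s y μ (fun W x => Θ W x + Θ' W x) =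
      ev dl n lbl f s y μ Θ + ev dl n lbl f s y μ Θ' := by
  simp only [ev, gint_add]
  exact integral_add (integrable_gint hμ hΘ) (integrable_gint hμ hΘ')

lemma ev_smul (c : ℝ) (Θ : (Fin M → Fin M → ℝ) → (Fin r → Fin M → Bool) → ℝ) :
    ev dl n lbl f s y μ (fun W x => c * Θ W x) = c * ev dl n lbl f s y μ Θ := by
  simp only [ev, gint_smul, integral_const_mul]

lemma ev_congr (hμ : OrthLaw μ) (h : ∀ W x, IsOrth W → Θ W x = Θ' W x) :
    ev dl n lbl f s y μ Θ = ev dl n lbl f s y μ Θ' :=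
  integral_congr_ae (hμ.orth.mono fun W hW => congrArg _ (funext fun x => h W x hW))

lemma abs_ev_le (hμ : OrthLaw μ) {B : ℝ} (h : ∀ W x, IsOrth W → |Θ W x| ≤ B) :
    |ev dl n lbl f s y μ Θ| ≤ B := by
  have := hμ.prob
  rw [ev]
  have h' := norm_integral_le_of_norm_le_const (μ := μ)
    (f := fun W => gint dl n lbl f s y W (Θ W))
    (hμ.orth.mono fun W hW => (Real.norm_eq_abs _).trans_le (abs_gint_le W fun x => h W x hW))
  simpa [probReal_univ] using h'

/-- The average in a system is the average over its law of arrays. -/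
lemma pmean_eq_ev (hν : OrthInvLaw M μ) (hΘ : OBdd Θ) :
    pmean μ (fun U g => pgibbs dl n lbl f s y U g (Θ U)) = ev dl n lbl f s y μ Θ := by
  have := hν.prob
  obtain ⟨B, hB⟩ := hΘ.bdd
  refine integral_prod _ (Integrable.of_bound (measurable_rav_pertH hΘ.meas).aestronglyMeasurable B ?_)
  exact (ae_orth_prod hν).mono fun z hz =>
    (Real.norm_eq_abs _).trans_le (abs_rav_le _ fun x => hB z.1 x hz)

lemma ev_resp {O : Fin M → Fin M → ℝ} (hO : Resp lbl O) (hinv : μ.map (mm O) = μ)
    (hΘ : ∀ x, Measurable fun W => Θ W x) :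
    ev dl n lbl f s y μ (fun W => Θ (mm O W)) = ev dl n lbl f s y μ Θ := by
  conv_rhs => rw [ev, ← hinv]
  rw [ev, integral_map (Orth.continuous_mm_right O).measurable.aemeasurable
    (measurable_gint hΘ).aestronglyMeasurable]
  simp only [gint_resp hO]

/-- The permutation of two rows. -/
def swapM (i j : Fin M) : Fin M → Fin M → ℝ := fun p q => if Equiv.swap i j p = q then 1 else 0

/-- The rotation by an eighth of a turn of two rows. -/
noncomputable def rotM (i j : Fin M) : Fin M → Fin M → ℝ := fun p q =>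
  if p = i then (Real.sqrt 2)⁻¹ * ((if q = i then 1 else 0) + if q = j then 1 else 0)
  else if p = j then (Real.sqrt 2)⁻¹ * ((if q = j then 1 else 0) - if q = i then 1 else 0)
  else if q = p then 1 else 0

lemma swapM_apply (i j : Fin M) (w : Fin M → ℝ) (p : Fin M) :
    ∑ q, swapM i j p q * w q = w (Equiv.swap i j p) := by
  simp [swapM]

lemma rotM_apply (i j : Fin M) (w : Fin M → ℝ) (p : Fin M) :
    ∑ q, rotM i j p q * w q =
      if p = i then (Real.sqrt 2)⁻¹ * (w i + w j)
      else if p = j then (Real.sqrt 2)⁻¹ * (w j - w i) else w p := by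
  simp only [rotM]
  split_ifs
  · simp only [mul_assoc, ← Finset.mul_sum, add_mul, Finset.sum_add_distrib]
    simp
  · simp only [mul_assoc, ← Finset.mul_sum, sub_mul, Finset.sum_sub_distrib]
    simp
  · simp

lemma isOrth_of_dot {O : Fin M → Fin M → ℝ}
    (h : ∀ u v : Fin M → ℝ, ∑ p, (∑ q, O p q * u q) * (∑ q, O p q * v q) = ∑ q, u q * v q) :
    IsOrth O := by
  refine Matrix.ext fun a b => ?_
  have := h (Pi.single a 1) (Pi.single b 1)
  simp [Pi.single_apply] at this
  rw [Matrix.mul_apply, Matrix.one_apply]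
  simp only [transpose_apply, of_apply]
  rw [this]
  simp [eq_comm]

lemma resp_swapM {i j : Fin M} (h : lbl i = lbl j) : Resp lbl (swapM i j) := by
  refine ⟨isOrth_of_dot fun u v => ?_, fun p q hpq => ?_⟩
  · simp only [swapM_apply]
    exact Equiv.sum_comp (Equiv.swap i j) fun q => u q * v q
  · rw [swapM, if_neg]
    rintro rfl
    rcases eq_or_ne p i with rfl | h1
    · exact hpq (by rw [Equiv.swap_apply_left, h])
    rcases eq_or_ne p j with rfl | h2
    · exact hpq (by rw [Equiv.swap_apply_right, h])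
    exact hpq (by rw [Equiv.swap_apply_of_ne_of_ne h1 h2])

omit [DecidableEq κ] in
lemma resp_rotM {i j : Fin M} (hij : i ≠ j) (h : lbl i = lbl j) : Resp lbl (rotM i j) := by
  refine ⟨isOrth_of_dot fun u v => ?_, fun p q hpq => ?_⟩
  · simp only [rotM_apply]
    have hs : (Real.sqrt 2)⁻¹ * (Real.sqrt 2)⁻¹ = 1 / 2 := by
      rw [← mul_inv, Real.mul_self_sqrt (by norm_num : (0 : ℝ) ≤ 2), one_div]
    rw [← Finset.add_sum_erase _ _ (Finset.mem_univ i),
      ← Finset.add_sum_erase _ _ (Finset.mem_erase.2 ⟨hij.symm, Finset.mem_univ j⟩),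
      ← Finset.add_sum_erase (Finset.univ) (fun q => u q * v q) (Finset.mem_univ i),
      ← Finset.add_sum_erase _ (fun q => u q * v q)
        (Finset.mem_erase.2 ⟨hij.symm, Finset.mem_univ j⟩),
      if_pos rfl, if_pos rfl, if_neg hij.symm, if_pos rfl, if_neg hij.symm, if_pos rfl]
    have e : ∀ p ∈ (Finset.univ.erase i).erase j,
        (if p = i then (Real.sqrt 2)⁻¹ * (u i + u j)
          else if p = j then (Real.sqrt 2)⁻¹ * (u j - u i) else u p) *
        (if p = i then (Real.sqrt 2)⁻¹ * (v i + v j)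
          else if p = j then (Real.sqrt 2)⁻¹ * (v j - v i) else v p) = u p * v p := fun p hp => by
      simp only [Finset.mem_erase] at hp
      rw [if_neg hp.2.1, if_neg hp.1, if_neg hp.2.1, if_neg hp.1]
    rw [Finset.sum_congr rfl e]
    linear_combination ((u i + u j) * (v i + v j) + (u j - u i) * (v j - v i)) * hs
  · simp only [rotM]
    split_ifs <;> simp_all

/-- The law is unchanged by orthogonal maps preserving the classes and fixing the rows outside `S`. -/
def InvOn (lbl : Fin M → κ) (S : Finset (Fin M)) (μ : Measure (Fin M → Fin M → ℝ)) : Prop :=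
  ∀ O, Resp lbl O → (∀ p ∉ S, ∀ q, O p q = if q = p then 1 else 0) → μ.map (mm O) = μ

variable {S : Finset (Fin M)} {c : κ}

lemma map_swapM (hinv : InvOn lbl S μ) (hS : ∀ i ∈ S, lbl i = c) {i j : Fin M} (hi : i ∈ S)
    (hj : j ∈ S) : μ.map (mm (swapM i j)) = μ := by
  refine hinv _ (resp_swapM ((hS i hi).trans (hS j hj).symm)) fun p hp q => ?_
  have h1 : p ≠ i := fun h => hp (h ▸ hi)
  have h2 : p ≠ j := fun h => hp (h ▸ hj)
  simp [swapM, Equiv.swap_apply_of_ne_of_ne h1 h2, eq_comm]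

/-- Rows of one class of `S` have the same averages against invariant observables. -/
lemma ev_row_eq (hinv : InvOn lbl S μ) (hS : ∀ i ∈ S, lbl i = c) {i j : Fin M} (hi : i ∈ S)
    (hj : j ∈ S) (φ : ((Fin r → ℝ) × ℝ) → ℝ) (hφ : Measurable φ)
    (Ψ : (Fin M → Fin M → ℝ) → (Fin r → Fin M → Bool) → ℝ) (hΨm : ∀ x, Measurable fun W => Ψ W x)
    (hΨ : ∀ O, Resp lbl O → ∀ W x, Ψ (mm O W) x = Ψ W x) :
    ev dl n lbl f s y μ (fun W x => φ ((fun a => coord W (x a) i), Ψ W x)) =
      ev dl n lbl f s y μ (fun W x => φ ((fun a => coord W (x a) j), Ψ W x)) := by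
  have hO := resp_swapM ((hS i hi).trans (hS j hj).symm)
  have hm : ∀ x, Measurable fun W => φ ((fun a => coord W (x a) i), Ψ W x) := fun x =>
    hφ.comp ((measurable_pi_lambda _ fun a => (continuous_coord (x a) i).measurable).prodMk (hΨm x))
  rw [← ev_resp hO (map_swapM hinv hS hi hj) hm]
  simp only [coord_mm, swapM_apply, Equiv.swap_apply_left, hΨ _ hO]

omit [DecidableEq κ] in
lemma sum_coord_sq_orth {W : Fin M → Fin M → ℝ} (hW : IsOrth W) (σ : Fin M → Bool) :
    ∑ i, coord W σ i ^ 2 = M := sum_sq_coord hW σ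

lemma ev_sum (hμ : OrthLaw μ) {ι : Type} (t : Finset ι)
    (Ξ : ι → (Fin M → Fin M → ℝ) → (Fin r → Fin M → Bool) → ℝ) (h : ∀ i, OBdd (Ξ i)) :
    ev dl n lbl f s y μ (fun W x => ∑ i ∈ t, Ξ i W x) = ∑ i ∈ t, ev dl n lbl f s y μ (Ξ i) := by
  classical
  induction t using Finset.induction with
  | empty =>
    simp only [Finset.sum_empty]
    exact ev_const hμ 0
  | insert a t ha ih =>
    simp only [Finset.sum_insert ha]
    rw [ev_add hμ (h a), ih]
    refine ⟨fun x => Finset.measurable_fun_sum _ fun i _ => (h i).meas x, ?_⟩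
    choose B hB using fun i => (h i).bdd
    exact ⟨∑ i ∈ t, |B i|, fun W x hW => (Finset.abs_sum_le_sum_abs _ _).trans
      (Finset.sum_le_sum fun i _ => (hB i W x hW).trans (le_abs_self _))⟩

/-- Exchangeable rows share their total. -/
lemma ev_row_avg (hμ : OrthLaw μ) (hinv : InvOn lbl S μ) (hS : ∀ i ∈ S, lbl i = c) {i : Fin M}
    (hi : i ∈ S) (φ : ((Fin r → ℝ) × ℝ) → ℝ) (hφ : Continuous φ)
    (Ψ : (Fin M → Fin M → ℝ) → (Fin r → Fin M → Bool) → ℝ) (hΨc : ∀ x, Continuous fun W => Ψ W x)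
    (hΨ : ∀ O, Resp lbl O → ∀ W x, Ψ (mm O W) x = Ψ W x) :
    (S.card : ℝ) * ev dl n lbl f s y μ (fun W x => φ ((fun a => coord W (x a) i), Ψ W x)) =
      ev dl n lbl f s y μ (fun W x => ∑ j ∈ S, φ ((fun a => coord W (x a) j), Ψ W x)) := by
  rw [ev_sum hμ S (fun j W x => φ ((fun a => coord W (x a) j), Ψ W x)) fun j =>
    OBdd.of_continuous fun x =>
      hφ.comp ((continuous_pi fun a => continuous_coord (x a) j).prodMk (hΨc x))]
  rw [Finset.sum_congr rfl fun j hj => ev_row_eq hinv hS hj hi φ hφ.measurable Ψ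
    (fun x => (hΨc x).measurable) hΨ, Finset.sum_const, nsmul_eq_mul]

/-- Second moments of exchangeable rows. -/
lemma ev_sq_le (hμ : OrthLaw μ) (hinv : InvOn lbl S μ) (hS : ∀ i ∈ S, lbl i = c) {i : Fin M}
    (hi : i ∈ S) (a : Fin r) :
    ev dl n lbl f s y μ (fun W x => coord W (x a) i ^ 2) ≤ M / S.card := by
  have hpos : (0 : ℝ) < S.card := by exact_mod_cast Finset.card_pos.2 ⟨i, hi⟩
  rw [le_div_iff₀' hpos, ev_row_avg hμ hinv hS hi (fun p => p.1 a ^ 2) (by fun_prop) (fun _ _ => 0)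
    (fun _ => continuous_const) fun _ _ _ _ => rfl]
  refine (ev_mono hμ (OBdd.of_continuous fun x => continuous_finsetSum _ fun j _ =>
    (continuous_coord (x a) j).pow 2) (OBdd.of_continuous fun _ => continuous_const)
    fun W x hW => ?_).trans_eq (ev_const hμ _)
  exact (Finset.sum_le_univ_sum_of_nonneg fun j => sq_nonneg (coord W (x a) j)).trans_eq
    (sum_coord_sq_orth hW _)

/-- Fourth moments of exchangeable rows. -/
lemma ev_four_le (hμ : OrthLaw μ) (hinv : InvOn lbl S μ) (hS : ∀ i ∈ S, lbl i = c) {i : Fin M}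
    (hi : i ∈ S) (a : Fin r) :
    ev dl n lbl f s y μ (fun W x => coord W (x a) i ^ 4) ≤ 3 * (M : ℝ) ^ 2 / (S.card : ℝ) ^ 2 := by
  classical
  have hcard : (1 : ℝ) ≤ S.card := by exact_mod_cast Finset.card_pos.2 ⟨i, hi⟩
  set A := ev dl n lbl f s y μ (fun W x => coord W (x a) i ^ 4) with hA
  have hc4 : ∀ p q : Fin M, OBdd (fun W (x : Fin r → Fin M → Bool) =>
      coord W (x a) p ^ 2 * coord W (x a) q ^ 2) := fun p q =>
    OBdd.of_continuous fun x => ((continuous_coord (x a) p).pow 2).mul ((continuous_coord (x a) q).pow 2)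
  have hA4 : ∀ p ∈ S, ev dl n lbl f s y μ (fun W x => coord W (x a) p ^ 4) = A := fun p hp =>
    ev_row_eq hinv hS hp hi (fun q => q.1 a ^ 4) (by fun_prop) (fun _ _ => 0)
      (fun _ => measurable_const) fun _ _ _ _ => rfl
  have hB : ∀ p ∈ S, ∀ q ∈ S, A / 3 ≤
      ev dl n lbl f s y μ (fun W x => coord W (x a) p ^ 2 * coord W (x a) q ^ 2) := by
    intro p hp q hq
    rcases eq_or_ne p q with rfl | hpq
    · have e : ev dl n lbl f s y μ (fun W x => coord W (x a) p ^ 2 * coord W (x a) p ^ 2) = A := by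
        rw [← hA4 p hp]
        exact ev_congr hμ fun W x _ => by ring
      have h0 : 0 ≤ A := (ev_const hμ 0).symm.trans_le (ev_mono hμ
        (OBdd.of_continuous fun _ => continuous_const)
        (OBdd.of_continuous fun x => (continuous_coord (x a) i).pow 4) fun W x _ => by positivity)
      rw [e]
      linarith
    · have hlb : lbl p = lbl q := (hS p hp).trans (hS q hq).symm
      have hO := resp_rotM hpq hlb
      have hfix : ∀ u ∉ S, ∀ v, rotM p q u v = if v = u then 1 else 0 := fun u hu v => by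
        rw [rotM, if_neg (fun h : u = p => hu (h.symm ▸ hp)), if_neg (fun h : u = q => hu (h.symm ▸ hq))]
      have hinvO := hinv _ hO hfix
      have hm4 : ∀ u, ∀ x : Fin r → Fin M → Bool, Measurable fun W => coord W (x a) u ^ 4 :=
        fun u x => ((continuous_coord (x a) u).pow 4).measurable
      have h1 := ev_resp (dl := dl) (n := n) (f := f) (s := s) (y := y) hO hinvO
        (Θ := fun W (x : Fin r → Fin M → Bool) => coord W (x a) p ^ 4) (hm4 p)
      have h2 := ev_resp (dl := dl) (n := n) (f := f) (s := s) (y := y) hO hinvO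
        (Θ := fun W (x : Fin r → Fin M → Bool) => coord W (x a) q ^ 4) (hm4 q)
      rw [hA4 p hp] at h1
      rw [hA4 q hq] at h2
      simp only [coord_mm, rotM_apply, if_pos, if_neg hpq.symm] at h1 h2
      have hs : (Real.sqrt 2)⁻¹ ^ 4 = 1 / 4 := by
        rw [inv_pow, show Real.sqrt 2 ^ 4 = (Real.sqrt 2 ^ 2) ^ 2 by ring,
          Real.sq_sqrt (by norm_num : (0 : ℝ) ≤ 2)]
        norm_num
      have hb1 : OBdd (fun W (x : Fin r → Fin M → Bool) =>
          ((Real.sqrt 2)⁻¹ * (coord W (x a) p + coord W (x a) q)) ^ 4) :=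
        OBdd.of_continuous fun x =>
          (((continuous_coord (x a) p).add (continuous_coord (x a) q)).const_mul _).pow 4
      have hb2 : OBdd (fun W (x : Fin r → Fin M → Bool) =>
          ((Real.sqrt 2)⁻¹ * (coord W (x a) q - coord W (x a) p)) ^ 4) :=
        OBdd.of_continuous fun x =>
          (((continuous_coord (x a) q).sub (continuous_coord (x a) p)).const_mul _).pow 4
      have hp4 : OBdd (fun W (x : Fin r → Fin M → Bool) => 1 / 2 * coord W (x a) p ^ 4) :=
        OBdd.of_continuous fun x => ((continuous_coord (x a) p).pow 4).const_mul _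
      have hq4 : OBdd (fun W (x : Fin r → Fin M → Bool) => 1 / 2 * coord W (x a) q ^ 4) :=
        OBdd.of_continuous fun x => ((continuous_coord (x a) q).pow 4).const_mul _
      have hpq' : OBdd (fun W (x : Fin r → Fin M → Bool) =>
          3 * (coord W (x a) p ^ 2 * coord W (x a) q ^ 2)) :=
        OBdd.of_continuous fun x =>
          (((continuous_coord (x a) p).pow 2).mul ((continuous_coord (x a) q).pow 2)).const_mul _
      have hsum : A + A = ev dl n lbl f s y μ (fun W x => 1 / 2 * coord W (x a) p ^ 4 +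
          1 / 2 * coord W (x a) q ^ 4 + 3 * (coord W (x a) p ^ 2 * coord W (x a) q ^ 2)) := by
        rw [← congrArg₂ (· + ·) h1 h2, ← ev_add hμ hb1 hb2]
        refine ev_congr hμ fun W x _ => ?_
        rw [mul_pow, mul_pow, hs]
        ring
      have hab : OBdd (fun W (x : Fin r → Fin M → Bool) =>
          1 / 2 * coord W (x a) p ^ 4 + 1 / 2 * coord W (x a) q ^ 4) :=
        OBdd.of_continuous fun x => (((continuous_coord (x a) p).pow 4).const_mul _).add
          (((continuous_coord (x a) q).pow 4).const_mul _)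
      rw [ev_add hμ hab hpq', ev_add hμ hp4 hq4, ev_smul, ev_smul,
        ev_smul, hA4 p hp, hA4 q hq] at hsum
      linarith
  have hsq : ev dl n lbl f s y μ (fun W x => ∑ pq ∈ S ×ˢ S,
      coord W (x a) pq.1 ^ 2 * coord W (x a) pq.2 ^ 2) ≤ (M : ℝ) ^ 2 := by
    refine (ev_mono hμ (OBdd.of_continuous fun x => continuous_finsetSum _ fun pq _ =>
      ((continuous_coord (x a) pq.1).pow 2).mul ((continuous_coord (x a) pq.2).pow 2))
      (OBdd.of_continuous fun _ => continuous_const) fun W x hW => ?_).trans_eq (ev_const hμ _)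
    rw [Finset.sum_product]
    simp only
    rw [← Finset.sum_mul_sum, ← sq]
    exact pow_le_pow_left₀ (Finset.sum_nonneg fun j _ => sq_nonneg _)
      ((Finset.sum_le_univ_sum_of_nonneg fun j => sq_nonneg (coord W (x a) j)).trans_eq
        (sum_coord_sq_orth hW _)) 2
  rw [ev_sum hμ (S ×ˢ S) (fun pq W x => coord W (x a) pq.1 ^ 2 * coord W (x a) pq.2 ^ 2)
    fun pq => hc4 pq.1 pq.2] at hsq
  have hlow := (Finset.sum_le_sum (s := S ×ˢ S) (f := fun _ => A / 3) fun pq hpq =>
    hB pq.1 (Finset.mem_product.1 hpq).1 pq.2 (Finset.mem_product.1 hpq).2).trans hsq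
  rw [Finset.sum_const, Finset.card_product, nsmul_eq_mul] at hlow
  push_cast at hlow
  rw [le_div_iff₀ (by positivity)]
  nlinarith

/-- The law of a system is unchanged by all maps respecting the classes. -/
lemma invOn_of_inv (h : OrthInvLaw M μ) (S : Finset (Fin M)) : InvOn lbl S μ :=
  fun O hO _ => (Orth.OrthInvLaw.stabLaw h).invariant O
    ⟨hO.orth, fun i hi => absurd hi (Finset.notMem_empty i)⟩

end Vale.Agent.P166F.Low.Tgt
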