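import Vale.Agent.P166F.Up.AddField
import Vale.Agent.P166F.Low.Target.Gibbs

/-!
P166: truncating the weight of the new spin and removing the part of the field along its direction.
-/

namespace Vale.Agent.P166F.Low.Tgt

open MeasureTheory ProbabilityTheory Filter
open scoped RealInnerProductSpace

variable {X : Type} [Fintype X] [Nonempty X] {r : ℕ}
variable {ι κ : Type} [Fintype ι] [Fintype κ]

omit [Nonempty X] in
/-- A field along split vectors is the sum of two independent fields. -/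
lemma integral_field_split (v : X → EuclideanSpace ℝ ι) (w vh R : X → EuclideanSpace ℝ κ)
    (hw : ∀ x, w x = vh x + R x) (hperp : ∀ x x', ⟪vh x, R x'⟫ = 0)
    (hgram : ∀ x x', ⟪vh x, vh x'⟫ = ⟪v x, v x'⟫) {F : (X → ℝ) → ℝ} (hF : Measurable F) {B : ℝ}
    (hB : ∀ q, |F q| ≤ B) :
    ∫ g, F (fun x => ⟪g, w x⟫) ∂stdGaussian (EuclideanSpace ℝ κ) =
      ∫ g, ∫ g', F (fun x => ⟪g, v x⟫ + ⟪g', R x⟫)
        ∂stdGaussian (EuclideanSpace ℝ κ) ∂stdGaussian (EuclideanSpace ℝ ι) := by
  set Φ : X → EuclideanSpace ℝ (ι ⊕ κ) := fun x =>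
    WithLp.toLp 2 (Sum.elim (fun c => v x c) (fun c => R x c)) with hΦ
  have hm : Measurable fun g : EuclideanSpace ℝ (ι ⊕ κ) =>
      ((WithLp.toLp 2 fun a => g (Sum.inl a) : EuclideanSpace ℝ ι),
        (WithLp.toLp 2 fun b => g (Sum.inr b) : EuclideanSpace ℝ κ)) := by fun_prop
  have hmap : (stdGaussian (EuclideanSpace ℝ (ι ⊕ κ))).map (fun g =>
      ((WithLp.toLp 2 fun a => g (Sum.inl a) : EuclideanSpace ℝ ι),
        (WithLp.toLp 2 fun b => g (Sum.inr b) : EuclideanSpace ℝ κ))) =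
      (stdGaussian (EuclideanSpace ℝ ι)).prod (stdGaussian (EuclideanSpace ℝ κ)) := by
    have hs := measurePreserving_sumPiEquivProdPi (fun _ : ι ⊕ κ => gaussianReal 0 1)
    have hA : MeasurePreserving (WithLp.toLp 2 : (ι → ℝ) → EuclideanSpace ℝ ι)
        (Measure.pi fun _ => gaussianReal 0 1) (stdGaussian (EuclideanSpace ℝ ι)) :=
      ⟨by fun_prop, map_pi_eq_stdGaussian⟩
    have hB : MeasurePreserving (WithLp.toLp 2 : (κ → ℝ) → EuclideanSpace ℝ κ)
        (Measure.pi fun _ => gaussianReal 0 1) (stdGaussian (EuclideanSpace ℝ κ)) :=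
      ⟨by fun_prop, map_pi_eq_stdGaussian⟩
    rw [← map_pi_eq_stdGaussian, Measure.map_map hm (by fun_prop), ← ((hA.prod hB).comp hs).map_eq]
    rfl
  have hmeas : Measurable fun p : EuclideanSpace ℝ ι × EuclideanSpace ℝ κ =>
      F fun x => ⟪p.1, v x⟫ + ⟪p.2, R x⟫ := hF.comp (by fun_prop)
  have hint : Integrable (fun p : EuclideanSpace ℝ ι × EuclideanSpace ℝ κ =>
      F fun x => ⟪p.1, v x⟫ + ⟪p.2, R x⟫)
      ((stdGaussian (EuclideanSpace ℝ ι)).prod (stdGaussian (EuclideanSpace ℝ κ))) :=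
    Integrable.of_bound hmeas.aestronglyMeasurable B
      (Eventually.of_forall fun p => (Real.norm_eq_abs _).trans_le (hB _))
  rw [integral_gram_eq w Φ (fun x x' => ?_) hF, ← integral_prod _ hint, ← hmap,
    integral_map hm.aemeasurable (by rw [hmap]; exact hint.aestronglyMeasurable)]
  · refine integral_congr_ae (Eventually.of_forall fun g => congrArg F (funext fun x => ?_))
    simp only [Φ, PiLp.inner_apply, Fintype.sum_sum_type, Sum.elim_inl, Sum.elim_inr]
  · have h1 : ⟪w x, w x'⟫ = ⟪v x, v x'⟫ + ⟪R x, R x'⟫ := by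
      rw [hw, hw, inner_add_left, inner_add_right, inner_add_right, hperp, hgram,
        real_inner_comm (vh x') (R x), hperp]
      ring
    rw [h1]
    simp only [Φ, PiLp.inner_apply, Fintype.sum_sum_type, Sum.elim_inl, Sum.elim_inr]

lemma continuous_rav {Z : Type*} [TopologicalSpace Z] {h : Z → X → ℝ} (hh : ∀ x, Continuous (h · x))
    (Θ : (Fin r → X) → ℝ) : Continuous fun z => rav (h z) Θ := by
  refine Continuous.div (continuous_finsetSum _ fun x _ => (continuous_finsetProd _ fun l _ =>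
    (hh (x l)).rexp).mul continuous_const) ((continuous_finsetSum _ fun x _ => (hh x).rexp).pow r)
    fun z => (pow_pos (zpos (h z)) r).ne'

lemma continuous_gmn {Z : Type*} [TopologicalSpace Z] {h : Z → X → ℝ} (hh : ∀ x, Continuous (h · x))
    (f : X → ℝ) : Continuous fun z => gmn (h z) f := by
  refine continuous_finsetSum _ fun x _ => Continuous.mul ?_ continuous_const
  exact (hh x).rexp.div (continuous_finsetSum _ fun x _ => (hh x).rexp) fun z => (zpos (h z)).ne'

lemma continuous_lone {Z : Type*} [TopologicalSpace Z] {h h' : Z → X → ℝ}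
    (hh : ∀ x, Continuous (h · x)) (hh' : ∀ x, Continuous (h' · x)) :
    Continuous fun z => lone (h z) (h' z) := by
  refine continuous_finsetSum _ fun x _ => Continuous.abs (Continuous.sub ?_ ?_)
  · exact (hh x).rexp.div (continuous_finsetSum _ fun x _ => (hh x).rexp) fun z => (zpos (h z)).ne'
  · exact (hh' x).rexp.div (continuous_finsetSum _ fun x _ => (hh' x).rexp) fun z => (zpos (h' z)).ne'

/-- A small field and a small shift move a Gibbs measure by little in the mean. -/
lemma integral_lone_field_le (h : X → ℝ) (R : X → EuclideanSpace ℝ κ) (c : X → ℝ) {v η a : ℝ}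
    (hR : ∀ x, ‖R x‖ ^ 2 ≤ v) (hc : ∀ x, |c x| ≤ η) (ha : 0 < a) :
    ∫ g, lone (fun x => h x + (⟪g, R x⟫ + c x)) h ∂stdGaussian (EuclideanSpace ℝ κ) ≤
      a + (v / 2 + 2 * η) / a := by
  have hp := gw_pos h
  have hp1 := sum_gw h
  have iA : Integrable (fun g => ∑ x, gw h x * ⟪g, R x⟫) (stdGaussian (EuclideanSpace ℝ κ)) :=
    integrable_finsetSum _ fun x _ => (integrable_inner (R x)).const_mul _
  have iL := integrable_addLog hp hp1 R
  have hm : ∫ g, ∑ x, gw h x * ⟪g, R x⟫ ∂stdGaussian (EuclideanSpace ℝ κ) = 0 := by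
    rw [integral_finsetSum _ fun x _ => (integrable_inner (R x)).const_mul _]
    refine Finset.sum_eq_zero fun x _ => ?_
    have h' := integral_gram_eq (X := Unit) (fun _ => R x) (fun _ => -R x) (fun _ _ => by simp)
      (F := fun u => u ()) (measurable_pi_apply ())
    simp only [inner_neg_right, integral_neg] at h'
    rw [integral_const_mul, show ∫ g, ⟪g, R x⟫ ∂stdGaussian (EuclideanSpace ℝ κ) = 0 by linarith,
      mul_zero]
  have hb : ∀ g : EuclideanSpace ℝ κ, lone (fun x => h x + (⟪g, R x⟫ + c x)) h ≤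
      a + (addLog (gw h) R g - ∑ x, gw h x * ⟪g, R x⟫ + 2 * η) / a := fun g => by
    refine (lone_add_le h fun x => ⟪g, R x⟫ + c x).trans ?_
    set w := Real.log (∑ x, gw h x * Real.exp (⟪g, R x⟫ + c x)) - gmn h (fun x => ⟪g, R x⟫ + c x)
    have h0 : 0 ≤ w := sub_nonneg.2 (avg_le_log hp hp1 _)
    have hw : w ≤ addLog (gw h) R g - ∑ x, gw h x * ⟪g, R x⟫ + 2 * η := by
      have h1 : Real.log (∑ x, gw h x * Real.exp (⟪g, R x⟫ + c x)) ≤ addLog (gw h) R g + η := by
        rw [addLog, ← Real.log_exp η, ← Real.log_mul (sum_exp_pos hp hp1 _).ne' (Real.exp_pos _).ne']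
        refine Real.log_le_log (sum_exp_pos hp hp1 _) ?_
        rw [Finset.sum_mul]
        refine Finset.sum_le_sum fun x _ => ?_
        rw [mul_assoc, ← Real.exp_add]
        exact mul_le_mul_of_nonneg_left (Real.exp_le_exp.2 (by linarith [(abs_le.1 (hc x)).2]))
          (hp x).le
      have h2 : ∑ x, gw h x * ⟪g, R x⟫ - η ≤ gmn h (fun x => ⟪g, R x⟫ + c x) := by
        rw [← gmn_const h η, gmn, gmn, ← Finset.sum_sub_distrib]
        refine Finset.sum_le_sum fun x _ => ?_
        rw [← mul_sub]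
        exact mul_le_mul_of_nonneg_left (by linarith [(abs_le.1 (hc x)).1]) (hp x).le
      linarith
    have e : a + w / a - 2 * Real.sqrt w = (a - Real.sqrt w) ^ 2 / a := by
      field_simp
      rw [sub_sq, Real.sq_sqrt h0]
      ring
    have h4 : 0 ≤ (a - Real.sqrt w) ^ 2 / a := by positivity
    have h3 := div_le_div_of_nonneg_right hw ha.le
    linarith
  have hi : Integrable (fun g => a + (addLog (gw h) R g - ∑ x, gw h x * ⟪g, R x⟫ + 2 * η) / a)
      (stdGaussian (EuclideanSpace ℝ κ)) :=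
    (integrable_const a).add (((iL.sub iA).add (integrable_const _)).div_const a)
  refine (integral_mono ?_ hi hb).trans ?_
  · have hcl : Continuous fun g : EuclideanSpace ℝ κ => lone (fun x => h x + (⟪g, R x⟫ + c x)) h :=
      continuous_lone (h := fun g x => h x + (⟪g, R x⟫ + c x)) (h' := fun _ => h) (fun x => by fun_prop)
        fun x => continuous_const
    exact Integrable.of_bound hcl.aestronglyMeasurable
      2 (Eventually.of_forall fun g => by
        rw [Real.norm_eq_abs, abs_of_nonneg (lone_nonneg _ _)]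
        exact lone_le_two _ _)
  · have iLA : Integrable (fun g => addLog (gw h) R g - ∑ x, gw h x * ⟪g, R x⟫)
        (stdGaussian (EuclideanSpace ℝ κ)) := iL.sub iA
    have iLc : Integrable (fun g => addLog (gw h) R g - ∑ x, gw h x * ⟪g, R x⟫ + 2 * η)
        (stdGaussian (EuclideanSpace ℝ κ)) := iLA.add (integrable_const _)
    rw [integral_add (integrable_const a) (iLc.div_const a), integral_div,
      integral_add iLA (integrable_const _), integral_sub iL iA, hm, sub_zero]
    simp only [integral_const, probReal_univ, one_smul]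
    have := div_le_div_of_nonneg_right
      (show (∫ g, addLog (gw h) R g ∂stdGaussian (EuclideanSpace ℝ κ)) + 2 * η ≤ v / 2 + 2 * η by
        linarith [integral_addLog_le hp hp1 R hR]) ha.le
    linarith

/-- The enlarged system against the reweighted base. -/
lemma abs_integral_rav_sub_le (a c G Z : X → ℝ) (v : X → EuclideanSpace ℝ ι)
    (w vh R : X → EuclideanSpace ℝ κ) (hw : ∀ x, w x = vh x + R x)
    (hperp : ∀ x x', ⟪vh x, R x'⟫ = 0) (hgram : ∀ x x', ⟪vh x, vh x'⟫ = ⟪v x, v x'⟫)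
    {D L M κ₁ κ₂ a₀ B : ℝ} (hD : 0 ≤ D) (hL : 0 < L) (hM : 0 < M) (ha₀ : 0 < a₀) (hκ₁ : 0 ≤ κ₁)
    (hκ₂ : 0 ≤ κ₂) (hZ : ∀ x, 0 ≤ Z x) (hG : ∀ x, G x ≤ D * Z x)
    (hR : ∀ x, ‖R x‖ ^ 2 ≤ κ₁ * Z x) (hc : ∀ x, |c x| ≤ κ₂ * Z x)
    (Θ : (Fin r → X) → ℝ) (hB : ∀ x, |Θ x| ≤ B) (hB0 : 0 ≤ B) :
    |∫ g, rav (fun x => a x + G x + (c x + ⟪g, w x⟫)) Θ ∂stdGaussian (EuclideanSpace ℝ κ) -
        ∫ g, rav (fun x => a x + min (G x) L + ⟪g, v x⟫) Θ ∂stdGaussian (EuclideanSpace ℝ ι)| ≤
      B * r * ((12 * D / L + 2 / M) *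
          ∫ g, gmn (fun x => a x + G x + (c x + ⟪g, w x⟫)) Z ∂stdGaussian (EuclideanSpace ℝ κ) +
        2 / M * ∫ g, gmn (fun x => a x + min (G x) L + ⟪g, v x⟫) Z ∂stdGaussian (EuclideanSpace ℝ ι) +
        3 * (a₀ + (κ₁ * M / 2 + 2 * (κ₂ * M)) / a₀)) := by
  classical
  set h1 : EuclideanSpace ℝ ι × EuclideanSpace ℝ κ → X → ℝ := fun p x =>
    a x + G x + (c x + (⟪p.1, v x⟫ + ⟪p.2, R x⟫)) with hh1
  set h2 : EuclideanSpace ℝ ι × EuclideanSpace ℝ κ → X → ℝ := fun p x =>
    a x + min (G x) L + (c x + (⟪p.1, v x⟫ + ⟪p.2, R x⟫)) with hh2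
  set h4 : EuclideanSpace ℝ ι × EuclideanSpace ℝ κ → X → ℝ := fun p x =>
    a x + min (G x) L + ⟪p.1, v x⟫ with hh4
  set R' : X → EuclideanSpace ℝ κ := fun x => if Z x ≤ M then R x else 0 with hR'
  set c' : X → ℝ := fun x => if Z x ≤ M then c x else 0 with hc'
  set h3 : EuclideanSpace ℝ ι × EuclideanSpace ℝ κ → X → ℝ := fun p x =>
    h4 p x + (⟪p.2, R' x⟫ + c' x) with hh3
  have c1 : ∀ x, Continuous (h1 · x) := fun x => by simp only [h1]; fun_prop
  have c4 : ∀ x, Continuous (h4 · x) := fun x => by simp only [h4]; fun_prop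
  have c3 : ∀ x, Continuous (h3 · x) := fun x => by simp only [h3, h4]; fun_prop
  have key : ∀ p, |rav (h1 p) Θ - rav (h4 p) Θ| ≤
      B * r * ((12 * D / L + 2 / M) * gmn (h1 p) Z + 2 / M * gmn (h4 p) Z + 3 * lone (h3 p) (h4 p)) := by
    intro p
    refine (abs_rav_sub_le _ _ hB hB0).trans (mul_le_mul_of_nonneg_left ?_ (by positivity))
    set F : X → ℝ := fun x => D / L * Z x
    set F2 : X → ℝ := fun x => min 1 (Z x / M)
    have hF2 : ∀ x, 0 ≤ F2 x := fun x => le_min zero_le_one (div_nonneg (hZ x) hM.le)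
    have hF21 : ∀ x, |F2 x| ≤ 1 := fun x => abs_le.2 ⟨by linarith [hF2 x], min_le_left _ _⟩
    have hgF : ∀ k : X → ℝ, gmn k F = D / L * gmn k Z := fun k => by
      simp only [gmn, F, Finset.mul_sum, mul_left_comm]
    have hgF2 : ∀ k : X → ℝ, gmn k F2 ≤ gmn k Z / M := fun k => by
      refine (gmn_mono k (f' := fun x => Z x / M) fun x => min_le_right _ _).trans_eq ?_
      simp only [gmn, Finset.sum_div, mul_div_assoc']
    have e12 : lone (h1 p) (h2 p) ≤ 4 * gmn (h1 p) F := by
      refine lone_trunc (fun x => mul_nonneg (div_nonneg hD hL.le) (hZ x))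
        (fun x => by simp only [h1, h2]; linarith [min_le_left (G x) L]) fun x => ?_
      by_cases hx : G x ≤ L
      · exact Or.inl (by simp only [h1, h2, min_eq_left hx])
      · refine Or.inr ?_
        simp only [F]
        rw [div_mul_eq_mul_div, le_div_iff₀ hL]
        linarith [hG x]
    have e23 : lone (h2 p) (h3 p) ≤ 2 * (gmn (h2 p) F2 + gmn (h3 p) F2) := by
      refine lone_le_of_eq hF2 fun x => ?_
      by_cases hx : Z x ≤ M
      · refine Or.inl ?_
        simp only [h2, h3, h4, R', c', if_pos hx]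
        ring
      · exact Or.inr (le_min le_rfl ((one_le_div hM).2 (not_le.1 hx).le))
    have e2 : gmn (h2 p) F2 ≤ gmn (h1 p) Z / M + lone (h1 p) (h2 p) := by
      have := (abs_le.1 (abs_gmn_sub_le (h1 p) (h2 p) hF21 zero_le_one)).1
      linarith [hgF2 (h1 p)]
    have e3 : gmn (h3 p) F2 ≤ gmn (h4 p) Z / M + lone (h3 p) (h4 p) := by
      have := (abs_le.1 (abs_gmn_sub_le (h3 p) (h4 p) hF21 zero_le_one)).2
      linarith [hgF2 (h4 p)]
    have t := lone_triangle (h1 p) (h2 p) (h4 p)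
    have t' := lone_triangle (h2 p) (h3 p) (h4 p)
    rw [hgF] at e12
    have i1 : (12 * D / L + 2 / M) * gmn (h1 p) Z =
        12 * (D / L * gmn (h1 p) Z) + 2 * (gmn (h1 p) Z / M) := by ring
    have i2 : 2 / M * gmn (h4 p) Z = 2 * (gmn (h4 p) Z / M) := by ring
    linarith [lone_nonneg (h3 p) (h4 p)]
  set γ := (stdGaussian (EuclideanSpace ℝ ι)).prod (stdGaussian (EuclideanSpace ℝ κ))
  have hbd : ∀ {φ : EuclideanSpace ℝ ι × EuclideanSpace ℝ κ → ℝ}, Continuous φ →
      ∀ {b : ℝ}, (∀ p, |φ p| ≤ b) → Integrable φ γ := fun hφ b hb =>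
    Integrable.of_bound hφ.aestronglyMeasurable b
      (Eventually.of_forall fun p => (Real.norm_eq_abs _).trans_le (hb p))
  have hZb : ∀ k : X → ℝ, |gmn k Z| ≤ ∑ x, Z x := fun k => by
    rw [abs_of_nonneg (gmn_nonneg k hZ)]
    exact (gmn_mono k fun x => Finset.single_le_sum (fun y _ => hZ y) (Finset.mem_univ x)).trans_eq
      (gmn_const k _)
  have i_r1 := hbd (continuous_rav c1 Θ) fun p => abs_rav_le (h1 p) hB
  have i_r4 := hbd (continuous_rav c4 Θ) fun p => abs_rav_le (h4 p) hB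
  have i_z1 := hbd (continuous_gmn c1 Z) fun p => hZb (h1 p)
  have i_z4 := hbd (continuous_gmn c4 Z) fun p => hZb (h4 p)
  have i_l := hbd (continuous_lone c3 c4) (b := 2) fun p => by
    rw [abs_of_nonneg (lone_nonneg _ _)]; exact lone_le_two _ _
  have s1 : ∀ (F : (X → ℝ) → ℝ), Measurable F → ∀ b, (∀ q, |F q| ≤ b) →
      ∫ g, F (fun x => a x + G x + (c x + ⟪g, w x⟫)) ∂stdGaussian (EuclideanSpace ℝ κ) =
        ∫ p, F (h1 p) ∂γ := fun F hF b hb => by
    have := integral_field_split v w vh R hw hperp hgram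
      (F := fun q => F fun x => a x + G x + (c x + q x)) (hF.comp (by fun_prop)) fun q => hb _
    rw [this, integral_prod]
    exact Integrable.of_bound ((hF.comp (by fun_prop : Measurable h1))).aestronglyMeasurable b
      (Eventually.of_forall fun p => (Real.norm_eq_abs _).trans_le (hb _))
  have s4 : ∀ (F : (X → ℝ) → ℝ), Measurable F → ∀ b, (∀ q, |F q| ≤ b) →
      ∫ g, F (fun x => a x + min (G x) L + ⟪g, v x⟫) ∂stdGaussian (EuclideanSpace ℝ ι) =
        ∫ p, F (h4 p) ∂γ := fun F _ b _ => by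
    have h := integral_fun_fst (μ := stdGaussian (EuclideanSpace ℝ ι))
      (ν := stdGaussian (EuclideanSpace ℝ κ)) fun g => F fun x => a x + min (G x) L + ⟪g, v x⟫
    simp only [probReal_univ, one_smul] at h
    exact h.symm
  rw [s1 (fun q => rav q Θ) (continuous_rav (fun x => continuous_apply x) Θ).measurable B
      (fun q => abs_rav_le q hB),
    s4 (fun q => rav q Θ) (continuous_rav (fun x => continuous_apply x) Θ).measurable B
      (fun q => abs_rav_le q hB),
    s1 (fun q => gmn q Z) (continuous_gmn (fun x => continuous_apply x) Z).measurable _ hZb,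
    s4 (fun q => gmn q Z) (continuous_gmn (fun x => continuous_apply x) Z).measurable _ hZb,
    ← integral_sub i_r1 i_r4]
  have irhs : Integrable (fun p => B * r * ((12 * D / L + 2 / M) * gmn (h1 p) Z +
      2 / M * gmn (h4 p) Z + 3 * lone (h3 p) (h4 p))) γ :=
    (((i_z1.const_mul _).add (i_z4.const_mul _)).add (i_l.const_mul _)).const_mul _
  refine abs_integral_le_integral_abs.trans ((integral_mono (i_r1.sub i_r4).abs irhs key).trans ?_)
  rw [integral_const_mul,
    integral_add ((i_z1.const_mul _).fun_add (i_z4.const_mul _)) (i_l.const_mul _),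
    integral_add (i_z1.const_mul _) (i_z4.const_mul _), integral_const_mul, integral_const_mul,
    integral_const_mul]
  refine mul_le_mul_of_nonneg_left (add_le_add le_rfl (mul_le_mul_of_nonneg_left ?_ (by norm_num)))
    (by positivity)
  rw [integral_prod _ i_l]
  refine (integral_mono (g := fun _ => a₀ + (κ₁ * M / 2 + 2 * (κ₂ * M)) / a₀) i_l.integral_prod_left
    (integrable_const _) fun g => ?_).trans_eq (by simp)
  refine integral_lone_field_le (fun x => h4 (g, 0) x) R' c' (fun x => ?_) (fun x => ?_) ha₀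
  · simp only [R']
    split_ifs with hx
    · exact (hR x).trans (mul_le_mul_of_nonneg_left hx hκ₁)
    · simp only [norm_zero, ne_eq, OfNat.ofNat_ne_zero, not_false_eq_true, zero_pow]
      positivity
  · simp only [c']
    split_ifs with hx
    · exact (hc x).trans (mul_le_mul_of_nonneg_left hx hκ₂)
    · simp only [abs_zero]; positivity

end Vale.Agent.P166F.Low.Tgt
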