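import Vale.Agent.P166F.Low.Rot
import Vale.Agent.P166F.Low.Target.Avg

/-!
P166: the regime of base systems: slopes, class sizes, and the concentration of the block norms of a new
column.
-/

namespace Vale.Agent.P166F.Low.Tgt

open MeasureTheory Filter
open scoped Topology
open Vale.Agent.P166N.Spectrum (OrthInvLaw)

section Labels

variable {κ : Type} [DecidableEq κ] {e f : κ} {N n P : ℕ} {dl : κ → ℝ} {s : ℝ} {y : CIdx Unit P → ℝ}

/-- The labels of the moved rows. -/
def newLab (g : κ → κ) (x : Fld e) : κ := Sum.elim (fun j => g j.1) (fun j => lab e f j.1) x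

variable [Fintype κ]

lemma clsEnergy_moved (b : Base e f N) (he : dl e = 0) (g : κ → κ) (U : Fin N → Fin N → ℝ)
    (σ : Fin N → Bool) :
    clsEnergy dl (b.moved g) U σ = clsEnergy dl b.lbl U σ +
      (∑ x : Fld e, dl (newLab (f := f) g x) * b.fields U σ x ^ 2) / 2 := by
  have h1 : ∑ x : Fld e, dl (b.moved g (b.row x)) * coord U σ (b.row x) ^ 2 =
      ∑ i, (dl (b.moved g i) * coord U σ i ^ 2 - dl (b.lbl i) * coord U σ i ^ 2) :=
    Fintype.sum_of_injective b.row b.inj _ _
      (fun i hi => by rw [b.moved_off _ fun ⟨x, hx⟩ => hi ⟨x, hx⟩, sub_self])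
      fun x => by rw [b.inRest, he, zero_mul, sub_zero]
  rw [Finset.sum_sub_distrib] at h1
  simp only [b.moved_row] at h1
  simp only [clsEnergy, newLab, Base.fields] at h1 ⊢
  linarith

omit [Fintype κ] in
lemma featV_moved (b : Base e f N) (hef : e ≠ f) {g : κ → κ} (hg : ∀ j : Slot e, g j.1 ≠ f)
    (U : Fin N → Fin N → ℝ) (σ : Fin N → Bool) :
    featV n (b.moved g) f U σ = featV n b.lbl f U σ := by
  have hlab : ∀ i, (b.moved g i = f ↔ b.lbl i = f) := fun i => by
    by_cases h : ∃ x, b.row x = i
    · obtain ⟨x, rfl⟩ := h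
      rw [b.moved_row, b.inRest]
      refine iff_of_false ?_ hef
      rcases x with j | j
      · exact hg j
      · exact lab_ne hef _
    · rw [b.moved_off _ h]
  simp only [featV, hlab]

lemma pertH_moved (b : Base e f N) (hef : e ≠ f) (he : dl e = 0) {g : κ → κ}
    (hg : ∀ j : Slot e, g j.1 ≠ f) (U : Fin N → Fin N → ℝ)
    (γ : EuclideanSpace ℝ (GIdx Unit P N)) (σ : Fin N → Bool) :
    pertH dl n (b.moved g) f s y U γ σ = pertH dl n b.lbl f s y U γ σ +
      (∑ x : Fld e, dl (newLab (f := f) g x) * b.fields U σ x ^ 2) / 2 := by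
  rw [pertH, pertH, featV_moved b hef hg, clsEnergy_moved b he]
  ring

lemma csize_moved (b : Base e f N) (g : κ → κ) (j : κ) :
    (csize (b.moved g) j : ℝ) ≤ csize b.lbl j + Fintype.card (Fld e) ∧
      (csize b.lbl j : ℝ) ≤ csize (b.moved g) j + Fintype.card (Fld e) := by
  classical
  have hsub : ∀ l l' : Fin N → κ, (∀ i, (¬∃ x, b.row x = i) → l i = l' i) →
      csize l j ≤ csize l' j + Fintype.card (Fld e) := fun l l' h => by
    refine (Finset.card_le_card (t := (Finset.univ.filter fun i => l' i = j) ∪ Finset.univ.image b.row)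
      fun i hi => ?_).trans ((Finset.card_union_le _ _).trans (Nat.add_le_add_left Finset.card_image_le _))
    simp only [Finset.mem_filter, Finset.mem_univ, true_and] at hi
    simp only [Finset.mem_union, Finset.mem_filter, Finset.mem_univ, true_and, Finset.mem_image]
    by_cases hx : ∃ x, b.row x = i
    · exact Or.inr hx
    · exact Or.inl (by rw [← h i hx, hi])
  constructor
  · exact_mod_cast hsub _ _ fun i hi => b.moved_off g hi
  · exact_mod_cast hsub _ _ fun i hi => (b.moved_off g hi).symm

omit [Fintype κ] in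
lemma csize_plus (b : Base e f N) (j : κ) :
    (csize (b.moved id) j : ℝ) ≤ csize b.plus j ∧
      (csize b.plus j : ℝ) ≤ csize (b.moved id) j + 1 := by
  have h : csize b.plus j = csize (b.moved id) j + if e = j then 1 else 0 := by
    simp only [csize, Finset.card_filter, Fin.sum_univ_castSucc, b.plus_castSucc, b.plus_last]
  rw [h]
  push_cast
  constructor <;> split_ifs <;> linarith

omit [Fintype κ] in
lemma card_restRows (b : Base e f N) (j : κ) :
    (csize b.plus j : ℝ) - 1 ≤ (restRows b j).card := by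
  classical
  have h : (Finset.univ.filter fun i => b.plus i = j) ⊆ insert (b.rep j) (restRows b j) := fun i hi => by
    simp only [Finset.mem_filter, Finset.mem_univ, true_and] at hi
    simp only [Finset.mem_insert, restRows, Finset.mem_filter, Finset.mem_univ, true_and, hi]
    tauto
  have h2 := (Finset.card_le_card h).trans (Finset.card_insert_le _ _)
  have h3 : csize b.plus j ≤ (restRows b j).card + 1 := h2
  have : (csize b.plus j : ℝ) ≤ (restRows b j).card + 1 := by exact_mod_cast h3
  linarith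

end Labels

variable {K : ℕ} {a : Atoms K} {i0 : Fin K} (R : Regime a i0) {β : ℝ}

lemma some_ne_none' : (some i0 : Option (Fin K)) ≠ none := Option.some_ne_none i0

lemma dlA_some : dlA a β i0 (some i0) = 0 := by simp [dlA]

lemma dlA_none : dlA a β i0 none = 0 := rfl

lemma dlA_nonneg (hβ : 0 < β) (hmin : ∀ i, a.lam i0 ≤ a.lam i) (j : Option (Fin K)) :
    0 ≤ dlA a β i0 j := by
  cases j with
  | none => exact le_rfl
  | some i => exact mul_nonneg hβ.le (sub_nonneg.2 (hmin i))

/-- The limiting block norms. -/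
noncomputable def lim (R : Regime a i0) : Option (Fin K) → ℝ := vA a i0 R.θ

lemma lim_pos (j : Option (Fin K)) : 0 < lim R j := by
  cases j with
  | none => exact Real.sqrt_pos.2 R.θmem.1
  | some i =>
    refine Real.sqrt_pos.2 ?_
    split_ifs with h
    · subst h; linarith [R.θmem.2]
    · exact a.pos i

lemma lim_sq : (lim R none) ^ 2 = R.θ ∧
    ∀ i, (lim R (some i)) ^ 2 = if i = i0 then a.wt i - R.θ else a.wt i := by
  refine ⟨Real.sq_sqrt R.θmem.1.le, fun i => Real.sq_sqrt ?_⟩
  split_ifs with h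
  · subst h; linarith [R.θmem.2]
  · exact (a.pos i).le

lemma unit0_lim : Unit0 (lim R) := by
  refine ⟨fun j => (lim_pos R j).le, ?_⟩
  rw [Fintype.sum_option, (lim_sq R).1]
  simp only [(lim_sq R).2]
  rw [Finset.sum_congr rfl fun i _ => show (if i = i0 then a.wt i - R.θ else a.wt i) =
    a.wt i - if i = i0 then R.θ else 0 by split_ifs <;> ring, Finset.sum_sub_distrib, a.total]
  simp

lemma tendsto_N : Tendsto (fun i => ((R.N i : ℝ))) atTop atTop :=
  tendsto_natCast_atTop_atTop.comp R.top

/-- Eventually every class holds a fixed share, up to any fixed number of rows. -/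
lemma exists_share (k0 : ℝ) : ∃ c : ℝ, 0 < c ∧ ∀ᶠ i in atTop, 1 ≤ R.N i ∧
    ∀ j, c * ((R.N i : ℝ) + 1) + k0 ≤ csize (R.base i).lbl j := by
  obtain ⟨c, hc, hcj⟩ : ∃ c : ℝ, 0 < c ∧ ∀ j, c < lim R j ^ 2 := by
    obtain ⟨j0, -, hj0⟩ := Finset.exists_min_image (Finset.univ : Finset (Option (Fin K)))
      (fun j => lim R j ^ 2) Finset.univ_nonempty
    have h0 := pow_pos (lim_pos R j0) 2
    exact ⟨lim R j0 ^ 2 / 2, by linarith, fun j => by linarith [hj0 j (Finset.mem_univ j)]⟩
  refine ⟨c / 4, by linarith, ?_⟩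
  have h1 : ∀ᶠ i in atTop, ∀ j, c < (csize (R.base i).lbl j : ℝ) / R.N i :=
    Filter.eventually_all.2 fun j => (R.frac j).eventually (lt_mem_nhds (hcj j))
  filter_upwards [h1, R.top.eventually (eventually_ge_atTop 1),
    (tendsto_N R).eventually (eventually_ge_atTop (2 * |k0| / c))] with i h1 h2 h3
  refine ⟨h2, fun j => ?_⟩
  have hN : (1 : ℝ) ≤ R.N i := by exact_mod_cast h2
  have h4 := h1 j
  rw [lt_div_iff₀ (by linarith)] at h4
  rw [div_le_iff₀ hc] at h3
  nlinarith [le_abs_self k0]

/-- The limits of the classes of the enlarged systems. -/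
lemma tendsto_plus (j : Option (Fin K)) :
    Tendsto (fun i => (csize (R.base i).plus j : ℝ) / ((R.N i : ℝ) + 1)) atTop (𝓝 (lim R j ^ 2)) := by
  set k : ℝ := (Fintype.card (Fld (some i0 : Option (Fin K))) : ℝ) + 1
  have hN1 : Tendsto (fun i => (R.N i : ℝ) + 1) atTop atTop := tendsto_atTop_add_const_right _ _ (tendsto_N R)
  have hk : Tendsto (fun i => k / ((R.N i : ℝ) + 1)) atTop (𝓝 0) :=
    hN1.const_div_atTop k
  have hr : Tendsto (fun i => (R.N i : ℝ) / ((R.N i : ℝ) + 1)) atTop (𝓝 1) := by
    have h1 : Tendsto (fun i => 1 / ((R.N i : ℝ) + 1)) atTop (𝓝 0) := hN1.const_div_atTop 1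
    have h2 := h1.const_sub 1
    rw [sub_zero] at h2
    refine h2.congr fun i => ?_
    have : (R.N i : ℝ) + 1 ≠ 0 := by positivity
    field_simp
    ring
  have hm : Tendsto (fun i => (csize (R.base i).lbl j : ℝ) / ((R.N i : ℝ) + 1)) atTop
      (𝓝 (lim R j ^ 2)) := by
    have h := (R.frac j).mul hr
    rw [mul_one] at h
    refine h.congr' ((R.top.eventually (eventually_ge_atTop 1)).mono fun i hi => ?_)
    have : (R.N i : ℝ) ≠ 0 := by
      have : (1 : ℝ) ≤ R.N i := by exact_mod_cast hi
      linarith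
    field_simp
  have hlo := hm.sub hk
  have hhi := hm.add hk
  rw [sub_zero] at hlo
  rw [add_zero] at hhi
  refine tendsto_of_tendsto_of_tendsto_of_le_of_le hlo hhi (fun i => ?_) fun i => ?_
  · rw [← sub_div]
    refine div_le_div_of_nonneg_right ?_ (by positivity)
    linarith [(csize_moved (R.base i) id j).2, (csize_plus (R.base i) j).1]
  · rw [← add_div]
    refine div_le_div_of_nonneg_right ?_ (by positivity)
    linarith [(csize_moved (R.base i) id j).1, (csize_plus (R.base i) j).2]

variable {ν : (N : ℕ) → Measure (Fin N → Fin N → ℝ)}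

/-- The mean square deviation of the block norms of a new column. -/
noncomputable def badT (R : Regime a i0) (T : Option (Fin K) → ℝ) : ℝ :=
  ∑ j, (T j ^ 2 - lim R j ^ 2) ^ 2

lemma measurable_colBad (i : ℕ) :
    Measurable fun V => badT R (colNorm (R.base i).plus V) := by
  unfold badT
  exact (Finset.measurable_fun_sum _ fun j _ => ((((measurable_pi_apply j).pow_const 2).sub_const _).pow_const 2)).comp
    (measurable_colNorm _)

lemma integrable_colBad (hν : ∀ N, OrthInvLaw N (ν N)) (i : ℕ) :
    Integrable (fun V => badT R (colNorm (R.base i).plus V)) (ν (R.N i + 1)) := by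
  have := (hν (R.N i + 1)).prob
  refine Integrable.of_bound (measurable_colBad R i).aestronglyMeasurable
    (Fintype.card (Option (Fin K)) : ℝ) ((hν (R.N i + 1)).orth.mono fun V hV => ?_)
  have hT := unit0_colNorm (R.base i).plus hV
  rw [Real.norm_eq_abs, badT, abs_of_nonneg (Finset.sum_nonneg fun j _ => sq_nonneg _)]
  refine (Finset.sum_le_sum fun j _ => (?_ : _ ≤ (1 : ℝ))).trans_eq (by simp)
  have h1 := pow_le_one₀ (n := 2) (hT.nonneg j) (hT.le_one j)
  have h2 := pow_le_one₀ (n := 2) (lim_pos R j).le ((unit0_lim R).le_one j)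
  rw [← sq_abs]
  exact pow_le_one₀ (abs_nonneg _) (abs_le.2 ⟨by linarith [sq_nonneg (colNorm (R.base i).plus V j)],
    by linarith [sq_nonneg (lim R j)]⟩)

lemma tendsto_bad (hν : ∀ N, OrthInvLaw N (ν N)) :
    Tendsto (fun i => ∫ V, badT R (colNorm (R.base i).plus V) ∂ν (R.N i + 1)) atTop (𝓝 0) := by
  obtain ⟨C, hC⟩ := colNorm_conc (κ := Option (Fin K))
  have hlim : Tendsto (fun i => ∑ j : Option (Fin K), 2 * (C / ((R.N i : ℝ) + 1) +
      ((csize (R.base i).plus j : ℝ) / ((R.N i : ℝ) + 1) - lim R j ^ 2) ^ 2)) atTop (𝓝 0) := by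
    have h : ∀ j : Option (Fin K), Tendsto (fun i => 2 * (C / ((R.N i : ℝ) + 1) +
        ((csize (R.base i).plus j : ℝ) / ((R.N i : ℝ) + 1) - lim R j ^ 2) ^ 2)) atTop (𝓝 0) := fun j => by
      have h2 := ((tendsto_atTop_add_const_right atTop (1 : ℝ) (tendsto_N R)).const_div_atTop C).add
        (((tendsto_plus R j).sub_const (lim R j ^ 2)).pow 2)
      simpa using h2.const_mul 2
    have hs := tendsto_finsetSum Finset.univ fun j _ => h j
    rwa [Finset.sum_const_zero] at hs
  refine squeeze_zero (fun i => integral_nonneg fun V => Finset.sum_nonneg fun j _ => sq_nonneg _)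
    (fun i => ?_) hlim
  have := (hν (R.N i + 1)).prob
  set c : Option (Fin K) → ℝ := fun j => (csize (R.base i).plus j : ℝ) / ((R.N i : ℝ) + 1)
  have hm : ∀ j, Measurable fun V => (colNorm (R.base i).plus V j ^ 2 - c j) ^ 2 := fun j =>
    ((((measurable_pi_apply j).comp (measurable_colNorm _)).pow_const 2).sub_const _).pow_const 2
  have hi : ∀ j, Integrable (fun V => (colNorm (R.base i).plus V j ^ 2 - c j) ^ 2) (ν (R.N i + 1)) :=
    fun j => Integrable.of_bound (hm j).aestronglyMeasurable ((1 + |c j|) ^ 2)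
      ((hν (R.N i + 1)).orth.mono fun V hV => by
        have hT := unit0_colNorm (R.base i).plus hV
        rw [Real.norm_eq_abs, abs_pow]
        refine pow_le_pow_left₀ (abs_nonneg _) ((abs_sub _ _).trans ?_) 2
        rw [abs_of_nonneg (sq_nonneg (colNorm (R.base i).plus V j))]
        linarith [pow_le_one₀ (n := 2) (hT.nonneg j) (hT.le_one j)])
  have hd : ∀ j, Integrable (fun V => 2 * ((colNorm (R.base i).plus V j ^ 2 - c j) ^ 2 +
      (c j - lim R j ^ 2) ^ 2)) (ν (R.N i + 1)) := fun j => ((hi j).add (integrable_const _)).const_mul 2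
  refine (integral_mono (integrable_colBad R hν i) (integrable_finsetSum _ fun j _ => hd j) fun V =>
    Finset.sum_le_sum fun j _ => ?_).trans ?_
  · nlinarith [sq_nonneg (colNorm (R.base i).plus V j ^ 2 - c j - (c j - lim R j ^ 2))]
  · rw [integral_finsetSum _ fun j _ => hd j]
    refine Finset.sum_le_sum fun j _ => ?_
    rw [integral_const_mul, integral_add (hi j) (integrable_const _), integral_const, probReal_univ,
      one_smul]
    exact mul_le_mul_of_nonneg_left (add_le_add (hC _ _ _ (hν _) j) le_rfl) two_pos.le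

lemma integrable_colDist (hν : ∀ N, OrthInvLaw N (ν N)) (i : ℕ) :
    Integrable (fun V => ∑ j, |colNorm (R.base i).plus V j - lim R j|) (ν (R.N i + 1)) := by
  have := (hν (R.N i + 1)).prob
  refine integrable_finsetSum _ fun j _ => Integrable.of_bound
    (((measurable_pi_apply j).comp (measurable_colNorm _)).sub_const _).abs.aestronglyMeasurable 2
    ((hν (R.N i + 1)).orth.mono fun V hV => ?_)
  have hT := unit0_colNorm (R.base i).plus hV
  rw [Real.norm_eq_abs, abs_abs]
  exact (abs_sub _ _).trans (by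
    rw [abs_of_nonneg (hT.nonneg j), abs_of_pos (lim_pos R j)]
    linarith [hT.le_one j, (unit0_lim R).le_one j])

lemma tendsto_colDist (hν : ∀ N, OrthInvLaw N (ν N)) :
    Tendsto (fun i => ∫ V, ∑ j, |colNorm (R.base i).plus V j - lim R j| ∂ν (R.N i + 1)) atTop (𝓝 0) := by
  have hlim : Tendsto (fun i => ∑ j, Real.sqrt (∫ V, badT R (colNorm (R.base i).plus V) ∂ν (R.N i + 1)) /
      lim R j) atTop (𝓝 0) := by
    have h : ∀ j, Tendsto (fun i => Real.sqrt (∫ V, badT R (colNorm (R.base i).plus V) ∂ν (R.N i + 1)) /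
        lim R j) atTop (𝓝 0) := fun j => by
      simpa using (tendsto_bad R hν).sqrt.div_const (lim R j)
    have hs := tendsto_finsetSum Finset.univ fun j _ => h j
    rwa [Finset.sum_const_zero] at hs
  refine squeeze_zero (fun i => integral_nonneg fun V => Finset.sum_nonneg fun j _ => abs_nonneg _)
    (fun i => ?_) hlim
  have := (hν (R.N i + 1)).prob
  have hint : ∀ j, Integrable (fun V => |colNorm (R.base i).plus V j - lim R j|) (ν (R.N i + 1)) :=
    fun j => (integrable_colDist R hν i).mono'
      (((measurable_pi_apply j).comp (measurable_colNorm _)).sub_const _).abs.aestronglyMeasurable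
      (Eventually.of_forall fun V => by
        rw [Real.norm_eq_abs, abs_abs]
        exact Finset.single_le_sum (f := fun j => |colNorm (R.base i).plus V j - lim R j|)
          (fun j _ => abs_nonneg _) (Finset.mem_univ j))
  rw [integral_finsetSum _ fun j _ => hint j]
  refine Finset.sum_le_sum fun j _ => ?_
  rw [le_div_iff₀ (lim_pos R j), ← integral_mul_const]
  refine (Real.le_sqrt (integral_nonneg fun V => mul_nonneg (abs_nonneg _) (lim_pos R j).le)
    (integral_nonneg fun V => Finset.sum_nonneg fun j _ => sq_nonneg _)).2 ?_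
  have hpt : ∀ᵐ V ∂ν (R.N i + 1), (|colNorm (R.base i).plus V j - lim R j| * lim R j) ^ 2 ≤
      badT R (colNorm (R.base i).plus V) := (hν (R.N i + 1)).orth.mono fun V hV => by
    have hT := (unit0_colNorm (R.base i).plus hV).nonneg j
    refine le_trans ?_ (Finset.single_le_sum (f := fun j => (colNorm (R.base i).plus V j ^ 2 -
      lim R j ^ 2) ^ 2) (fun j _ => sq_nonneg _) (Finset.mem_univ j))
    rw [mul_pow, sq_abs, sq_sub_sq, mul_pow, mul_comm]
    refine mul_le_mul_of_nonneg_right (pow_le_pow_left₀ (lim_pos R j).le ?_ 2) (sq_nonneg _)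
    linarith
  have hsq : Integrable (fun V => (|colNorm (R.base i).plus V j - lim R j| * lim R j) ^ 2)
      (ν (R.N i + 1)) :=
    (integrable_colBad R hν i).mono' (((((measurable_pi_apply j).comp
      (measurable_colNorm _)).sub_const _).abs.mul_const _).pow_const 2).aestronglyMeasurable
      (hpt.mono fun V h => by rwa [Real.norm_eq_abs, abs_of_nonneg (sq_nonneg _)])
  exact (Orth.sq_integral_le ((hint j).mul_const _) hsq).trans
    (integral_mono_ae hsq (integrable_colBad R hν i) hpt)

/-- The cost of the perturbation on one row vanishes. -/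
lemma tendsto_small : Tendsto (fun i => R.s i ^ 2 * ((R.P i : ℝ) + 1) ^ 2 / R.n i) atTop (𝓝 0) := by
  refine squeeze_zero (fun i => by positivity) (fun i => ?_) R.small
  refine div_le_div_of_nonneg_right ?_ (Nat.cast_nonneg _)
  have h1 : (1 : ℝ) ≤ ((R.P i : ℝ) + 1) ^ 2 :=
    one_le_pow₀ (le_add_of_nonneg_left (Nat.cast_nonneg _))
  nlinarith [sq_nonneg (R.s i), sq_nonneg ((R.P i : ℝ) + 1),
    mul_le_mul_of_nonneg_left h1 (sq_nonneg ((R.P i : ℝ) + 1))]

end Vale.Agent.P166F.Low.Tgt
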