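import Vale.Agent.P166F.Low.Decomp.Split
import Vale.Agent.P166F.Low.Target.Moments
import Vale.Agent.P166F.Low.Target.Frame
import Vale.Agent.P166F.Low.Target.Perturb

/-!
P166: the enlarged system at a split rotation against the base reweighted by the truncated spin weight.
-/

namespace Vale.Agent.P166F.Low.Tgt

open MeasureTheory ProbabilityTheory Matrix Filter
open scoped RealInnerProductSpace
open Vale.Agent.P166 (spin)
open Vale.Agent.P166F.Orth (mm)

variable {κ : Type} [Fintype κ] [DecidableEq κ] {e f : κ} {N P r n : ℕ} {dl : κ → ℝ} {s : ℝ}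
  {y : CIdx Unit P → ℝ}

/-- A configuration and a new spin as one configuration. -/
def cfgEq (N : ℕ) : (Fin N → Bool) × Bool ≃ (Fin (N + 1) → Bool) :=
  (Equiv.prodComm _ _).trans (Fin.snocEquiv fun _ => Bool)

lemma cfgEq_apply {N : ℕ} (p : (Fin N → Bool) × Bool) : cfgEq N p = Fin.snoc p.1 p.2 := rfl

lemma spin_sq (t : Bool) : spin t ^ 2 = 1 := by cases t <;> simp [spin]

/-- The fields of the base and the new spin, seen in the enlarged system. -/
def zW (b : Base e f N) (W : Fin (N + 1) → Fin (N + 1) → ℝ) (σ : Fin (N + 1) → Bool) : ℝ :=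
  ∑ j, coord W σ (b.rep j) ^ 2 + ∑ j : Slot e, coord W σ (b.row (Sum.inr j)).castSucc ^ 2

/-- The features of the enlarged system away from the representative. -/
noncomputable def featB (b : Base e f N) (n : ℕ) (W : Fin (N + 1) → Fin (N + 1) → ℝ)
    (σ : Fin (N + 1) → Bool) : EuclideanSpace ℝ (Fin (N + 1)) :=
  WithLp.toLp 2 fun i => if i = b.rep f then 0 else featV n b.plus f W σ i

/-- The overlaps of the features of the base, seen in the enlarged system. -/
noncomputable def gramB (b : Base e f N) (n : ℕ) (W : Fin (N + 1) → Fin (N + 1) → ℝ) {r : ℕ}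
    (x : Fin r → Fin (N + 1) → Bool) (a c : Fin r) : ℝ :=
  ⟪featB b n W (x a), featB b n W (x c)⟫

/-- The averages of the enlarged system at class norms `T`. -/
noncomputable def evT (dl : κ → ℝ) (n : ℕ) (b : Base e f N) (s : ℝ) (y : CIdx Unit P → ℝ)
    (ν : Measure (Fin N → Fin N → ℝ)) (T : κ → ℝ)
    (Θ : (Fin (N + 1) → Fin (N + 1) → ℝ) → (Fin r → Fin (N + 1) → Bool) → ℝ) : ℝ :=
  ev dl n b.plus f s y (ν.map (b.splitRot T)) Θ

/-- The mean over the field of an average in the base reweighted by `Φ`. -/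
noncomputable def tint (dl : κ → ℝ) (n : ℕ) (b : Base e f N) (s : ℝ) (y : CIdx Unit P → ℝ)
    (Φ : (Fld e → ℝ) → ℝ) (U : Fin N → Fin N → ℝ) (Θ : (Fin r → Fin N → Bool) → ℝ) : ℝ :=
  ∫ g, rav (fun σ => pertH dl n b.lbl f s y U g σ + Real.log (Φ (b.fields U σ))) Θ
    ∂stdGaussian (EuclideanSpace ℝ (GIdx Unit P N))

lemma coord_rep (b : Base e f N) (T : κ → ℝ) (U : Fin N → Fin N → ℝ) (σ : Fin N → Bool) (t : Bool)
    (j : κ) :
    coord (b.splitRot T U) (Fin.snoc σ t) (b.rep j) = frame e T (fill e (b.fields U σ) (spin t)) j := by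
  rw [b.coord_splitRot, b.plus_rep, if_pos rfl]

lemma coord_probe (b : Base e f N) (T : κ → ℝ) (U : Fin N → Fin N → ℝ) (σ : Fin N → Bool) (t : Bool)
    (j : Slot e) :
    coord (b.splitRot T U) (Fin.snoc σ t) (b.row (Sum.inr j)).castSucc =
      b.fields U σ (Sum.inr j) := by
  rw [b.coord_splitRot, if_neg (b.rep_ne_inr _ j), Fin.snoc_castSucc, Base.fields]

lemma zW_splitRot (b : Base e f N) (T : κ → ℝ) (U : Fin N → Fin N → ℝ) (σ : Fin N → Bool) (t : Bool) :
    zW b (b.splitRot T U) (Fin.snoc σ t) = zn (b.fields U σ) := by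
  simp only [zW, coord_rep, coord_probe]
  have h := Low.frame_dot e T (fill e (b.fields U σ) (spin t)) (fill e (b.fields U σ) (spin t))
  simp only [← pow_two] at h
  rw [h]
  exact (sum_fill_sq_le (b.fields U σ) (spin_sq t)).2

/-- The energy at a split rotation. -/
lemma clsEnergy_splitRot (b : Base e f N) (he : dl e = 0) (hf : dl f = 0) (T : κ → ℝ)
    (U : Fin N → Fin N → ℝ) (σ : Fin N → Bool) (t : Bool) :
    clsEnergy dl b.plus (b.splitRot T U) (Fin.snoc σ t) =
      clsEnergy dl b.lbl U σ + spinQ dl e T (b.fields U σ) (spin t) := by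
  have h := b.class_splitRot T U σ σ t t dl he
  simp only [← pow_two] at h
  have h3 : ∀ j : Slot e, dl (lab e f j.1) = dl j.1 := fun j => by
    unfold lab
    split_ifs with h'
    · rw [he, h', hf]
    · rfl
  simp only [h3] at h
  rw [clsEnergy, clsEnergy, h, spinQ, probeQ]
  ring

lemma sum_featB_sq (b : Base e f N) (T : κ → ℝ) (U : Fin N → Fin N → ℝ) (hef : e ≠ f)
    (hn : N + 1 ≤ n) (σ σ' : Fin N → Bool) (t t' : Bool) :
    ⟪featB b n (b.splitRot T U) (Fin.snoc σ t), featB b n (b.splitRot T U) (Fin.snoc σ' t')⟫ =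
        ⟪featV n b.lbl f U σ, featV n b.lbl f U σ'⟫ ∧
      ⟪featV n b.plus f (b.splitRot T U) (Fin.snoc σ t),
          featV n b.plus f (b.splitRot T U) (Fin.snoc σ' t')⟫ =
        ⟪featV n b.lbl f U σ, featV n b.lbl f U σ'⟫ +
          frame e T (fill e (b.fields U σ) (spin t)) f *
            frame e T (fill e (b.fields U σ') (spin t')) f / n := by
  set W := b.splitRot T U
  have hm1 : max n (N + 1) = n := max_eq_left hn
  have hm : max n N = n := max_eq_left (by omega)
  have h := b.class_splitRot T U σ σ' t t' (fun l => if l = f then 1 else 0) (if_neg hef)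
  simp only [lab_ne hef, if_false, zero_mul, Finset.sum_const_zero, add_zero, ite_mul, one_mul,
    Finset.sum_ite_eq', Finset.mem_univ, if_true] at h
  have e2 : ⟪featV n b.plus f W (Fin.snoc σ t), featV n b.plus f W (Fin.snoc σ' t')⟫ =
      ⟪featV n b.lbl f U σ, featV n b.lbl f U σ'⟫ +
        frame e T (fill e (b.fields U σ) (spin t)) f *
          frame e T (fill e (b.fields U σ') (spin t')) f / n := by
    rw [inner_featV, inner_featV, hm1, hm, h, add_div]
  refine ⟨?_, e2⟩
  have e1 : ⟪featB b n W (Fin.snoc σ t), featB b n W (Fin.snoc σ' t')⟫ =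
      ⟪featV n b.plus f W (Fin.snoc σ t), featV n b.plus f W (Fin.snoc σ' t')⟫ -
        featV n b.plus f W (Fin.snoc σ t) (b.rep f) * featV n b.plus f W (Fin.snoc σ' t') (b.rep f) := by
    rw [PiLp.inner_apply, PiLp.inner_apply, ← Finset.add_sum_erase _ _ (Finset.mem_univ (b.rep f)),
      ← Finset.add_sum_erase Finset.univ (fun i => inner ℝ (featV n b.plus f W (Fin.snoc σ t) i)
        (featV n b.plus f W (Fin.snoc σ' t') i)) (Finset.mem_univ (b.rep f))]
    simp only [featB, if_pos, zero_add, RCLike.inner_apply, conj_trivial, mul_zero]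
    rw [Finset.sum_congr rfl fun i hi => by rw [if_neg (Finset.ne_of_mem_erase hi),
      if_neg (Finset.ne_of_mem_erase hi)]]
    ring
  have e3 : ∀ (τ : Fin N → Bool) (u : Bool), featV n b.plus f W (Fin.snoc τ u) (b.rep f) =
      frame e T (fill e (b.fields U τ) (spin u)) f / Real.sqrt n := fun τ u => by
    simp only [featV, if_pos (b.plus_rep f), hm1, W, coord_rep]
  rw [e1, e2, e3, e3, div_mul_div_comm, Real.mul_self_sqrt (Nat.cast_nonneg _)]
  ring

lemma pow_sub_pow_le {A B : ℝ} (hA : 0 ≤ A) (hAB : A ≤ B) (hB : B ≤ 1) :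
    ∀ p : ℕ, B ^ p - A ^ p ≤ (p : ℝ) * (B - A)
  | 0 => by simp
  | p + 1 => by
    have ih := pow_sub_pow_le hA hAB hB p
    have h0 : 0 ≤ B ^ p - A ^ p := sub_nonneg.2 (pow_le_pow_left₀ hA hAB p)
    have h1 : A ^ p ≤ 1 := pow_le_one₀ hA (hAB.trans hB)
    have h2 := mul_le_of_le_one_left h0 hB
    have h3 := mul_le_of_le_one_left (sub_nonneg.2 hAB) h1
    rw [pow_succ, pow_succ, show B ^ p * B - A ^ p * A = B * (B ^ p - A ^ p) + A ^ p * (B - A) by ring]
    push_cast
    linarith

omit [Fintype κ] [DecidableEq κ] in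
lemma card_mon (P : ℕ) : (Fintype.card (Mon Unit P) : ℝ) ≤ (P : ℝ) + 1 := by
  have h := Fintype.card_le_of_injective (fun e : Mon Unit P => e.1 ()) fun a b h =>
    Subtype.ext (funext fun _ => h)
  rw [Fintype.card_fin] at h
  exact_mod_cast h

/-- The reweighted sum over the new spin. -/
lemma rav_spin {X : Type} [Fintype X] [Nonempty X] (h : X → ℝ) (G : X → Bool → ℝ) (L : ℝ)
    (F : (Fin r → X) → ℝ) (k : Bool → ℝ) :
    rav (fun p : X × Bool => h p.1 + min (G p.1 p.2) L)
        (fun x => F (fun l => (x l).1) * ∏ l, k (x l).2) =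
      rav (fun x => h x + Real.log ((Real.exp (min (G x true) L) + Real.exp (min (G x false) L)) / 2))
        (fun x => F x * ∏ l, ((Real.exp (min (G (x l) true) L) * k true +
          Real.exp (min (G (x l) false) L) * k false) /
          (Real.exp (min (G (x l) true) L) + Real.exp (min (G (x l) false) L)))) := by
  rw [rav_sum, rav_eq, rav_eq]
  refine Finset.sum_congr rfl fun x _ => ?_
  have hs : hSum (fun p : X × Bool => h p.1 + min (G p.1 p.2) L) =
      fun x => (h x + Real.log ((Real.exp (min (G x true) L) + Real.exp (min (G x false) L)) / 2)) +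
        Real.log 2 := by
    funext x
    rw [hSum, Fintype.sum_bool, Real.exp_add, Real.exp_add, ← mul_add,
      Real.log_mul (Real.exp_pos _).ne' (by positivity), Real.log_exp,
      Real.log_div (by positivity) two_ne_zero]
    ring
  have hgw : ∀ (k : X → ℝ) (c : ℝ) (a : X), gw (fun x => k x + c) a = gw k a := fun k c a => by
    simp only [gw, Real.exp_add, ← Finset.sum_mul]
    exact mul_div_mul_right _ _ (Real.exp_pos c).ne'
  rw [hs]
  simp only [hgw]
  congr 1
  rw [show ∑ y : Fin r → Bool, (∏ l, gw (fun y => h (x l) + min (G (x l) y) L) (y l)) *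
      (F x * ∏ l, k (y l)) = F x * ∑ y : Fin r → Bool, ∏ l,
        (gw (fun y => h (x l) + min (G (x l) y) L) (y l) * k (y l)) by
    rw [Finset.mul_sum]
    exact Finset.sum_congr rfl fun y _ => by rw [Finset.prod_mul_distrib]; ring]
  rw [← Fintype.prod_sum fun l t => gw (fun y => h (x l) + min (G (x l) y) L) t * k t]
  congr 1
  refine Finset.prod_congr rfl fun l _ => ?_
  simp only [Fintype.sum_bool, gw, Real.exp_add, ← mul_add]
  have := Real.exp_pos (h (x l))
  field_simp

/-- The comparison at fixed class norms and base rotation. -/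
lemma abs_gint_sub_tint_le (b : Base e f N) (hef : e ≠ f) (he : dl e = 0) (hf : dl f = 0)
    (hn : N + 1 ≤ n) (hy : y ∈ PBox s) (hs : 0 ≤ s) {T : κ → ℝ} (hT : Unit0 T)
    {U : Fin N → Fin N → ℝ} (hU : IsOrth U) {L M a₀ B : ℝ} (hL : 0 < L) (hM : 0 < M) (ha₀ : 0 < a₀)
    (hB0 : 0 ≤ B) (F : (Fin r → Fin N → Bool) → ℝ) (hF : ∀ x, |F x| ≤ B) (k : Bool → ℝ)
    (hk : ∀ t, |k t| ≤ 1)
    (Θ : (Fin r → Fin (N + 1) → Bool) → ℝ)
    (hΘ : ∀ (x : Fin r → Fin N → Bool) (t : Fin r → Bool),
      Θ (fun l => Fin.snoc (x l) (t l)) = F x * ∏ l, k (t l)) :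
    |gint dl n b.plus f s y (b.splitRot T U) Θ -
      tint dl n b s y (spinW dl e T L) U (fun x => F x * ∏ l,
        ((Real.exp (min (spinQ dl e T (b.fields U (x l)) 1) L) * k true +
          Real.exp (min (spinQ dl e T (b.fields U (x l)) (-1)) L) * k false) /
          (Real.exp (min (spinQ dl e T (b.fields U (x l)) 1) L) +
            Real.exp (min (spinQ dl e T (b.fields U (x l)) (-1)) L))))| ≤
      B * r * ((12 * (∑ j, |dl j|) / L + 2 / M) *
          gint dl n b.plus f s y (b.splitRot T U) (fun x : Fin 1 → Fin (N + 1) → Bool =>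
            zW b (b.splitRot T U) (x 0)) +
        2 / M * tint dl n b s y (spinW dl e T L) U (fun x : Fin 1 → Fin N → Bool =>
          zn (b.fields U (x 0))) +
        3 * (a₀ + (4 * s ^ 2 * ((P : ℝ) + 1) ^ 2 / n * M / 2 + 2 * (2 * s ^ 2 / n * M)) / a₀)) := by
  set W := b.splitRot T U
  have hWo : IsOrth W :=
    (b.splitRot_fix T ⟨hU, fun i hi => absurd hi (Finset.notMem_empty i)⟩).1
  have hn0 : (0 : ℝ) < n := by exact_mod_cast (show 0 < n by omega)
  set X := (Fin N → Bool) × Bool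
  set D := ∑ j, |dl j|
  set a : X → ℝ := fun p => clsEnergy dl b.lbl U p.1 + s * y (Sum.inr ()) * ‖featV n b.lbl f U p.1‖ ^ 2
    with ha
  set c : X → ℝ := fun p => s * y (Sum.inr ()) *
    (frame e T (fill e (b.fields U p.1) (spin p.2)) f ^ 2 / n) with hc
  set G : X → ℝ := fun p => spinQ dl e T (b.fields U p.1) (spin p.2) with hG
  set Z : X → ℝ := fun p => zn (b.fields U p.1) with hZ
  set v : X → EuclideanSpace ℝ (GIdx Unit P N) := fun p => pvec y (featV n b.lbl f U p.1)
  set w : X → EuclideanSpace ℝ (GIdx Unit P (N + 1)) := fun p =>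
    pvec y (featV n b.plus f W (cfgEq N p))
  set vh : X → EuclideanSpace ℝ (GIdx Unit P (N + 1)) := fun p => pvec y (featB b n W (cfgEq N p))
  have hperp : ∀ p q, ⟪vh p, w q - vh q⟫ = 0 := fun p q => by
    simp only [PiLp.inner_apply, RCLike.inner_apply, conj_trivial]
    refine Finset.sum_eq_zero fun i _ => ?_
    simp only [WithLp.ofLp_sub, Pi.sub_apply, w, vh, pvec, featB]
    by_cases h : ∃ j t, i.2 j t = b.rep f
    · obtain ⟨j, t, hjt⟩ := h
      rw [Finset.prod_eq_zero (i := j) (Finset.mem_univ j)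
        (f := fun j => ∏ t, if i.2 j t = b.rep f then (0 : ℝ) else featV n b.plus f W (cfgEq N p) (i.2 j t))
        (Finset.prod_eq_zero (Finset.mem_univ t) (if_pos hjt))]
      ring
    · simp only [not_exists] at h
      simp only [if_neg (h _ _), sub_self, zero_mul]
  have hgram : ∀ p q, ⟪vh p, vh q⟫ = ⟪v p, v q⟫ := fun p q => by
    simp only [vh, v, inner_pvec, cfgEq_apply, W, (sum_featB_sq b T U hef hn p.1 q.1 p.2 q.2).1]
  have hφ : ∀ p : X, frame e T (fill e (b.fields U p.1) (spin p.2)) f ^ 2 ≤ Z p := fun p =>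
    (Low.sum_frame_sq_le e T _ f).trans (sum_fill_sq_le _ (spin_sq _)).1
  have hy0 := hy (Sum.inr ())
  have hR : ∀ p, ‖w p - vh p‖ ^ 2 ≤ 4 * s ^ 2 * ((P : ℝ) + 1) ^ 2 / n * Z p := fun p => by
    have e1 : ‖w p - vh p‖ ^ 2 = ‖w p‖ ^ 2 - ‖vh p‖ ^ 2 := by
      have h0 := hperp p p
      rw [inner_sub_right, sub_eq_zero] at h0
      rw [norm_sub_sq_real, real_inner_comm, h0, real_inner_self_eq_norm_sq]
      ring
    have h2 := sum_featB_sq b T U hef hn p.1 p.1 p.2 p.2
    have e2 : ‖featV n b.plus f W (cfgEq N p)‖ ^ 2 = ‖featV n b.lbl f U p.1‖ ^ 2 +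
        frame e T (fill e (b.fields U p.1) (spin p.2)) f ^ 2 / n := by
      rw [← real_inner_self_eq_norm_sq, cfgEq_apply, h2.2, real_inner_self_eq_norm_sq]
      ring
    have e3 : ‖featB b n W (cfgEq N p)‖ ^ 2 = ‖featV n b.lbl f U p.1‖ ^ 2 := by
      rw [← real_inner_self_eq_norm_sq, cfgEq_apply, h2.1, real_inner_self_eq_norm_sq]
    have hle : ‖featV n b.plus f W (cfgEq N p)‖ ^ 2 ≤ 1 :=
      pow_le_one₀ (norm_nonneg _) (Low.norm_featV_le hWo n _ _ _)
    rw [e1, ← real_inner_self_eq_norm_sq, ← real_inner_self_eq_norm_sq, inner_pvec, inner_pvec,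
      ← Finset.sum_sub_distrib]
    simp only [real_inner_self_eq_norm_sq, e3, ← mul_sub]
    set A := ‖featV n b.lbl f U p.1‖ ^ 2
    set u := frame e T (fill e (b.fields U p.1) (spin p.2)) f ^ 2 / (n : ℝ) with hu
    have hu0 : 0 ≤ u := div_nonneg (sq_nonneg _) hn0.le
    have huZ : u ≤ Z p / n := div_le_div_of_nonneg_right (hφ p) hn0.le
    calc _ ≤ ∑ _e : Mon Unit P, 4 * s ^ 2 * (((P : ℝ) + 1) * u) := Finset.sum_le_sum fun i _ => by
          have h1 : y (Sum.inl i) ^ 2 ≤ 4 * s ^ 2 := by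
            nlinarith [(hy (Sum.inl i)).1, (hy (Sum.inl i)).2]
          have h3 := pow_sub_pow_le (sq_nonneg ‖featV n b.lbl f U p.1‖)
            (le_add_of_nonneg_right hu0) (e2 ▸ hle) (i.1 () : ℕ)
          have h4 : ((i.1 () : ℕ) : ℝ) ≤ (P : ℝ) + 1 := by
            exact_mod_cast (i.1 ()).isLt.le
          have h5 := mul_le_mul_of_nonneg_right h4 hu0
          have h0 : 0 ≤ (A + u) ^ (i.1 () : ℕ) - A ^ (i.1 () : ℕ) :=
            sub_nonneg.2 (pow_le_pow_left₀ (sq_nonneg _) (le_add_of_nonneg_right hu0) _)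
          rw [e2]
          refine mul_le_mul h1 ?_ h0 (by positivity)
          simp only [add_sub_cancel_left] at h3
          linarith
      _ ≤ ((P : ℝ) + 1) * (4 * s ^ 2 * (((P : ℝ) + 1) * u)) := by
          rw [Finset.sum_const, nsmul_eq_mul, Finset.card_univ]
          exact mul_le_mul_of_nonneg_right (card_mon P) (by positivity)
      _ = 4 * s ^ 2 * ((P : ℝ) + 1) ^ 2 * u := by ring
      _ ≤ 4 * s ^ 2 * ((P : ℝ) + 1) ^ 2 * (Z p / n) := mul_le_mul_of_nonneg_left huZ (by positivity)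
      _ = _ := by ring
  have hcb : ∀ p, |c p| ≤ 2 * s ^ 2 / n * Z p := fun p => by
    rw [abs_of_nonneg (mul_nonneg (mul_nonneg hs hy0.1) (div_nonneg (sq_nonneg _) hn0.le))]
    calc c p ≤ s * (2 * s) * (Z p / n) := mul_le_mul (mul_le_mul_of_nonneg_left hy0.2 hs)
          (div_le_div_of_nonneg_right (hφ p) hn0.le) (div_nonneg (sq_nonneg _) hn0.le) (by positivity)
      _ = _ := by ring
  set Θ' : (Fin r → X) → ℝ := fun x => F (fun l => (x l).1) * ∏ l, k (x l).2
  have hB : ∀ x, |Θ' x| ≤ B := fun x => by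
    rw [abs_mul, Finset.abs_prod]
    exact (mul_le_mul (hF _) (Finset.prod_le_one (fun l _ => abs_nonneg _) fun l _ => hk _)
      (Finset.prod_nonneg fun l _ => abs_nonneg _) hB0).trans_eq (mul_one B)
  have key := abs_integral_rav_sub_le (r := r) a c G Z v w vh (fun p => w p - vh p)
    (fun p => by abel) hperp hgram (D := D) (L := L) (M := M) (a₀ := a₀)
    (Finset.sum_nonneg fun _ _ => abs_nonneg _) hL hM ha₀ (by positivity) (by positivity)
    (fun p => zero_le_one.trans (one_le_zn _)) (fun p => spinQ_le hT _ (spin_sq _)) hR hcb Θ' hB hB0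
  have hHplus : ∀ g p, pertH dl n b.plus f s y W g (cfgEq N p) =
      a p + G p + (c p + ⟪g, w p⟫) := fun g p => by
    rw [pertH, cfgEq_apply, clsEnergy_splitRot b he hf, ← real_inner_self_eq_norm_sq,
      (sum_featB_sq b T U hef hn p.1 p.1 p.2 p.2).2, real_inner_self_eq_norm_sq]
    simp only [a, c, G, w, cfgEq_apply, W]
    ring
  have hHbase : ∀ g (p : X), a p + min (G p) L + ⟪g, v p⟫ =
      pertH dl n b.lbl f s y U g p.1 + min (spinQ dl e T (b.fields U p.1) (spin p.2)) L := fun g p => by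
    simp only [a, G, v, pertH]
    ring
  have e1 : ∀ {q : ℕ} (Ξ : (Fin q → Fin (N + 1) → Bool) → ℝ), gint dl n b.plus f s y W Ξ =
      ∫ g, rav (fun p => a p + G p + (c p + ⟪g, w p⟫)) (fun x => Ξ fun l => cfgEq N (x l))
        ∂stdGaussian (EuclideanSpace ℝ (GIdx Unit P (N + 1))) := fun Ξ => by
    refine integral_congr_ae (Eventually.of_forall fun g => ?_)
    show rav _ Ξ = rav _ _
    rw [← rav_equiv (cfgEq N) (fun σ => pertH dl n b.plus f s y W g σ) Ξ]
    simp only [hHplus]
    rfl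
  have e2 : ∀ {q : ℕ} (F : (Fin q → Fin N → Bool) → ℝ) (k : Bool → ℝ),
      ∫ g, rav (fun p => a p + min (G p) L + ⟪g, v p⟫)
          (fun x => F (fun l => (x l).1) * ∏ l, k (x l).2)
          ∂stdGaussian (EuclideanSpace ℝ (GIdx Unit P N)) =
        tint dl n b s y (spinW dl e T L) U (fun x => F x * ∏ l,
          ((Real.exp (min (spinQ dl e T (b.fields U (x l)) 1) L) * k true +
            Real.exp (min (spinQ dl e T (b.fields U (x l)) (-1)) L) * k false) /
            (Real.exp (min (spinQ dl e T (b.fields U (x l)) 1) L) +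
              Real.exp (min (spinQ dl e T (b.fields U (x l)) (-1)) L)))) := fun F k => by
    refine integral_congr_ae (Eventually.of_forall fun g => ?_)
    simp only [hHbase]
    rw [rav_spin (fun σ => pertH dl n b.lbl f s y U g σ)
      (fun σ t => spinQ dl e T (b.fields U σ) (spin t))]
    simp only [spin, if_true, Bool.false_eq_true, if_false, spinW]
  have e1z : ∫ g, gmn (fun p => a p + G p + (c p + ⟪g, w p⟫)) Z
      ∂stdGaussian (EuclideanSpace ℝ (GIdx Unit P (N + 1))) =
      gint dl n b.plus f s y W (fun x : Fin 1 → Fin (N + 1) → Bool => zW b W (x 0)) := by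
    rw [e1]
    simp only [cfgEq_apply, W, zW_splitRot, Z]
    simp only [rav_one (f := fun p : X => zn (b.fields U p.1))]
  have e2z : ∫ g, gmn (fun p => a p + min (G p) L + ⟪g, v p⟫) Z
      ∂stdGaussian (EuclideanSpace ℝ (GIdx Unit P N)) =
      tint dl n b s y (spinW dl e T L) U (fun x : Fin 1 → Fin N → Bool => zn (b.fields U (x 0))) := by
    have h := e2 (fun x : Fin 1 → Fin N → Bool => zn (b.fields U (x 0))) (fun _ => 1)
    simp only [Finset.prod_const_one, mul_one, ne_eq, add_pos (Real.exp_pos _) (Real.exp_pos _) |>.ne',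
      not_false_eq_true, div_self] at h
    rw [← h]
    simp only [rav_one (f := fun p : X => zn (b.fields U p.1))]
    rfl
  have hΘ' : gint dl n b.plus f s y W Θ =
      ∫ g, rav (fun p => a p + G p + (c p + ⟪g, w p⟫)) Θ'
        ∂stdGaussian (EuclideanSpace ℝ (GIdx Unit P (N + 1))) := by
    rw [e1]
    simp only [cfgEq_apply, hΘ, Θ']
  rw [hΘ', ← e2 F k, ← e1z, ← e2z]
  exact key

end Vale.Agent.P166F.Low.Tgt
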