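import Vale.Agent.P166F.Low.Target.Mix

/-!
P166: averages of the enlarged system over the norms of its last column against the base reweighted by
the weight of the added spin at the limiting norms.
-/

namespace Vale.Agent.P166F.Low.Tgt

open MeasureTheory ProbabilityTheory Filter
open scoped RealInnerProductSpace Topology
open Vale.Agent.P166 (spin)
open Vale.Agent.P166N.Spectrum (OrthInvLaw)
open Vale.Agent.P166F.Orth (Arr2)

section Systems

variable {κ : Type} [Fintype κ] [DecidableEq κ] {e f : κ} {N n P r : ℕ} {dl : κ → ℝ} {s : ℝ}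
  {y : CIdx Unit P → ℝ} {ν : Measure (Fin N → Fin N → ℝ)}
  {μ : Measure (Fin N → Fin N → ℝ)}

omit [Fintype κ] in
lemma ev_nonneg {lbl : Fin N → κ} (hμ : OrthLaw μ)
    {Θ : (Fin N → Fin N → ℝ) → (Fin r → Fin N → Bool) → ℝ} (hΘ : OBdd Θ)
    (h : ∀ W x, IsOrth W → 0 ≤ Θ W x) : 0 ≤ ev dl n lbl f s y μ Θ :=
  (ev_const hμ 0).symm.trans_le (ev_mono hμ (OBdd.of_continuous fun _ => continuous_const) hΘ h)

omit [Fintype κ] in
lemma abs_ev_le_ev {lbl : Fin N → κ} (hμ : OrthLaw μ)
    {Θ Ξ : (Fin N → Fin N → ℝ) → (Fin r → Fin N → Bool) → ℝ} (hΘ : OBdd Θ) (hΞ : OBdd Ξ)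
    (h : ∀ W x, IsOrth W → |Θ W x| ≤ Ξ W x) :
    |ev dl n lbl f s y μ Θ| ≤ ev dl n lbl f s y μ Ξ := by
  refine abs_le.2 ⟨?_, ev_mono hμ hΘ hΞ fun W x hW => (le_abs_self _).trans (h W x hW)⟩
  have hneg : OBdd fun W x => -1 * Ξ W x := by
    refine ⟨fun x => (hΞ.meas x).const_mul _, ?_⟩
    obtain ⟨B, hB⟩ := hΞ.bdd
    exact ⟨B, fun W x hW => by simpa using hB W x hW⟩
  have := ev_mono (dl := dl) (n := n) (lbl := lbl) (f := f) (s := s) (y := y) hμ hneg hΘ
    fun W x hW => by linarith [neg_abs_le (Θ W x), h W x hW]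
  rw [ev_smul] at this
  linarith

omit [Fintype κ] in
lemma ev_at {lbl : Fin N → κ} (μ : Measure (Fin N → Fin N → ℝ))
    (F : (Fin N → Fin N → ℝ) → (Fin N → Bool) → ℝ) (a : Fin r) :
    ev dl n lbl f s y μ (fun W x => F W (x a)) =
      ev dl n lbl f s y μ (fun W (x : Fin 1 → Fin N → Bool) => F W (x 0)) := by
  simp only [ev, gint, rav_at]

omit [Fintype κ] in
lemma mem_restRows_lab (b : Base e f N) (j : Slot e) :
    (b.row (Sum.inr j)).castSucc ∈ restRows b (lab e f j.1) := by
  simp only [restRows, Finset.mem_filter, Finset.mem_univ, true_and, b.plus_castSucc, b.moved_row,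
    Sum.elim_inr, true_and]
  exact b.rep_ne_inr _ j

omit [Fintype κ] in
lemma continuous_zW [Fintype κ] (b : Base e f N) (σ : Fin (N + 1) → Bool) :
    Continuous fun W => zW b W σ :=
  (continuous_finsetSum _ fun j _ => (continuous_coord σ (b.rep j)).pow 2).add
    (continuous_finsetSum _ fun j _ => (continuous_coord σ (b.row (Sum.inr j)).castSucc).pow 2)

lemma zW_nonneg (b : Base e f N) (W : Fin (N + 1) → Fin (N + 1) → ℝ) (σ : Fin (N + 1) → Bool) :
    0 ≤ zW b W σ :=
  add_nonneg (Finset.sum_nonneg fun j _ => sq_nonneg _) (Finset.sum_nonneg fun j _ => sq_nonneg _)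

lemma evT_projSq (b : Base e f N) {T : κ → ℝ} (hT : Unit0 T) (j : κ) :
    evT dl n b s y ν T (projSq b.plus j) = T j ^ 2 *
      evT dl n b s y ν T (fun W (x : Fin 1 → Fin (N + 1) → Bool) => coord W (x 0) (b.rep j) ^ 2) := by
  rw [evT_eq b T fun x => (continuous_projSq b.plus j x).measurable,
    evT_eq b T (Θ := fun W (x : Fin 1 → Fin (N + 1) → Bool) => coord W (x 0) (b.rep j) ^ 2)
      (fun x => ((continuous_coord (x 0) (b.rep j)).measurable.pow_const 2)), ← integral_const_mul]
  refine integral_congr_ae (Eventually.of_forall fun U => ?_)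
  show gint _ _ _ _ _ _ _ _ = _ * gint _ _ _ _ _ _ _ _
  rw [← gint_smul]
  refine congrArg _ (funext fun x => ?_)
  have h := projSq_splitRot b hT U (Fin.init (x 0)) (x 0 (Fin.last N)) j
  rw [Fin.snoc_init_self] at h
  exact h

lemma integrable_gint_split (b : Base e f N) (hν : OrthInvLaw N ν) (T : κ → ℝ)
    {Θ : (Fin (N + 1) → Fin (N + 1) → ℝ) → (Fin r → Fin (N + 1) → Bool) → ℝ} (hΘ : OBdd Θ) :
    Integrable (fun U => gint dl n b.plus f s y (b.splitRot T U) (Θ (b.splitRot T U))) ν := by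
  have := hν.prob
  obtain ⟨B, hB⟩ := hΘ.bdd
  exact Integrable.of_bound ((measurable_gint hΘ.meas).comp
    (b.continuous_splitRot T).measurable).aestronglyMeasurable B
    (hν.orth.mono fun U hU => (Real.norm_eq_abs _).trans_le (abs_gint_le _ fun x =>
      hB _ x (b.splitRot_fix T (fix_of_orth hU)).1))

end Systems

variable {K : ℕ} {a : Atoms K} {i0 : Fin K} (R : Regime a i0) {β : ℝ}
  {ν : (N : ℕ) → Measure (Fin N → Fin N → ℝ)}

/-- The averages in the enlarged systems over the norms of the last column. -/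
noncomputable def eV (R : Regime a i0) (β : ℝ) (ν : (N : ℕ) → Measure (Fin N → Fin N → ℝ)) (i : ℕ)
    {r : ℕ} (Θ : Arr2 (R.N i + 1) → (Fin r → Fin (R.N i + 1) → Bool) → ℝ) : ℝ :=
  ∫ V, evT (dlA a β i0) (R.n i) (R.base i) (R.s i) (R.y i) (ν (R.N i))
    (colNorm (R.base i).plus V) Θ ∂ν (R.N i + 1)

/-- The averages in the base reweighted by the weight of the added spin at norms `T`. -/
noncomputable def tT (R : Regime a i0) (β : ℝ) (ν : (N : ℕ) → Measure (Fin N → Fin N → ℝ)) (i : ℕ)
    (T : Option (Fin K) → ℝ) (L : ℝ) {r : ℕ}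
    (Θ : Arr2 (R.N i) → (Fin r → Fin (R.N i) → Bool) → ℝ) : ℝ :=
  tU (dlA a β i0) (R.n i) (R.base i) (R.s i) (R.y i) (ν (R.N i))
    (spinW (dlA a β i0) (some i0) T L) Θ

/-- The mean deviation of the norms of the last column. -/
noncomputable def badI (R : Regime a i0) (ν : (N : ℕ) → Measure (Fin N → Fin N → ℝ)) (i : ℕ) : ℝ :=
  ∫ V, badT R (colNorm (R.base i).plus V) ∂ν (R.N i + 1)

lemma badT_nonneg (T : Option (Fin K) → ℝ) : 0 ≤ badT R T :=
  Finset.sum_nonneg fun _ _ => sq_nonneg _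

lemma exists_good : ∃ δ : ℝ, 0 < δ ∧ ∀ T, badT R T < δ → ∀ j, lim R j ^ 2 / 2 ≤ T j ^ 2 := by
  obtain ⟨j0, -, hj0⟩ := Finset.exists_min_image (Finset.univ : Finset (Option (Fin K)))
    (fun j => lim R j ^ 2) Finset.univ_nonempty
  have h0 := pow_pos (lim_pos R j0) 2
  refine ⟨(lim R j0 ^ 2 / 2) ^ 2, pow_pos (by linarith) 2, fun T hT j => ?_⟩
  have h1 : (T j ^ 2 - lim R j ^ 2) ^ 2 ≤ (lim R j0 ^ 2 / 2) ^ 2 :=
    (Finset.single_le_sum (f := fun j => (T j ^ 2 - lim R j ^ 2) ^ 2) (fun j _ => sq_nonneg _)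
      (Finset.mem_univ j)).trans hT.le
  have h2 := (abs_le.1 (abs_le_of_sq_le_sq h1 (by linarith))).1
  linarith [hj0 j (Finset.mem_univ j)]

/-- The classes of the enlarged systems hold a fixed share outside the representatives. -/
lemma exists_plus_share : ∃ c : ℝ, 0 < c ∧ ∀ᶠ i in atTop, 1 ≤ R.N i ∧
    (∀ j, c * ((R.N i : ℝ) + 1) ≤ ((restRows (R.base i) j).card : ℝ)) ∧
    (∀ j, c * ((R.N i : ℝ) + 1) ≤ (csize (R.base i).plus j : ℝ)) ∧
    c * (R.N i : ℝ) ≤ csize (R.base i).lbl (some i0) := by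
  obtain ⟨c, hc, h⟩ := exists_share R ((Fintype.card (Fld (some i0 : Option (Fin K))) : ℝ) + 1)
  have hk : (0 : ℝ) ≤ Fintype.card (Fld (some i0 : Option (Fin K))) := Nat.cast_nonneg _
  refine ⟨c, hc, h.mono fun i hi => ⟨hi.1, fun j => ?_, fun j => ?_, ?_⟩⟩
  · linarith [hi.2 j, card_restRows (R.base i) j, (csize_moved (R.base i) id j).2,
      (csize_plus (R.base i) j).1]
  · linarith [hi.2 j, (csize_moved (R.base i) id j).2, (csize_plus (R.base i) j).1]
  · linarith [hi.2 (some i0)]

/-- Moments of the probe rows at any norms. -/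
lemma evT_probe_moments (hν : ∀ N, OrthInvLaw N (ν N)) {c : ℝ} (hc : 0 < c) {i : ℕ}
    (hi : ∀ j, c * ((R.N i : ℝ) + 1) ≤ ((restRows (R.base i) j).card : ℝ))
    (j : Slot (some i0 : Option (Fin K))) (T : Option (Fin K) → ℝ) {r : ℕ} (u : Fin r) :
    evT (dlA a β i0) (R.n i) (R.base i) (R.s i) (R.y i) (ν (R.N i)) T
        (fun W x => coord W (x u) ((R.base i).row (Sum.inr j)).castSucc ^ 2) ≤ 1 / c ∧
      evT (dlA a β i0) (R.n i) (R.base i) (R.s i) (R.y i) (ν (R.N i)) T
        (fun W x => coord W (x u) ((R.base i).row (Sum.inr j)).castSucc ^ 4) ≤ 3 / c ^ 2 := by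
  set b := R.base i
  set l := lab (some i0 : Option (Fin K)) none j.1
  have hmem := mem_restRows_lab b j
  have hS : ∀ p ∈ restRows b l, b.plus p = l := fun p hp => (Finset.mem_filter.1 hp).2.1
  have hμ := orthLaw_evT b (hν (R.N i)) T
  have hinv := invOn_restRows b (hν (R.N i)) T l
  have hN : (0 : ℝ) < (R.N i : ℝ) + 1 := by positivity
  have hpos : (0 : ℝ) < (restRows b l).card := by
    exact_mod_cast Finset.card_pos.2 ⟨_, hmem⟩
  constructor
  · refine (ev_sq_le hμ hinv hS hmem u).trans ?_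
    rw [div_le_div_iff₀ hpos hc]
    push_cast
    linarith [hi l]
  · refine (ev_four_le hμ hinv hS hmem u).trans ?_
    rw [div_le_div_iff₀ (by positivity) (by positivity)]
    push_cast
    nlinarith [pow_le_pow_left₀ (mul_nonneg hc.le hN.le) (hi l) 2]

/-- The squares of the fields of the new spin are bounded in the mean, away from degenerate norms. -/
lemma exists_zbound (hν : ∀ N, OrthInvLaw N (ν N)) :
    ∃ C δ : ℝ, 0 ≤ C ∧ 0 < δ ∧ ∀ᶠ i in atTop, ∃ Y : Arr2 (R.N i + 1) → ℝ,
      Integrable Y (ν (R.N i + 1)) ∧ (∀ V, IsOrth V → 0 ≤ Y V) ∧ ∫ V, Y V ∂ν (R.N i + 1) ≤ C ∧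
      ∀ V, IsOrth V → badT R (colNorm (R.base i).plus V) < δ →
        evT (dlA a β i0) (R.n i) (R.base i) (R.s i) (R.y i) (ν (R.N i)) (colNorm (R.base i).plus V)
          (fun W (x : Fin 1 → Fin (R.N i + 1) → Bool) => zW (R.base i) W (x 0)) ≤ Y V := by
  obtain ⟨c, hc, hev⟩ := exists_plus_share R
  obtain ⟨δ, hδ, hgood⟩ := exists_good R
  set k : ℝ := (Fintype.card (Slot (some i0 : Option (Fin K))) : ℝ) / c with hk
  refine ⟨(∑ j, 2 / lim R j ^ 2) + k, δ, by positivity, hδ, hev.mono fun i hi => ?_⟩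
  have := (hν (R.N i + 1)).prob
  set b := R.base i
  set E : (Option (Fin K) → ℝ) → (Arr2 (R.N i + 1) → (Fin 1 → Fin (R.N i + 1) → Bool) → ℝ) → ℝ :=
    fun T Θ => evT (dlA a β i0) (R.n i) b (R.s i) (R.y i) (ν (R.N i)) T Θ
  have hpr : ∀ j, OBdd (projSq b.plus j) := fun j =>
    OBdd.of_continuous fun x => continuous_projSq b.plus j x
  have hY : ∀ j, Integrable (fun V => 2 / lim R j ^ 2 * E (colNorm b.plus V) (projSq b.plus j))
      (ν (R.N i + 1)) := fun j => (integrable_evT b (hν _) (hν _) (hpr j)).const_mul _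
  refine ⟨fun V => (∑ j, 2 / lim R j ^ 2 * E (colNorm b.plus V) (projSq b.plus j)) + k,
    (integrable_finsetSum _ fun j _ => hY j).add (integrable_const _), fun V _ => ?_, ?_, fun V hV hb => ?_⟩
  · refine add_nonneg (Finset.sum_nonneg fun j _ => mul_nonneg (by positivity) ?_) (by positivity)
    exact ev_nonneg (orthLaw_evT b (hν _) _) (hpr j) fun W x _ => sq_nonneg _
  · rw [integral_add (integrable_finsetSum _ fun j _ => hY j) (integrable_const _),
      integral_finsetSum _ fun j _ => hY j, integral_const, probReal_univ, one_smul]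
    refine add_le_add (Finset.sum_le_sum fun j _ => ?_) le_rfl
    rw [integral_const_mul]
    refine mul_le_of_le_one_right (by positivity) ?_
    simp only [E]
    rw [← ev_split b (hν _) (hν _) (hpr j) (classInv_projSq b.plus j)]
    exact ev_projSq_le b.plus (hν _) j
  · set T := colNorm b.plus V
    have hμ := orthLaw_evT b (hν (R.N i)) T
    have hq : ∀ p, OBdd (fun W (x : Fin 1 → Fin (R.N i + 1) → Bool) => coord W (x 0) p ^ 2) :=
      fun p => OBdd.of_continuous fun x => (continuous_coord (x 0) p).pow 2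
    have h1 : OBdd (fun W (x : Fin 1 → Fin (R.N i + 1) → Bool) => ∑ j, coord W (x 0) (b.rep j) ^ 2) :=
      OBdd.of_continuous fun x => continuous_finsetSum _ fun j _ => (continuous_coord (x 0) _).pow 2
    have h2 : OBdd (fun W (x : Fin 1 → Fin (R.N i + 1) → Bool) =>
        ∑ j : Slot (some i0 : Option (Fin K)), coord W (x 0) (b.row (Sum.inr j)).castSucc ^ 2) :=
      OBdd.of_continuous fun x => continuous_finsetSum _ fun j _ => (continuous_coord (x 0) _).pow 2
    simp only [zW, evT]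
    rw [ev_add hμ h1 h2,
      ev_sum hμ _ (fun j W (x : Fin 1 → Fin (R.N i + 1) → Bool) => coord W (x 0) (b.rep j) ^ 2)
        fun j => hq _,
      ev_sum hμ _ (fun (j : Slot (some i0 : Option (Fin K))) W (x : Fin 1 → Fin (R.N i + 1) → Bool) =>
        coord W (x 0) (b.row (Sum.inr j)).castSucc ^ 2) fun j => hq _]
    refine add_le_add (Finset.sum_le_sum fun j _ => ?_) ?_
    · simp only [E]
      rw [evT_projSq b (unit0_colNorm b.plus hV), ← mul_assoc]
      refine le_mul_of_one_le_left (ev_nonneg hμ (hq _) fun W x _ => sq_nonneg _) ?_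
      rw [div_mul_eq_mul_div, one_le_div (pow_pos (lim_pos R j) 2)]
      linarith [hgood T hb j]
    · refine (Finset.sum_le_sum fun j _ => (evT_probe_moments R hν hc hi.2.1 j T 0).1).trans_eq ?_
      simp [k, div_eq_mul_inv]

/-- Observables dominated by the squares of the fields of the new spin. -/
lemma exists_small (hν : ∀ N, OrthInvLaw N (ν N)) :
    ∃ C : ℝ, 0 ≤ C ∧ ∀ᶠ i in atTop, ∀ (r : ℕ) (u v : Fin r)
      (Θ : Arr2 (R.N i + 1) → (Fin r → Fin (R.N i + 1) → Bool) → ℝ) (B Kz : ℝ), OBdd Θ → 0 ≤ B →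
      0 ≤ Kz → (∀ W x, IsOrth W → |Θ W x| ≤ B) →
      (∀ W x, IsOrth W → |Θ W x| ≤ Kz * (zW (R.base i) W (x u) + zW (R.base i) W (x v))) →
      |eV R β ν i Θ| ≤ Kz * C + B * C * badI R ν i := by
  obtain ⟨C, δ, hC, hδ, hev⟩ := exists_zbound R (β := β) hν
  refine ⟨2 * C + 1 / δ, by positivity, hev.mono fun i ⟨Y, hYi, hY0, hYC, hY⟩ r u v Θ B Kz hΘ hB hK h1 h2 => ?_⟩
  have := (hν (R.N i + 1)).prob
  set b := R.base i
  have hb := integrable_colBad R hν i
  have hbad : 0 ≤ badI R ν i := integral_nonneg fun V => badT_nonneg R _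
  refine abs_integral_le_integral_abs.trans ((integral_mono_ae (integrable_evT b (hν _) (hν _) hΘ).abs
    ((hYi.const_mul (2 * Kz)).add (hb.const_mul (B / δ))) ((hν (R.N i + 1)).orth.mono fun V hV => ?_)).trans ?_)
  · simp only [Pi.add_apply]
    set T := colNorm b.plus V
    have hμ := orthLaw_evT b (hν (R.N i)) T
    rcases lt_or_ge (badT R T) δ with hg | hg
    · refine le_add_of_le_of_nonneg ?_ (mul_nonneg (by positivity) (badT_nonneg R T))
      have hz : ∀ w : Fin r, OBdd (fun W (x : Fin r → Fin (R.N i + 1) → Bool) => zW b W (x w)) :=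
        fun w => OBdd.of_continuous fun x => continuous_zW b (x w)
      have hzz : OBdd (fun W (x : Fin r → Fin (R.N i + 1) → Bool) =>
          Kz * (zW b W (x u) + zW b W (x v))) :=
        OBdd.of_continuous fun x => ((continuous_zW b (x u)).add (continuous_zW b (x v))).const_mul _
      refine (abs_ev_le_ev hμ hΘ hzz h2).trans ?_
      rw [ev_smul, ev_add hμ (hz u) (hz v), ev_at _ (fun W σ => zW b W σ) u,
        ev_at _ (fun W σ => zW b W σ) v]
      have := mul_le_mul_of_nonneg_left (hY V hV hg) hK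
      simp only [evT] at this
      linarith
    · refine le_add_of_nonneg_of_le (mul_nonneg (by positivity) (hY0 V hV)) ?_
      refine (abs_ev_le hμ h1).trans ?_
      rw [div_mul_eq_mul_div, le_div_iff₀ hδ]
      exact mul_le_mul_of_nonneg_left hg hB
  · rw [integral_add' (hYi.const_mul _) (hb.const_mul _), integral_const_mul, integral_const_mul]
    change 2 * Kz * ∫ V, Y V ∂ν (R.N i + 1) + B / δ * badI R ν i ≤ _
    have h3 : 2 * Kz * ∫ V, Y V ∂ν (R.N i + 1) ≤ 2 * Kz * C :=
      mul_le_mul_of_nonneg_left hYC (by positivity)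
    have h4 : 0 ≤ Kz * (1 / δ) := by positivity
    have h5 : 0 ≤ B * (2 * C) * badI R ν i := by positivity
    rw [div_eq_mul_one_div B δ]
    nlinarith

lemma integrable_tT (hν : ∀ N, OrthInvLaw N (ν N)) (i : ℕ) (L : ℝ) {r : ℕ}
    {Θ : (Option (Fin K) → ℝ) → Arr2 (R.N i) → (Fin r → Fin (R.N i) → Bool) → ℝ}
    (hΘ : ∀ x, Measurable fun p : (Option (Fin K) → ℝ) × Arr2 (R.N i) => Θ p.1 p.2 x) {B : ℝ}
    (hB : ∀ T U x, IsOrth U → |Θ T U x| ≤ B) :
    Integrable (fun V => tT R β ν i (colNorm (R.base i).plus V) L (Θ (colNorm (R.base i).plus V)))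
      (ν (R.N i + 1)) := by
  have := (hν (R.N i + 1)).prob
  have := (hν (R.N i)).prob
  set b := R.base i
  have h1 := measurable_tint (dl := dlA a β i0) (n := R.n i) (s := R.s i) (y := R.y i) b
    (Φ := fun T => spinW (dlA a β i0) (some i0) T L) (measurable_spinW_joint _ L) (Θ := Θ) hΘ
  have h2 : Measurable fun T => tT R β ν i T L (Θ T) :=
    (h1.stronglyMeasurable.integral_prod_right' (ν := ν (R.N i))).measurable
  have h3 := h2.comp (measurable_colNorm b.plus)
  simp only [Function.comp_def] at h3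
  exact Integrable.of_bound h3.aestronglyMeasurable B (Eventually.of_forall fun V =>
    (Real.norm_eq_abs _).trans_le (abs_tU_le b (hν _) _ fun U x hU => hB _ U x hU))

lemma tT_zn_le (hν : ∀ N, OrthInvLaw N (ν N)) (hd : ∀ j, 0 ≤ dlA a β i0 j) {c : ℝ} (hc : 0 < c)
    {i : ℕ} (hi : c * (R.N i : ℝ) ≤ csize (R.base i).lbl (some i0)) (T : Option (Fin K) → ℝ) {L : ℝ}
    (hL : 0 ≤ L) :
    tT R β ν i T L (fun U (x : Fin 1 → Fin (R.N i) → Bool) => zn ((R.base i).fields U (x 0))) ≤
      Real.exp L * (1 + (Fintype.card (Fld (some i0 : Option (Fin K))) : ℝ) / c) := by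
  set b := R.base i
  have hμ := orthLaw_of_inv (hν (R.N i))
  have hz : OBdd (fun W (x : Fin 1 → Fin (R.N i) → Bool) => zn (b.fields W (x 0))) :=
    OBdd.of_continuous fun x => continuous_zn_fields b (x 0)
  refine le_trans ?_ (mul_le_mul_of_nonneg_left (ev_zn_le (dl := dlA a β i0) (n := R.n i)
    (s := R.s i) (y := R.y i) b (hν _) hc hi) (Real.exp_pos L).le)
  rw [tT, tU, ev, ← integral_const_mul]
  exact integral_mono (integrable_tint b (hν _) (continuous_spinW _ _ _).measurable hz.meas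
      fun U x hU => by
        rw [abs_of_nonneg (zero_le_one.trans (one_le_zn _))]
        exact zn_le_of_orth b hU _)
    ((integrable_gint hμ hz).const_mul _) fun U =>
    tint_le_gint b (fun z => spinW_range hd hL T z) U fun σ => zero_le_one.trans (one_le_zn _)

/-- The comparison at given norms, averaged over the rotation. -/
lemma abs_evT_sub_tT_le (hν : ∀ N, OrthInvLaw N (ν N)) (hd : ∀ j, 0 ≤ dlA a β i0 j) {c : ℝ} (hc : 0 < c)
    {i : ℕ} (hi : c * (R.N i : ℝ) ≤ csize (R.base i).lbl (some i0)) {T : Option (Fin K) → ℝ} (hT : Unit0 T)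
    {r : ℕ} {L M a₀ B Y : ℝ} (hL : 0 < L) (hM : 0 < M) (ha₀ : 0 < a₀) (hB : 0 ≤ B)
    (hY : evT (dlA a β i0) (R.n i) (R.base i) (R.s i) (R.y i) (ν (R.N i)) T
      (fun W (x : Fin 1 → Fin (R.N i + 1) → Bool) => zW (R.base i) W (x 0)) ≤ Y)
    (F : Arr2 (R.N i) → (Fin r → Fin (R.N i) → Bool) → ℝ) (hFm : ∀ x, Measurable fun U => F U x)
    (hF : ∀ U x, IsOrth U → |F U x| ≤ B) (k : Bool → ℝ) (hk : ∀ t, |k t| ≤ 1)
    (Θ : Arr2 (R.N i + 1) → (Fin r → Fin (R.N i + 1) → Bool) → ℝ) (hΘ : OBdd Θ)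
    (hrel : ∀ U x (t : Fin r → Bool), Θ ((R.base i).splitRot T U)
          (fun l => Fin.snoc (x l) (t l)) = F U x * ∏ l, k (t l)) :
    |evT (dlA a β i0) (R.n i) (R.base i) (R.s i) (R.y i) (ν (R.N i)) T Θ -
        tT R β ν i T L (fun U x => F U x *
          ∏ l, mix (dlA a β i0) (some i0) T L k ((R.base i).fields U (x l)))| ≤
      B * r * ((12 * (∑ j, |dlA a β i0 j|) / L + 2 / M) * Y +
        2 / M * (Real.exp L * (1 + (Fintype.card (Fld (some i0 : Option (Fin K))) : ℝ) / c)) +
        3 * (a₀ + (4 * R.s i ^ 2 * ((R.P i : ℝ) + 1) ^ 2 / R.n i * M / 2 +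
          2 * (2 * R.s i ^ 2 / R.n i * M)) / a₀)) := by
  have := (hν (R.N i)).prob
  set b := R.base i
  set dl := dlA a β i0
  set F' : Arr2 (R.N i) → (Fin r → Fin (R.N i) → Bool) → ℝ := fun U x =>
    F U x * ∏ l, mix dl (some i0) T L k (b.fields U (x l))
  have hfm : ∀ σ, Measurable fun U => b.fields U σ := fun σ =>
    measurable_pi_lambda _ fun p => (continuous_fields b σ p).measurable
  have hmix : Measurable fun z : Fld (some i0 : Option (Fin K)) → ℝ => mix dl (some i0) T L k z := by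
    have h := (measurable_mix_joint (e := (some i0 : Option (Fin K))) dl L k).comp
      (measurable_prodMk_left (x := T) (β := Fld (some i0 : Option (Fin K)) → ℝ))
    simp only [Function.comp_def] at h
    exact h
  have hF'm : ∀ x, Measurable fun U => F' U x := fun x => by
    have h : ∀ l, Measurable fun U => mix dl (some i0) T L k (b.fields U (x l)) := fun l => by
      have h' := hmix.comp (hfm (x l))
      simp only [Function.comp_def] at h'
      exact h'
    exact (hFm x).mul (Finset.measurable_fun_prod _ fun l _ => h l)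
  have hF'b : ∀ U x, IsOrth U → |F' U x| ≤ B := fun U x hU => by
    rw [abs_mul, Finset.abs_prod]
    exact (mul_le_mul (hF U x hU) (Finset.prod_le_one (fun l _ => abs_nonneg _)
      fun l _ => abs_mix_le T L hk _) (Finset.prod_nonneg fun l _ => abs_nonneg _) hB).trans_eq
        (mul_one B)
  have hz : OBdd (fun W (x : Fin 1 → Fin (R.N i + 1) → Bool) => zW b W (x 0)) :=
    OBdd.of_continuous fun x => continuous_zW b (x 0)
  have hΦ := (continuous_spinW dl (e := (some i0 : Option (Fin K))) T L).measurable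
  have hzm : ∀ x : Fin 1 → Fin (R.N i) → Bool, Measurable fun U => zn (b.fields U (x 0)) :=
    fun x => (continuous_zn_fields b (x 0)).measurable
  have hi0 := integrable_gint_split (dl := dl) (n := R.n i) (s := R.s i) (y := R.y i) b (hν _) T hΘ
  have hi0' := integrable_tint (dl := dl) (n := R.n i) (s := R.s i) (y := R.y i) b (hν _) hΦ hF'm hF'b
  have hi1 := integrable_gint_split (dl := dl) (n := R.n i) (s := R.s i) (y := R.y i) b (hν _) T hz
  have hi2 := integrable_tint (dl := dl) (n := R.n i) (s := R.s i) (y := R.y i) b (hν (R.N i)) hΦ hzm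
    fun U x hU => by
      rw [abs_of_nonneg (zero_le_one.trans (one_le_zn _))]
      exact zn_le_of_orth b hU _
  rw [evT_eq b T hΘ.meas, tT, tU, ← integral_sub hi0 hi0']
  set cc : ℝ := 3 * (a₀ + (4 * R.s i ^ 2 * ((R.P i : ℝ) + 1) ^ 2 / R.n i * M / 2 +
          2 * (2 * R.s i ^ 2 / R.n i * M)) / a₀)
  refine abs_integral_le_integral_abs.trans ((integral_mono_ae (hi0.sub hi0').abs
    ((((hi1.const_mul (12 * (∑ j, |dl j|) / L + 2 / M)).add (hi2.const_mul (2 / M))).add
      (integrable_const cc)).const_mul (B * r))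
    ((hν (R.N i)).orth.mono fun U hU => ?_)).trans ?_)
  · exact abs_gint_sub_tint_le b some_ne_none' dlA_some dlA_none (R.le i) (R.box i) (R.nonneg i) hT
      hU hL hM ha₀ hB (F U) (fun x => hF U x hU) k hk (Θ (b.splitRot T U)) (hrel U)
  · rw [integral_const_mul, integral_add' ((hi1.const_mul _).add (hi2.const_mul _)) (integrable_const _),
      integral_add' (hi1.const_mul _) (hi2.const_mul _), integral_const_mul, integral_const_mul,
      integral_const, probReal_univ, one_smul, ← evT_eq b T hz.meas]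
    have h2 := tT_zn_le R (β := β) hν hd hc hi T hL.le
    rw [tT, tU] at h2
    gcongr

/-- The enlarged systems against the reweighted bases at the same norms. -/
lemma exists_transfer (hν : ∀ N, OrthInvLaw N (ν N)) (hd : ∀ j, 0 ≤ dlA a β i0 j) :
    ∃ C : ℝ, 0 ≤ C ∧ ∀ (r : ℕ) (L B ε : ℝ), 0 < L → 0 ≤ B → 0 < ε → ∀ᶠ i in atTop,
      ∀ (F : Arr2 (R.N i) → (Fin r → Fin (R.N i) → Bool) → ℝ) (k : Bool → ℝ)
        (Θ : Arr2 (R.N i + 1) → (Fin r → Fin (R.N i + 1) → Bool) → ℝ),
        (∀ x, Measurable fun U => F U x) → OBdd Θ → (∀ U x, IsOrth U → |F U x| ≤ B) →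
        (∀ t, |k t| ≤ 1) →
        (∀ T, Unit0 T → ∀ U x (t : Fin r → Bool), Θ ((R.base i).splitRot T U)
          (fun l => Fin.snoc (x l) (t l)) = F U x * ∏ l, k (t l)) →
        |eV R β ν i Θ - ∫ V, tT R β ν i (colNorm (R.base i).plus V) L (fun U x => F U x * ∏ l,
            mix (dlA a β i0) (some i0) (colNorm (R.base i).plus V) L k ((R.base i).fields U (x l)))
          ∂ν (R.N i + 1)| ≤ r * B * C / L + ε := by
  obtain ⟨CY, δ, hCY, hδ, hzb⟩ := exists_zbound R (β := β) hν
  obtain ⟨c, hc, hsh⟩ := exists_plus_share R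
  set D := ∑ j, |dlA a β i0 j|
  have hD : 0 ≤ D := Finset.sum_nonneg fun _ _ => abs_nonneg _
  set Cz : ℝ := 1 + (Fintype.card (Fld (some i0 : Option (Fin K))) : ℝ) / c
  refine ⟨12 * D * CY, by positivity, fun r L B ε hL hB hε => ?_⟩
  set X : ℝ := (r : ℝ) * B with hX
  have hX0 : 0 ≤ X := by positivity
  set M : ℝ := 8 * (X + 1) * (CY + Real.exp L * Cz + 1) / ε with hM'
  have hM : 0 < M := by positivity
  set a₀ : ℝ := ε / (24 * (X + 1)) with ha'
  have ha₀ : 0 < a₀ := by positivity
  set v : ℕ → ℝ := fun i => 2 * B / δ * badI R ν i +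
    3 * X * ((4 * R.s i ^ 2 * ((R.P i : ℝ) + 1) ^ 2 / R.n i * M / 2 +
      2 * (2 * R.s i ^ 2 / R.n i * M)) / a₀) with hv'
  have hv : Tendsto v atTop (𝓝 0) := by
    have h1 : Tendsto (fun i => R.s i ^ 2 / R.n i) atTop (𝓝 0) := by
      refine squeeze_zero (fun i => by positivity) (fun i => ?_) (tendsto_small R)
      exact div_le_div_of_nonneg_right (le_mul_of_one_le_right (sq_nonneg _)
        (one_le_pow₀ (le_add_of_nonneg_left (Nat.cast_nonneg _)))) (Nat.cast_nonneg _)
    have h := ((tendsto_bad R hν).const_mul (2 * B / δ)).add ((((((tendsto_small R).const_mul 4).mul_const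
      (M / 2)).add ((h1.const_mul (4 * M)))).div_const a₀).const_mul (3 * X))
    simp only [mul_zero, zero_mul, add_zero, zero_div] at h
    refine h.congr fun i => ?_
    simp only [v, badI]
    ring
  filter_upwards [hzb, hsh, hv.eventually (gt_mem_nhds (half_pos hε))] with i ⟨Y, hYi, hY0, hYC, hY⟩
    hi hvi F k Θ hFm hΘ hF hk hrel
  have := (hν (R.N i + 1)).prob
  have := (hν (R.N i)).prob
  set b := R.base i
  set dl := dlA a β i0
  set Θ' : (Option (Fin K) → ℝ) → Arr2 (R.N i) → (Fin r → Fin (R.N i) → Bool) → ℝ := fun T U x =>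
    F U x * ∏ l, mix dl (some i0) T L k (b.fields U (x l))
  have hΘ'm : ∀ x, Measurable fun p : (Option (Fin K) → ℝ) × Arr2 (R.N i) => Θ' p.1 p.2 x := fun x => by
    have h1 : Measurable ((fun U => F U x) ∘ fun p : (Option (Fin K) → ℝ) × Arr2 (R.N i) => p.2) :=
      (hFm x).comp measurable_snd
    have h2 : ∀ l, Measurable fun p : (Option (Fin K) → ℝ) × Arr2 (R.N i) =>
        mix dl (some i0) p.1 L k (b.fields p.2 (x l)) := fun l => by
      have hf : Measurable fun p : (Option (Fin K) → ℝ) × Arr2 (R.N i) => (p.1, b.fields p.2 (x l)) :=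
        measurable_fst.prodMk ((measurable_pi_lambda _ fun q =>
          (continuous_fields b (x l) q).measurable).comp measurable_snd)
      have h' := (measurable_mix_joint (e := (some i0 : Option (Fin K))) dl L k).comp hf
      simp only [Function.comp_def] at h'
      exact h'
    simp only [Function.comp_def] at h1
    exact h1.mul (Finset.measurable_fun_prod _ fun l _ => h2 l)
  have hΘ'b : ∀ T U x, IsOrth U → |Θ' T U x| ≤ B := fun T U x hU => by
    rw [abs_mul, Finset.abs_prod]
    exact (mul_le_mul (hF U x hU) (Finset.prod_le_one (fun l _ => abs_nonneg _)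
      fun l _ => abs_mix_le T L hk _) (Finset.prod_nonneg fun l _ => abs_nonneg _) hB).trans_eq
        (mul_one B)
  set cc : ℝ := 3 * (a₀ + (4 * R.s i ^ 2 * ((R.P i : ℝ) + 1) ^ 2 / R.n i * M / 2 +
    2 * (2 * R.s i ^ 2 / R.n i * M)) / a₀)
  set K2 : ℝ := X * (2 / M * (Real.exp L * Cz) + cc)
  have hK2 : 0 ≤ K2 := by positivity
  have hint := integrable_tT R (β := β) hν i L hΘ'm hΘ'b
  have hb := integrable_colBad R hν i
  rw [eV, ← integral_sub (integrable_evT b (hν _) (hν _) hΘ) hint]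
  refine abs_integral_le_integral_abs.trans ((integral_mono_ae
    ((integrable_evT b (hν _) (hν _) hΘ).sub hint).abs
    (((hb.const_mul (2 * B / δ)).add (hYi.const_mul (X * (12 * D / L + 2 / M)))).add (integrable_const K2))
    ((hν (R.N i + 1)).orth.mono fun V hV => ?_)).trans ?_)
  · simp only [Pi.add_apply, Pi.sub_apply]
    set T := colNorm b.plus V
    have hT : Unit0 T := unit0_colNorm b.plus hV
    have hsn : ∀ (x : Fin r → Fin (R.N i + 1) → Bool) U, Θ (b.splitRot T U) x =
        F U (fun l => Fin.init (x l)) * ∏ l, k (x l (Fin.last _)) := fun x U => by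
      rw [← hrel T hT U]
      exact congrArg _ (funext fun l => (Fin.snoc_init_self (x l)).symm)
    have hΘb : ∀ U, IsOrth U → ∀ x, |Θ (b.splitRot T U) x| ≤ B := fun U hU x => by
      rw [hsn, abs_mul, Finset.abs_prod]
      exact (mul_le_mul (hF U _ hU) (Finset.prod_le_one (fun l _ => abs_nonneg _) fun l _ => hk _)
        (Finset.prod_nonneg fun l _ => abs_nonneg _) hB).trans_eq (mul_one B)
    have hY' := hY0 V hV
    have hbt := badT_nonneg R T
    rcases lt_or_ge (badT R T) δ with hg | hg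
    · refine (abs_evT_sub_tT_le R hν hd hc hi.2.2.2 hT hL hM ha₀ hB (hY V hV hg) F hFm hF k hk Θ hΘ
        (hrel T hT)).trans ?_
      have h3 : 0 ≤ 2 * B / δ * badT R T := by positivity
      calc _ = X * (12 * D / L + 2 / M) * Y V + K2 := by simp only [X, K2, cc, D, Cz]; ring
        _ ≤ _ := by linarith
    · refine ((abs_sub _ _).trans ((add_le_add ?_ (abs_tU_le b (hν _) _ fun U x hU =>
        hΘ'b T U x hU)).trans_eq (two_mul B).symm)).trans
        (le_add_of_le_of_nonneg (le_add_of_le_of_nonneg ?_ (by positivity)) hK2)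
      · rw [evT_eq b T hΘ.meas]
        have h := norm_integral_le_of_norm_le_const (μ := ν (R.N i)) (f := fun U =>
          gint dl (R.n i) b.plus none (R.s i) (R.y i) (b.splitRot T U) (Θ (b.splitRot T U))) (C := B)
          ((hν (R.N i)).orth.mono fun U hU => (Real.norm_eq_abs _).trans_le (abs_gint_le _ (hΘb U hU)))
        simpa [probReal_univ] using h
      · rw [div_mul_eq_mul_div, le_div_iff₀ hδ]
        exact mul_le_mul_of_nonneg_left hg (by positivity)
  · rw [integral_add' ((hb.const_mul _).add (hYi.const_mul _)) (integrable_const _),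
      integral_add' (hb.const_mul _) (hYi.const_mul _), integral_const_mul, integral_const_mul,
      integral_const, probReal_univ, one_smul]
    have h1 := mul_le_mul_of_nonneg_left hYC (by positivity : 0 ≤ X * (12 * D / L + 2 / M))
    have hMb : X * (2 / M) * (CY + Real.exp L * Cz) ≤ ε / 4 := by
      rw [hM', div_div_eq_mul_div, ← mul_div_assoc, div_mul_eq_mul_div, div_le_iff₀ (by positivity)]
      nlinarith [mul_nonneg hX0 hε.le, mul_nonneg (mul_nonneg (Real.exp_pos L).le
        (by positivity : 0 ≤ Cz)) hε.le, mul_nonneg hCY hε.le]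
    have hab : 3 * X * a₀ ≤ ε / 8 := by
      rw [ha', ← mul_div_assoc, div_le_iff₀ (by positivity)]
      nlinarith
    calc _ ≤ X * (12 * D * CY) / L + (X * (2 / M) * (CY + Real.exp L * Cz) + 3 * X * a₀ + v i) := by
          simp only [K2, cc, v, badI]
          refine (add_le_add (add_le_add le_rfl h1) le_rfl).trans_eq ?_
          ring
      _ ≤ _ := by
          refine add_le_add le_rfl ?_
          linarith

/-- The norms of the last column replaced by their limits. -/
lemma exists_move (hν : ∀ N, OrthInvLaw N (ν N)) (hd : ∀ j, 0 ≤ dlA a β i0 j) (r : ℕ) {L B ε : ℝ}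
    (hL : 0 < L) (hB : 0 ≤ B) (hε : 0 < ε) :
    ∀ᶠ i in atTop, ∀ F : Arr2 (R.N i) → (Fin r → Fin (R.N i) → Bool) → ℝ,
      (∀ x, Measurable fun U => F U x) → (∀ U x, IsOrth U → |F U x| ≤ B) →
      |∫ V, tT R β ν i (colNorm (R.base i).plus V) L F ∂ν (R.N i + 1) - tT R β ν i (lim R) L F| ≤ ε := by
  obtain ⟨c, hc, hsh⟩ := exists_plus_share R
  set A : ℝ := B * r * 2 * (Real.exp L * (8 * ∑ j, |dlA a β i0 j|)) *
    (1 + (Fintype.card (Fld (some i0 : Option (Fin K))) : ℝ) / c) with hA'
  have hA : Tendsto (fun i => A * ∫ V, ∑ j, |colNorm (R.base i).plus V j - lim R j| ∂ν (R.N i + 1))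
      atTop (𝓝 0) := by simpa using (tendsto_colDist R hν).const_mul A
  filter_upwards [hsh, hA.eventually (gt_mem_nhds hε)] with i hi hAi F hFm hF
  have := (hν (R.N i + 1)).prob
  have := (hν (R.N i)).prob
  set b := R.base i
  set dl := dlA a β i0
  have hint := integrable_tT R (β := β) hν i L (Θ := fun _ => F)
    (fun x => (hFm x).comp measurable_snd) fun _ => hF
  rw [show tT R β ν i (lim R) L F = ∫ _, tT R β ν i (lim R) L F ∂ν (R.N i + 1) by simp,
    ← integral_sub hint (integrable_const _)]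
  refine abs_integral_le_integral_abs.trans (((integral_mono_ae (hint.sub (integrable_const _)).abs
    ((integrable_colDist R hν i).const_mul A) ((hν (R.N i + 1)).orth.mono fun V hV => ?_)).trans_eq
      (integral_const_mul _ _)).trans hAi.le)
  simp only [Pi.sub_apply]
  set T := colNorm b.plus V
  have hT : Unit0 T := unit0_colNorm b.plus hV
  set Δ := ∑ j, |T j - lim R j|
  have hd1 : ∀ (T' : Option (Fin K) → ℝ) z, 1 ≤ spinW dl (some i0) T' L z := fun T' z =>
    (spinW_range hd hL.le T' z).1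
  have hzn : OBdd (fun W (x : Fin 1 → Fin (R.N i) → Bool) => zn (b.fields W (x 0))) :=
    OBdd.of_continuous fun x => continuous_zn_fields b (x 0)
  have hμ := orthLaw_of_inv (hν (R.N i))
  have hi1 := integrable_tint (dl := dl) (n := R.n i) (s := R.s i) (y := R.y i) b (hν _)
    (continuous_spinW dl T L).measurable hFm hF
  have hi2 := integrable_tint (dl := dl) (n := R.n i) (s := R.s i) (y := R.y i) b (hν _)
    (continuous_spinW dl (lim R) L).measurable hFm hF
  rw [tT, tT, tU, tU, ← integral_sub hi1 hi2]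
  refine abs_integral_le_integral_abs.trans ((integral_mono_ae (hi1.sub hi2).abs
    ((integrable_gint (dl := dl) (n := R.n i) (lbl := b.lbl) (f := none) (s := R.s i) (y := R.y i) hμ
      hzn).const_mul (B * r * 2 * (Real.exp L * (8 * ∑ j, |dl j|) * Δ)))
    ((hν (R.N i)).orth.mono fun U hU => ?_)).trans ?_)
  · simp only [Pi.sub_apply]
    refine (abs_tint_weight_le b (hd1 T) (hd1 _) U (fun x => hF U x hU) hB).trans ?_
    rw [mul_assoc (B * r * 2)]
    refine mul_le_mul_of_nonneg_left ((gint_mono (dl := dl) (lbl := b.lbl) (n := R.n i) (f := none) (s := R.s i)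
      (y := R.y i) (Θ' := fun x : Fin 1 → Fin (R.N i) → Bool =>
        Real.exp L * (8 * ∑ j, |dl j|) * Δ * zn (b.fields U (x 0))) U fun x => ?_).trans_eq
        (gint_smul U _ _)) (by positivity)
    exact abs_spinW_sub_le hT (unit0_lim R) _ L
  · rw [integral_const_mul, ← ev]
    refine (mul_le_mul_of_nonneg_left (ev_zn_le b (hν _) hc hi.2.2.2) (by positivity)).trans_eq ?_
    simp only [A, Δ]
    ring

/-- Observables of the base seen in the enlarged systems. -/
lemma exists_chain (hν : ∀ N, OrthInvLaw N (ν N)) (hd : ∀ j, 0 ≤ dlA a β i0 j) :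
    ∃ C : ℝ, 0 ≤ C ∧ ∀ (r : ℕ) (L B ε : ℝ), 0 < L → 0 ≤ B → 0 < ε → ∀ᶠ i in atTop,
      ∀ (F : Arr2 (R.N i) → (Fin r → Fin (R.N i) → Bool) → ℝ)
        (Θ : Arr2 (R.N i + 1) → (Fin r → Fin (R.N i + 1) → Bool) → ℝ),
        (∀ x, Measurable fun U => F U x) → OBdd Θ → (∀ U x, IsOrth U → |F U x| ≤ B) →
        (∀ T, Unit0 T → ∀ U x (t : Fin r → Bool), Θ ((R.base i).splitRot T U)
          (fun l => Fin.snoc (x l) (t l)) = F U x) →
        |eV R β ν i Θ - tT R β ν i (lim R) L F| ≤ r * B * C / L + ε := by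
  obtain ⟨C, hC, h⟩ := exists_transfer R (β := β) hν hd
  refine ⟨C, hC, fun r L B ε hL hB hε => ?_⟩
  filter_upwards [h r L B (ε / 2) hL hB (half_pos hε),
    exists_move R hν hd r hL hB (half_pos hε)] with i h1 h2 F Θ hFm hΘ hF hrel
  have e := h1 F (fun _ => 1) Θ hFm hΘ hF (fun _ => by simp) fun T hT U x t => by
    rw [hrel T hT, Finset.prod_const_one, mul_one]
  simp only [mix_one, Finset.prod_const_one, mul_one] at e
  linarith [abs_sub_le (eV R β ν i Θ) (∫ V, tT R β ν i (colNorm (R.base i).plus V) L F ∂ν (R.N i + 1))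
    (tT R β ν i (lim R) L F), h2 F hFm hF]

/-- The means of the added spin at given norms against those at the limiting norms. -/
lemma abs_tT_spin_sub_le (hν : ∀ N, OrthInvLaw N (ν N)) (hd : ∀ j, 0 ≤ dlA a β i0 j) {c : ℝ}
    (hc : 0 < c) {i : ℕ} (hi : c * (R.N i : ℝ) ≤ csize (R.base i).lbl (some i0))
    {T : Option (Fin K) → ℝ} (hT : Unit0 T) {r : ℕ} {L : ℝ} (hL : 0 < L)
    (F : Arr2 (R.N i) → (Fin r → Fin (R.N i) → Bool) → ℝ) (hFm : ∀ x, Measurable fun U => F U x)
    (hF : ∀ U x, IsOrth U → |F U x| ≤ 1) :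
    |tT R β ν i T L (fun U x => F U x *
          ∏ l, spinT (dlA a β i0) (some i0) T L ((R.base i).fields U (x l))) -
        tT R β ν i T L (fun U x => F U x *
          ∏ l, spinT' (dlA a β i0) (some i0) (lim R) ((R.base i).fields U (x l)))| ≤
      r * (tT R β ν i T L (fun U (x : Fin 1 → Fin (R.N i) → Bool) =>
          min 2 (2 * (∑ j, |dlA a β i0 j|) / L * zn ((R.base i).fields U (x 0)))) +
        32 * (∑ j, |dlA a β i0 j|) *
          (Real.exp L * (1 + (Fintype.card (Fld (some i0 : Option (Fin K))) : ℝ) / c)) *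
          ∑ j, |T j - lim R j|) := by
  have := (hν (R.N i)).prob
  set b := R.base i
  set dl := dlA a β i0
  set D := ∑ j, |dl j|
  set Δ := ∑ j, |T j - lim R j|
  have hD : 0 ≤ D := Finset.sum_nonneg fun _ _ => abs_nonneg _
  set g : (Fld (some i0 : Option (Fin K)) → ℝ) → ℝ := fun z => min 2 (2 * D / L * zn z)
  have hfm : ∀ σ, Measurable fun U => b.fields U σ := fun σ =>
    measurable_pi_lambda _ fun p => (continuous_fields b σ p).measurable
  have hΦ := (continuous_spinW dl (e := (some i0 : Option (Fin K))) T L).measurable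
  have hzm : ∀ x : Fin 1 → Fin (R.N i) → Bool, Measurable fun U => zn (b.fields U (x 0)) :=
    fun x => (continuous_zn_fields b (x 0)).measurable
  have hgm : ∀ x : Fin 1 → Fin (R.N i) → Bool, Measurable fun U => g (b.fields U (x 0)) :=
    fun x => measurable_const.min ((hzm x).const_mul _)
  have hgb : ∀ U (x : Fin 1 → Fin (R.N i) → Bool), IsOrth U → |g (b.fields U (x 0))| ≤ 2 := fun U x _ => by
    rw [abs_of_nonneg (le_min zero_le_two (mul_nonneg (by positivity)
      (zero_le_one.trans (one_le_zn _))))]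
    exact min_le_left _ _
  have hprod : ∀ {φ : (Fld (some i0 : Option (Fin K)) → ℝ) → ℝ}, Measurable φ → (∀ z, |φ z| ≤ 1) →
      (∀ x, Measurable fun U => F U x * ∏ l, φ (b.fields U (x l))) ∧
      ∀ U x, IsOrth U → |F U x * ∏ l, φ (b.fields U (x l))| ≤ 1 := fun {φ} hφ hφ1 =>
    ⟨fun x => (hFm x).mul (Finset.measurable_fun_prod _ fun l _ => hφ.comp (hfm (x l))),
      fun U x hU => by
        rw [abs_mul, Finset.abs_prod]
        exact mul_le_one₀ (hF U x hU) (Finset.prod_nonneg fun l _ => abs_nonneg _)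
          (Finset.prod_le_one (fun l _ => abs_nonneg _) fun l _ => hφ1 _)⟩
  have hT1 : ∀ z, |spinT dl (some i0) T L z| ≤ 1 := fun z => by
    rw [spinT]; exact abs_ratio_le_one _ _
  have p1 := hprod (continuous_spinT dl T L).measurable hT1
  have p2 := hprod (continuous_spinT' dl (lim R)).measurable (abs_spinT'_le_one _)
  have i1 := integrable_tint (dl := dl) (n := R.n i) (s := R.s i) (y := R.y i) b (hν _) hΦ p1.1 p1.2
  have i2 := integrable_tint (dl := dl) (n := R.n i) (s := R.s i) (y := R.y i) b (hν _) hΦ p2.1 p2.2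
  have i3 := integrable_tint (dl := dl) (n := R.n i) (s := R.s i) (y := R.y i) b (hν _) hΦ hgm hgb
  have i4 := integrable_tint (dl := dl) (n := R.n i) (s := R.s i) (y := R.y i) b (hν _) hΦ hzm
    fun U x hU => by
      rw [abs_of_nonneg (zero_le_one.trans (one_le_zn _))]
      exact zn_le_of_orth b hU _
  have h5 := tT_zn_le R (β := β) hν hd hc hi T hL.le
  rw [tT, tU] at h5
  rw [tT, tT, tT, tU, tU, tU, ← integral_sub i1 i2]
  refine abs_integral_le_integral_abs.trans ((integral_mono_ae (i1.sub i2).abs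
    ((i3.add (i4.const_mul (32 * D * Δ))).const_mul (r : ℝ))
    ((hν (R.N i)).orth.mono fun U hU => ?_)).trans ?_)
  · simp only [Pi.sub_apply, Pi.add_apply]
    rw [← tint_lin, ← tint_sum_at b _ U fun σ => g (b.fields U σ) + 32 * D * Δ * zn (b.fields U σ)]
    refine abs_tint_sub_le b _ U fun x => ?_
    rw [← mul_sub, abs_mul]
    refine (mul_le_of_le_one_left (abs_nonneg _) (hF U x hU)).trans
      ((abs_prod_sub_prod_le _ (fun l => hT1 _) fun l => abs_spinT'_le_one _ _).trans
        (Finset.sum_le_sum fun l _ => ?_))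
    refine (abs_sub_le _ (spinT' dl (some i0) T (b.fields U (x l))) _).trans (add_le_add ?_ ?_)
    · refine le_min ((abs_sub _ _).trans ?_) ((abs_spinT_sub_le hT hL _).trans_eq ?_)
      · linarith [hT1 (b.fields U (x l)), abs_spinT'_le_one (dl := dl) T (b.fields U (x l))]
      · simp only [D]; ring
    · exact abs_spinT'_sub_le hT (unit0_lim R) _
  · rw [integral_const_mul, integral_add' i3 (i4.const_mul _), integral_const_mul]
    refine mul_le_mul_of_nonneg_left (add_le_add le_rfl ?_) (Nat.cast_nonneg r)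
    exact (mul_le_mul_of_nonneg_left h5 (by positivity)).trans_eq (by ring)

/-- Observables carrying new spins: the spins become their means at the limiting norms. -/
lemma exists_spin_chain (hν : ∀ N, OrthInvLaw N (ν N)) (hd : ∀ j, 0 ≤ dlA a β i0 j) (r : ℕ) :
    ∃ C : ℝ, 0 ≤ C ∧ ∀ (L ε : ℝ), 0 < L → 0 < ε → ∀ᶠ i in atTop,
      ∀ (F : Arr2 (R.N i) → (Fin r → Fin (R.N i) → Bool) → ℝ)
        (Θ : Arr2 (R.N i + 1) → (Fin r → Fin (R.N i + 1) → Bool) → ℝ),
        (∀ x, Measurable fun U => F U x) → OBdd Θ → (∀ U x, IsOrth U → |F U x| ≤ 1) →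
        (∀ T, Unit0 T → ∀ U x (t : Fin r → Bool), Θ ((R.base i).splitRot T U)
          (fun l => Fin.snoc (x l) (t l)) = F U x * ∏ l, spin (t l)) →
        |eV R β ν i Θ - tT R β ν i (lim R) L (fun U x => F U x *
          ∏ l, spinT' (dlA a β i0) (some i0) (lim R) ((R.base i).fields U (x l)))| ≤ C / L + ε := by
  obtain ⟨C, hC, h⟩ := exists_transfer R (β := β) hν hd
  obtain ⟨Cs, hCs, hs⟩ := exists_small R (β := β) hν
  obtain ⟨c, hc, hsh⟩ := exists_plus_share R
  set D := ∑ j, |dlA a β i0 j| with hD'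
  have hD : 0 ≤ D := Finset.sum_nonneg fun _ _ => abs_nonneg _
  set Cz : ℝ := 1 + (Fintype.card (Fld (some i0 : Option (Fin K))) : ℝ) / c
  refine ⟨r * C + r * (2 * D * Cs + 2 * C), by positivity, fun L ε hL hε => ?_⟩
  set η : ℝ := ε / (4 * ((r : ℝ) + 1))
  have hη : 0 < η := by positivity
  set A : ℝ := 32 * D * (Real.exp L * Cz)
  have hbad : Tendsto (fun i => 2 * Cs * badI R ν i +
      A * ∫ V, ∑ j, |colNorm (R.base i).plus V j - lim R j| ∂ν (R.N i + 1)) atTop (𝓝 0) := by
    simpa [badI] using ((tendsto_bad R hν).const_mul (2 * Cs)).add ((tendsto_colDist R hν).const_mul A)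
  filter_upwards [h r L 1 η hL zero_le_one hη, h 1 L 2 η hL zero_le_two hη,
    exists_move R hν hd r hL zero_le_one hη, hs, hsh, hbad.eventually (gt_mem_nhds hη)]
    with i h1 h2 h3 h4 hi hbi F Θ hFm hΘ hF hrel
  have := (hν (R.N i + 1)).prob
  have := (hν (R.N i)).prob
  set b := R.base i
  set dl := dlA a β i0
  have e1 := h1 F spin Θ hFm hΘ hF (fun t => by cases t <;> simp [spin]) hrel
  simp only [mix_spin] at e1
  set g : (Fld (some i0 : Option (Fin K)) → ℝ) → ℝ := fun z => min 2 (2 * D / L * zn z) with hg'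
  have hg0 : ∀ z, 0 ≤ g z := fun z => le_min zero_le_two
    (mul_nonneg (by positivity) (zero_le_one.trans (one_le_zn z)))
  have hgm : ∀ x : Fin 1 → Fin (R.N i) → Bool, Measurable fun U => g (b.fields U (x 0)) := fun x =>
    (measurable_const.min ((continuous_zn_fields b (x 0)).measurable.const_mul _))
  set G : Arr2 (R.N i + 1) → (Fin 1 → Fin (R.N i + 1) → Bool) → ℝ :=
    fun W x => min 2 (2 * D / L * zW b W (x 0))
  have hG : OBdd G := OBdd.of_continuous fun x =>
    continuous_const.min ((continuous_zW b (x 0)).const_mul _)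
  have hG0 : ∀ W x, 0 ≤ G W x := fun W x =>
    le_min zero_le_two (mul_nonneg (by positivity) (zW_nonneg b W _))
  have e2 := h2 (fun U x => g (b.fields U (x 0))) (fun _ => 1) G hgm hG
    (fun U x _ => by rw [abs_of_nonneg (hg0 _)]; exact min_le_left _ _) (fun _ => by simp)
    fun T _ U x t => by simp [G, g, zW_splitRot]
  simp only [mix_one, Finset.prod_const_one, mul_one] at e2
  have e4 := h4 1 0 0 G 2 (2 * D / L) hG zero_le_two (by positivity)
    (fun W x _ => by rw [abs_of_nonneg (hG0 W x)]; exact min_le_left _ _)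
    fun W x _ => by
      rw [abs_of_nonneg (hG0 W x)]
      exact (min_le_right _ _).trans (mul_le_mul_of_nonneg_left
        (le_add_of_nonneg_right (zW_nonneg b W _)) (by positivity))
  set F' : Arr2 (R.N i) → (Fin r → Fin (R.N i) → Bool) → ℝ := fun U x =>
    F U x * ∏ l, spinT' dl (some i0) (lim R) (b.fields U (x l))
  have hfm : ∀ σ, Measurable fun U => b.fields U σ := fun σ =>
    measurable_pi_lambda _ fun p => (continuous_fields b σ p).measurable
  have hF'm : ∀ x, Measurable fun U => F' U x := fun x => (hFm x).mul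
    (Finset.measurable_fun_prod _ fun l _ => (continuous_spinT' _ _).measurable.comp (hfm (x l)))
  have hF'b : ∀ U x, IsOrth U → |F' U x| ≤ 1 := fun U x hU => by
    rw [abs_mul, Finset.abs_prod]
    exact mul_le_one₀ (hF U x hU) (Finset.prod_nonneg fun l _ => abs_nonneg _)
      (Finset.prod_le_one (fun l _ => abs_nonneg _) fun l _ => abs_spinT'_le_one _ _)
  have e3 := h3 F' hF'm hF'b
  set Fm : (Option (Fin K) → ℝ) → Arr2 (R.N i) → (Fin r → Fin (R.N i) → Bool) → ℝ := fun T U x =>
    F U x * ∏ l, spinT dl (some i0) T L (b.fields U (x l))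
  have hFmm : ∀ x, Measurable fun p : (Option (Fin K) → ℝ) × Arr2 (R.N i) => Fm p.1 p.2 x := fun x => by
    have h1 : Measurable ((fun U => F U x) ∘ fun p : (Option (Fin K) → ℝ) × Arr2 (R.N i) => p.2) :=
      (hFm x).comp measurable_snd
    simp only [Function.comp_def] at h1
    refine h1.mul (Finset.measurable_fun_prod _ fun l _ => ?_)
    simp only [← mix_spin]
    have hf : Measurable fun p : (Option (Fin K) → ℝ) × Arr2 (R.N i) => (p.1, b.fields p.2 (x l)) :=
      measurable_fst.prodMk ((hfm (x l)).comp measurable_snd)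
    have h' := (measurable_mix_joint (e := (some i0 : Option (Fin K))) dl L spin).comp hf
    simp only [Function.comp_def] at h'
    exact h'
  have hFmb : ∀ T U x, IsOrth U → |Fm T U x| ≤ 1 := fun T U x hU => by
    rw [abs_mul, Finset.abs_prod]
    refine mul_le_one₀ (hF U x hU) (Finset.prod_nonneg fun l _ => abs_nonneg _)
      (Finset.prod_le_one (fun l _ => abs_nonneg _) fun l _ => ?_)
    rw [spinT]
    exact abs_ratio_le_one _ _
  have hiA := integrable_tT R (β := β) hν i L hFmm hFmb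
  have hiB := integrable_tT R (β := β) hν i L (Θ := fun _ => F') (fun x => (hF'm x).comp measurable_snd)
    fun _ => hF'b
  have hiG := integrable_tT R (β := β) hν i L
    (Θ := fun _ U (x : Fin 1 → Fin (R.N i) → Bool) => g (b.fields U (x 0)))
    (fun x => (hgm x).comp measurable_snd) (B := 2)
    fun _ U x _ => by rw [abs_of_nonneg (hg0 _)]; exact min_le_left _ _
  have hdiff : |∫ V, tT R β ν i (colNorm b.plus V) L (Fm (colNorm b.plus V)) ∂ν (R.N i + 1) -
      ∫ V, tT R β ν i (colNorm b.plus V) L F' ∂ν (R.N i + 1)| ≤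
      r * ((∫ V, tT R β ν i (colNorm b.plus V) L
        (fun U (x : Fin 1 → Fin (R.N i) → Bool) => g (b.fields U (x 0))) ∂ν (R.N i + 1)) +
        A * ∫ V, ∑ j, |colNorm b.plus V j - lim R j| ∂ν (R.N i + 1)) := by
    rw [← integral_sub hiA hiB, ← integral_const_mul A,
      ← integral_add hiG ((integrable_colDist R hν i).const_mul A), ← integral_const_mul (r : ℝ)]
    refine abs_integral_le_integral_abs.trans (integral_mono_ae (hiA.sub hiB).abs
      ((hiG.add ((integrable_colDist R hν i).const_mul A)).const_mul _)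
      ((hν (R.N i + 1)).orth.mono fun V hV => ?_))
    simp only [Pi.sub_apply, Pi.add_apply]
    exact abs_tT_spin_sub_le R hν hd hc hi.2.2.2 (unit0_colNorm b.plus hV) hL F hFm hF
  have hG4 : ∫ V, tT R β ν i (colNorm b.plus V) L
      (fun U (x : Fin 1 → Fin (R.N i) → Bool) => g (b.fields U (x 0))) ∂ν (R.N i + 1) ≤
      (2 * D * Cs + 2 * C) / L + η + 2 * Cs * badI R ν i := by
    have e : (2 * D * Cs + 2 * C) / L = 2 * D / L * Cs + ((1 : ℕ) : ℝ) * 2 * C / L := by
      push_cast; ring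
    linarith [(abs_le.1 e2).1, (abs_le.1 e4).2]
  have hr : (r : ℝ) * η * 3 + η * 2 ≤ ε := by
    simp only [η]
    rw [← mul_div_assoc, div_mul_eq_mul_div, div_mul_eq_mul_div, ← add_div, div_le_iff₀ (by positivity)]
    nlinarith [mul_nonneg hε.le (Nat.cast_nonneg (α := ℝ) r)]
  have hr' := mul_le_mul_of_nonneg_left (show
      (∫ V, tT R β ν i (colNorm b.plus V) L
        (fun U (x : Fin 1 → Fin (R.N i) → Bool) => g (b.fields U (x 0))) ∂ν (R.N i + 1)) +
      A * (∫ V, ∑ j, |colNorm b.plus V j - lim R j| ∂ν (R.N i + 1)) ≤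
      (2 * D * Cs + 2 * C) / L + 2 * η by linarith) (Nat.cast_nonneg (α := ℝ) r)
  have e5 : (r * C + r * (2 * D * Cs + 2 * C)) / L = (r : ℝ) * 1 * C / L + r * ((2 * D * Cs + 2 * C) / L) := by
    ring
  have hrη : 0 ≤ (r : ℝ) * η := by positivity
  linarith [abs_sub_le (eV R β ν i Θ)
    (∫ V, tT R β ν i (colNorm b.plus V) L (Fm (colNorm b.plus V)) ∂ν (R.N i + 1))
    (tT R β ν i (lim R) L F'),
    abs_sub_le (∫ V, tT R β ν i (colNorm b.plus V) L (Fm (colNorm b.plus V)) ∂ν (R.N i + 1))
      (∫ V, tT R β ν i (colNorm b.plus V) L F' ∂ν (R.N i + 1)) (tT R β ν i (lim R) L F')]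

end Vale.Agent.P166F.Low.Tgt
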